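import Crest.Agent.R192.Avg0

/-! Row 192: window averages along a loop. -/

set_option autoImplicit false
set_option linter.unusedSectionVars false
set_option linter.unusedVariables false

open scoped ContDiff Matrix Topology
open MeasureTheory

noncomputable section

namespace Crest.Agent.R192

variable {G : Type} [Group G] {p : ℕ} {Q Q₁ Q₂ : ℝ → ℝ} {L : Loop G p} {ℓ : G → ℝ}

theorem avg_len_nonneg (hℓ : IsLen ℓ) (x : G) : 0 ≤ ℓ x := by
  have h := hℓ.mul x x⁻¹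
  rw [mul_inv_cancel, hℓ.one, hℓ.inv] at h
  linarith

theorem avg_summable {h w : ℝ} (hQ : KB Q h w) (u : ℝ) (f : ℤ → ℝ) :
    Summable fun m : ℤ => Q (u - m) * f m := by
  refine summable_of_hasFiniteSupport ((hQ.finite_support u).subset fun m hm => ?_)
  exact left_ne_zero_of_mul hm

/-- Abel summation -/
theorem fld_eq_jmp {h w : ℝ} (hQ : KB Q h w) (q : ℝ × Tm p) (z : G) :
    fld Q ℓ p L q z = jmp Q ℓ L q (fun _ => 1) z := by
  have key : ∑ l, ∑' m : ℤ, Q (q.1 - nxt q.2 l - m) * ℓ ((L.g ^ m * L.x l)⁻¹ * z) =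
      ∑ l, ∑' m : ℤ, Q (q.1 - q.2 l - m) * ℓ ((L.g ^ m * L.prv l)⁻¹ * z) := by
    rw [Fin.sum_univ_castSucc, Fin.sum_univ_succ, add_comm]
    congr 1
    · rw [nxt_last, Loop.prv_zero, ← (Equiv.addRight (1 : ℤ)).tsum_eq
        (fun m : ℤ => Q (q.1 - q.2 0 - m) * ℓ ((L.g ^ m * (L.g⁻¹ * L.x (Fin.last p)))⁻¹ * z))]
      refine tsum_congr fun m => ?_
      simp only [Equiv.coe_addRight]
      congr 2
      · push_cast; ring
      · rw [zpow_add_one]; group
    · refine Finset.sum_congr rfl fun j _ => ?_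
      rw [nxt_castSucc, Loop.prv_succ]
  simp only [fld, avg, jmp, wt, one_mul, sub_mul, mul_sub]
  rw [Finset.sum_congr rfl fun l _ => (avg_summable hQ (q.1 - q.2 l) _).tsum_sub
      (avg_summable hQ (q.1 - nxt q.2 l) _),
    Finset.sum_congr rfl fun l _ => (avg_summable hQ (q.1 - q.2 l) _).tsum_sub
      (avg_summable hQ (q.1 - q.2 l) _), Finset.sum_sub_distrib, Finset.sum_sub_distrib, key]

/-- the weights of the Heaviside function are in `{0, 1}` with sum `1`, so exactly one of them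
is `1`: take `z = g ^ m * x l` there (e.g. `m = ⌊s - ξ 0⌋` and `l` the largest index with
`ξ l + m ≤ s`; all other weights vanish) -/
theorem exists_fld_heaviside (hℓ : ℓ 1 = 0) (s : ℝ) {ξ : Tm p} (hξ : Sx ξ) :
    ∃ z, fld (fun u : ℝ => if 0 ≤ u then 1 else 0) ℓ p L (s, ξ) z = 0 := by
  set m : ℤ := ⌊s - ξ 0⌋ with hm
  have hm1 : ξ 0 ≤ s - m := by have := Int.floor_le (s - ξ 0); linarith
  have hm2 : s - m < ξ 0 + 1 := by have := Int.lt_floor_add_one (s - ξ 0); linarith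
  obtain ⟨l, hl, hmax⟩ := Finset.exists_max_image
    (Finset.univ.filter fun l : Fin (p + 1) => ξ l ≤ s - m) id ⟨0, by simpa using hm1⟩
  have hl1 : ξ l ≤ s - m := (Finset.mem_filter.1 hl).2
  have hl2 : s - m < nxt ξ l := by
    rcases Fin.eq_castSucc_or_eq_last l with ⟨j, rfl⟩ | rfl
    · rw [nxt_castSucc]
      by_contra hc
      have := hmax j.succ (Finset.mem_filter.2 ⟨Finset.mem_univ _, not_lt.1 hc⟩)
      exact absurd this (not_le.2 Fin.castSucc_lt_succ)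
    · rw [nxt_last]; exact hm2
  refine ⟨L.g ^ m * L.x l, ?_⟩
  simp only [fld, avg]
  refine Finset.sum_eq_zero fun l' _ => ?_
  refine (tsum_congr fun m' => ?_).trans tsum_zero
  by_cases hw : ξ l' ≤ s - m' ∧ s - m' < nxt ξ l'
  · have h1 := hξ.le l'
    have hmm : m' = m := by
      rw [hm]
      symm
      rw [Int.floor_eq_iff]
      constructor <;> linarith [hw.1, hw.2, h1.1, h1.2]
    subst hmm
    have hll : l' = l := by
      rcases lt_trichotomy l' l with hlt | heq | hgt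
      · exfalso
        have : extT ξ l'.succ ≤ extT ξ l.castSucc :=
          hξ.monotone_extT (Fin.succ_le_castSucc_iff.2 hlt)
        rw [extT_castSucc] at this
        have h2 : nxt ξ l' = extT ξ l'.succ := rfl
        linarith [hw.2]
      · exact heq
      · exact absurd (hmax l' (Finset.mem_filter.2 ⟨Finset.mem_univ _, hw.1⟩)) (not_le.2 hgt)
    subst hll
    rw [inv_mul_cancel, hℓ, mul_zero]
  · have h1 := hξ l'
    refine mul_eq_zero_of_left ?_ _
    simp only [wt]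
    split_ifs with ha hb hb
    · ring
    · exact absurd ⟨by linarith, by linarith⟩ hw
    · exact absurd (by linarith) ha
    · ring

theorem abs_jmp_le {h w : ℝ} (hQ : KB Q h w) (hw : 0 < w) (hℓ : IsLen ℓ) (q : ℝ × Tm p)
    (c : Tm p) (z : G) :
    |jmp Q ℓ L q c z| ≤ ∑ l, |c l| * ℓ (L.jump l) * (h * maj w (q.1 - q.2 l)) := by
  unfold jmp
  refine (Finset.abs_sum_le_sum_abs _ _).trans (Finset.sum_le_sum fun l _ => ?_)
  rw [abs_mul, mul_assoc]
  refine mul_le_mul_of_nonneg_left ?_ (abs_nonneg _)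
  have hd : ∀ m : ℤ, |ℓ ((L.g ^ m * L.x l)⁻¹ * z) - ℓ ((L.g ^ m * L.prv l)⁻¹ * z)| ≤
      ℓ (L.jump l) := by
    intro m
    have h1 := hℓ.mul (L.jump l) ((L.g ^ m * L.x l)⁻¹ * z)
    have h2 := hℓ.mul (L.jump l)⁻¹ ((L.g ^ m * L.prv l)⁻¹ * z)
    rw [show L.jump l * ((L.g ^ m * L.x l)⁻¹ * z) = (L.g ^ m * L.prv l)⁻¹ * z by
      unfold Loop.jump; group] at h1
    rw [show (L.jump l)⁻¹ * ((L.g ^ m * L.prv l)⁻¹ * z) = (L.g ^ m * L.x l)⁻¹ * z by
      unfold Loop.jump; group, hℓ.inv] at h2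
    rw [abs_le]; constructor <;> linarith
  have hs : Summable fun m : ℤ => |Q (q.1 - q.2 l - m)| := by
    simpa using (avg_summable hQ (q.1 - q.2 l) fun _ => 1).abs
  have h1 := tsum_of_norm_bounded (f := fun m : ℤ => Q (q.1 - q.2 l - m) *
      (ℓ ((L.g ^ m * L.x l)⁻¹ * z) - ℓ ((L.g ^ m * L.prv l)⁻¹ * z)))
    (hs.mul_left (ℓ (L.jump l))).hasSum fun m => by
      rw [Real.norm_eq_abs, abs_mul, mul_comm]
      exact mul_le_mul_of_nonneg_right (hd m) (abs_nonneg _)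
  rw [Real.norm_eq_abs, tsum_mul_left] at h1
  exact h1.trans (mul_le_mul_of_nonneg_left (hQ.tsum_abs_le hw _) (avg_len_nonneg hℓ _))

theorem locB_jmp {h w lip : ℝ} (hQ : KB Q h w) (hw : 0 < w) (hℓ : IsLen ℓ) {r : Tm p}
    (hr : ∀ l, 0 < r l) (hl : ∀ l, ℓ (L.jump l) ≤ lip * r l) (ξ : Tm p) :
    LocB ξ (lip * h) w fun s z l => jmp Q ℓ L (s, ξ) (Pi.single l 1) z / r l := by
  intro s z l
  have h1 := abs_jmp_le (L := L) hQ hw hℓ (s, ξ) (Pi.single l 1) z
  rw [Finset.sum_eq_single l (fun l' _ hne => by simp [Pi.single_eq_of_ne hne]) (by simp)] at h1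
  simp only [Pi.single_eq_same, abs_one, one_mul] at h1
  rw [abs_div, abs_of_pos (hr l), div_le_iff₀ (hr l)]
  have h2 : 0 ≤ h * maj w (s - ξ l) := mul_nonneg hQ.nonneg (maj_nonneg _ _)
  calc _ ≤ ℓ (L.jump l) * (h * maj w (s - ξ l)) := h1
    _ ≤ lip * r l * (h * maj w (s - ξ l)) := mul_le_mul_of_nonneg_right (hl l) h2
    _ = _ := by ring

/-! ### comparison of windows for the scaled kernels -/

theorem fld_D1 (h0 : ∀ x, 0 ≤ ℓ x) {η η' s s' : ℝ} (hη : 0 < η) (hη' : 0 < η')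
    (h : 3 * η' / 4 + |s' - s| ≤ η / 4) {ξ : Tm p} (hξ : Sx ξ) (z : G) :
    fld (Rη η') ℓ p L (s', ξ) z ≤ η / η' * fld (Rη η) ℓ p L (s, ξ) z := by
  have := avg_dom (L := L) (rk_Rη hη').evC (rk_Rη hη).evC (mono_D1 hη hη' h) (s := s) hξ
    (f := fun y => ℓ (y⁻¹ * z)) fun y => h0 _
  rwa [add_sub_cancel] at this

/-- exchange the integral with the finite sum (`EvC.exists_finset`) -/
theorem cv_fld {h w : ℝ} (h₁ : KB Q₁ h w) (hc₁ : Continuous Q₁) (h₂ : EvC Q₂)
    (hc₂ : Continuous Q₂) (q : ℝ × Tm p) (z : G) :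
    cv Q₁ (fld Q₂ ℓ) p L q z = fld (kconv Q₁ Q₂) ℓ p L q z := by
  obtain ⟨S, hS⟩ := h₂.exists_finset (p := p) (‖q‖ + |w|)
  have hint : ∀ u : ℝ, Integrable fun v => Q₁ v * Q₂ (u - v) := by
    intro u
    refine (hc₁.mul (hc₂.comp (continuous_const.sub continuous_id))).integrable_of_hasCompactSupport
      (HasCompactSupport.intro (isCompact_Icc (a := -w) (b := w)) fun v hv => ?_)
    rw [Pi.mul_apply, h₁.2 v, zero_mul]
    by_contra hc
    exact hv (abs_le.1 (not_lt.1 hc))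
  have hz : ∀ v l, ∀ m ∉ S, Q₁ v * wt Q₂ (q.1 - v, q.2) l m = 0 := by
    intro v l m hm
    by_cases hv : w < |v|
    · rw [h₁.2 v hv, zero_mul]
    · rw [hS _ ?_ l m hm, mul_zero]
      have e : (q.1 - v, q.2) = q - (v, 0) := by ext <;> simp
      rw [e]
      refine (norm_sub_le _ _).trans (add_le_add le_rfl ?_)
      simp only [Prod.norm_mk, norm_zero, Real.norm_eq_abs]
      exact max_le ((not_lt.1 hv).trans (le_abs_self _)) (abs_nonneg _)
  have hint2 : ∀ (l : Fin (p + 1)) (m : ℤ),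
      Integrable fun v => Q₁ v * wt Q₂ (q.1 - v, q.2) l m := by
    intro l m
    refine ((hint (q.1 - q.2 l - m)).sub (hint (q.1 - nxt q.2 l - m))).congr
      (Filter.Eventually.of_forall fun v => ?_)
    simp only [wt, Pi.sub_apply, mul_sub]
    congr 3 <;> ring
  have hwt : ∀ (l : Fin (p + 1)) (m : ℤ),
      wt (kconv Q₁ Q₂) q l m = ∫ v, Q₁ v * wt Q₂ (q.1 - v, q.2) l m := by
    intro l m
    simp only [wt, kconv]
    rw [← integral_sub (hint _) (hint _)]
    refine integral_congr_ae (Filter.Eventually.of_forall fun v => ?_)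
    simp only [mul_sub]
    congr 3 <;> ring
  simp only [cv, fld, avg]
  have e1 : ∀ v, Q₁ v * ∑ l, ∑' m : ℤ, wt Q₂ (q.1 - v, q.2) l m * ℓ ((L.g ^ m * L.x l)⁻¹ * z) =
      ∑ l, ∑ m ∈ S, Q₁ v * wt Q₂ (q.1 - v, q.2) l m * ℓ ((L.g ^ m * L.x l)⁻¹ * z) := by
    intro v
    rw [Finset.mul_sum]
    refine Finset.sum_congr rfl fun l _ => ?_
    rw [← tsum_mul_left, tsum_eq_sum (s := S) fun m hm => by rw [← mul_assoc, hz v l m hm, zero_mul]]
    exact Finset.sum_congr rfl fun m _ => (mul_assoc _ _ _).symm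
  simp only [e1]
  rw [integral_finsetSum _ fun l _ => integrable_finsetSum _ fun m _ => (hint2 l m).mul_const _]
  refine Finset.sum_congr rfl fun l _ => ?_
  rw [integral_finsetSum _ fun m _ => (hint2 l m).mul_const _,
    tsum_eq_sum (s := S) fun m hm => by simp [hwt, hz _ l m hm]]
  exact Finset.sum_congr rfl fun m _ => by rw [hwt, integral_mul_const]

theorem fld_D2 (h0 : ∀ x, 0 ≤ ℓ x) {a b s : ℝ} (hb : 0 < b) (hba : b ≤ a) {ξ : Tm p}
    (hξ : Sx ξ) (z : G) :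
    cv (ρη a) (fld (Rη b) ℓ) p L (s, ξ) z ≤ 8 * fld (Rη (8 * a)) ℓ p L (s, ξ) z := by
  have ha : 0 < a := hb.trans_le hba
  rw [cv_fld (kb_ρη ha) (contDiff_ρη a).continuous (rk_Rη hb).evC (contDiff_Rη b).continuous]
  have := avg_dom (L := L) (δ := 0) (rk_kconv ha hb).evC (rk_Rη (η := 8 * a) (by positivity)).evC
    (by simpa only [add_zero] using mono_D2 hb hba) (s := s) hξ
    (f := fun y => ℓ (y⁻¹ * z)) fun y => h0 _
  rwa [add_zero] at this

theorem fld_D3 (h0 : ∀ x, 0 ≤ ℓ x) {a b s : ℝ} (hb : 0 < b) (hba : 8 * b ≤ a) {ξ : Tm p}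
    (hξ : Sx ξ) (z : G) :
    fld (Rη (a / 8)) ℓ p L (s, ξ) z ≤ 8 * cv (ρη a) (fld (Rη b) ℓ) p L (s, ξ) z := by
  have ha : 0 < a := by linarith
  rw [cv_fld (kb_ρη ha) (contDiff_ρη a).continuous (rk_Rη hb).evC (contDiff_Rη b).continuous]
  have := avg_dom (L := L) (δ := 0) (rk_Rη (η := a / 8) (by positivity)).evC (rk_kconv ha hb).evC
    (by simpa only [add_zero] using mono_D3 hb hba) (s := s) hξ
    (f := fun y => ℓ (y⁻¹ * z)) fun y => h0 _
  rwa [add_zero] at this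

/-- `ℓ (z₀⁻¹ z₁) ≤ V' z₀ + V' z₁ ≤ 8 y` for the window `V'` of size `η / 4` at time `s₀`
(`fld_D1` twice), and `ℓ (z₁⁻¹ z) ≤ V z₁ + V z` at time `s` -/
theorem near_center (hℓ : IsLen ℓ) {η s s₀ y : ℝ} (hη : 0 < η) (hs : |s - s₀| ≤ η / 16)
    {ξ : Tm p} (hξ : Sx ξ) {z₀ z₁ : G} (h₀ : fld (Rη η) ℓ p L (s₀, ξ) z₀ ≤ y)
    (h₁ : fld (Rη η) ℓ p L (s, ξ) z₁ ≤ y) (z : G) :
    ℓ (z₀⁻¹ * z) - 9 * y ≤ fld (Rη η) ℓ p L (s, ξ) z := by
  have hη' : 0 < η / 4 := by positivity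
  have e : η / (η / 4) = 4 := by field_simp
  have a0 := fld_D1 (L := L) hℓ.nonneg (s := s₀) (s' := s₀) hη hη'
    (by rw [sub_self, abs_zero]; linarith) hξ z₀
  have a1 := fld_D1 (L := L) hℓ.nonneg (s := s) (s' := s₀) hη hη'
    (by rw [abs_sub_comm]; linarith) hξ z₁
  rw [e] at a0 a1
  have b0 := le_fld_add_fld (L := L) (rk_Rη hη') hℓ (s := s₀) hξ z₁ z₀
  have b1 := le_fld_add_fld (L := L) (rk_Rη hη) hℓ (s := s) hξ z z₁
  have := hℓ.tri z₀ z₁ z
  linarith

/-- At the top scale the window contains `M` full periods with constant density `1 / η`: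
take `m₀ = ⌈s - ξ 0 - η / 4⌉`; for `m₀ ≤ m < m₀ + M` the weight is `(nxt ξ l - ξ l) / η`
(`Rη_sub`, `Sx.le`), and at least `M / 2` of the points `g ^ m * (g ^ m₀ * x l)` are far. -/
theorem fld_top (hℓ : IsLen ℓ) {T η s : ℝ} (hT : 0 ≤ T) {M : ℕ} (hM : 1 ≤ M)
    (hF : Far ℓ T M L.g) (h1 : 2 * M + 2 ≤ η) (h2 : η ≤ 4 * M + 4) {ξ : Tm p} (hξ : Sx ξ)
    (z : G) : T / 16 ≤ fld (Rη η) (fun x => min (ℓ x) T) p L (s, ξ) z := by
  classical
  have hM' : (1 : ℝ) ≤ M := by exact_mod_cast hM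
  have hη : 0 < η := by linarith
  set m₀ : ℤ := ⌈s - ξ 0 - η / 4⌉ with hm₀
  have hm1 : s - ξ 0 - η / 4 ≤ m₀ := Int.le_ceil _
  have hm2 : (m₀ : ℝ) < s - ξ 0 - η / 4 + 1 := Int.ceil_lt_add_one _
  have key : ∀ l : Fin (p + 1), (nxt ξ l - ξ l) / η * (T * (M / 2)) ≤
      ∑' m : ℤ, wt (Rη η) (s, ξ) l m * min (ℓ ((L.g ^ m * L.x l)⁻¹ * z)) T := by
    intro l
    have hw0 : ∀ m : ℤ, 0 ≤ wt (Rη η) (s, ξ) l m := fun m =>
      sub_nonneg.2 ((rk_Rη hη).1 (by have := hξ l; dsimp only; linarith))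
    have hsum : Summable fun m : ℤ =>
        wt (Rη η) (s, ξ) l m * min (ℓ ((L.g ^ m * L.x l)⁻¹ * z)) T :=
      summable_of_hasFiniteSupport (((rk_Rη hη).evC.wt_finite (s, ξ) l).subset fun m hm =>
        left_ne_zero_of_mul hm)
    refine le_trans ?_ (hsum.sum_le_tsum ((Finset.range M).image fun k : ℕ => m₀ + k) fun m _ =>
      mul_nonneg (hw0 m) (le_min (hℓ.nonneg _) hT))
    rw [Finset.sum_image fun a _ b _ hab => by exact_mod_cast add_left_cancel hab]
    have hw : ∀ k ∈ Finset.range M, wt (Rη η) (s, ξ) l (m₀ + k) = (nxt ξ l - ξ l) / η := by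
      intro k hk
      have hk' : (k : ℝ) + 1 ≤ M := by exact_mod_cast Finset.mem_range.1 hk
      have hk0 : (0 : ℝ) ≤ k := Nat.cast_nonneg _
      have h3 := hξ.le l
      have h4 := hξ l
      simp only [wt]
      push_cast
      rw [Rη_sub hη (by linarith [h3.2]) (by linarith) (by linarith [h3.1])]
      congr 1; ring
    rw [Finset.sum_congr rfl fun k hk => by rw [hw k hk], ← Finset.mul_sum]
    refine mul_le_mul_of_nonneg_left ?_ (div_nonneg (sub_nonneg.2 (hξ l)) hη.le)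
    have hc := hF (L.g ^ m₀ * L.x l) z
    set P : ℕ → Prop := fun k => ℓ ((L.g ^ k * (L.g ^ m₀ * L.x l))⁻¹ * z) < T with hP
    have hcard := Finset.card_filter_add_card_filter_not (s := Finset.range M) P
    rw [Finset.card_range] at hcard
    have hc' : (M : ℝ) / 2 ≤ ((Finset.range M).filter fun k => ¬ P k).card := by
      have h5 : M ≤ 2 * ((Finset.range M).filter fun k => ¬ P k).card := by
        have : 2 * ((Finset.range M).filter P).card ≤ M := by convert hc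
        omega
      have : (M : ℝ) ≤ 2 * ((Finset.range M).filter fun k => ¬ P k).card := by exact_mod_cast h5
      linarith
    calc T * (M / 2) ≤ ∑ k ∈ (Finset.range M).filter fun k => ¬ P k, T := by
          rw [Finset.sum_const, nsmul_eq_mul, mul_comm]
          exact mul_le_mul_of_nonneg_right hc' hT
      _ ≤ ∑ k ∈ (Finset.range M).filter fun k => ¬ P k,
            min (ℓ ((L.g ^ (m₀ + k) * L.x l)⁻¹ * z)) T := by
          refine Finset.sum_le_sum fun k hk => le_min ?_ le_rfl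
          have := not_lt.1 (Finset.mem_filter.1 hk).2
          rwa [show L.g ^ (m₀ + k) * L.x l = L.g ^ k * (L.g ^ m₀ * L.x l) by
            rw [add_comm, zpow_add, zpow_natCast, mul_assoc]]
      _ ≤ _ := Finset.sum_le_sum_of_subset_of_nonneg (Finset.filter_subset _ _) fun k _ _ =>
          le_min (hℓ.nonneg _) hT
  simp only [fld, avg]
  refine le_trans ?_ (Finset.sum_le_sum fun l _ => key l)
  rw [← Finset.sum_mul, ← Finset.sum_div, sum_nxt_sub, div_mul_eq_mul_div, one_mul,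
    div_le_div_iff₀ (by norm_num) hη]
  nlinarith

end Crest.Agent.R192
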