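import Crest.Agent.R192.Ex

/-! Row 192: expectations, Gibbs measures, lengths. -/

set_option autoImplicit false
set_option linter.unusedSectionVars false
set_option linter.unusedVariables false

open scoped ContDiff Matrix Topology
open MeasureTheory

noncomputable section

namespace Crest.Agent.R192

variable {G : Type}

section Gibbs
variable [Nonempty G] {V W f k : G → ℝ} {Z : ℝ}

theorem Zf_pos (hV : Summable fun z => Real.exp (-V z)) : 0 < Zf V := by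
  exact hV.tsum_pos (fun _ => (Real.exp_pos _).le) (Classical.arbitrary G) (Real.exp_pos _)

theorem prob_gibbs (hV : Summable fun z => Real.exp (-V z)) : Prob (gibbs V) := by
  refine ⟨fun z => div_nonneg (Real.exp_pos _).le (Zf_pos hV).le, ?_⟩
  rw [← div_self (Zf_pos hV).ne']
  exact hV.hasSum.div_const (Zf V)

theorem gibbs_pos (hV : Summable fun z => Real.exp (-V z)) (z : G) : 0 < gibbs V z := by
  exact div_pos (Real.exp_pos _) (Zf_pos hV)

theorem gibbs_eq (hV : Summable fun z => Real.exp (-V z)) (z : G) :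
    gibbs V z = Real.exp (Ff V - V z) := by
  rw [gibbs, Ff, neg_sub_comm, Real.exp_sub, Real.exp_log (Zf_pos hV)]

theorem Ff_le (hV : Summable fun z => Real.exp (-V z)) (z : G) : Ff V ≤ V z := by
  rw [Ff, neg_le, Real.le_log_iff_exp_le (Zf_pos hV)]
  exact hV.le_tsum z fun _ _ => (Real.exp_pos _).le

theorem summable_exp_of_bdd (hV : Summable fun z => Real.exp (-V z))
    (hb : Bdd fun z => W z - V z) : Summable fun z => Real.exp (-W z) := by
  obtain ⟨C, hC⟩ := hb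
  refine (hV.mul_left (Real.exp C)).of_nonneg_of_le (fun _ => (Real.exp_pos _).le) fun z => ?_
  rw [← Real.exp_add]
  exact Real.exp_le_exp.2 (by linarith [(abs_le.1 (hC z)).1])

/-- Gibbs' inequality.  `Zf W / Zf V = E_V exp (V - W) ≥ exp (E_V (V - W))` (use
`1 + t ≤ exp t` with `t = V - W - E_V (V - W)`). -/
theorem gibbs_ineq (hV : Summable fun z => Real.exp (-V z))
    (hW : Summable fun z => Real.exp (-W z))
    (hs : Summable fun z => gibbs V z * (W z - V z)) :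
    Ff W - Ff V ≤ Ef V fun z => W z - V z := by
  set m := Ef V fun z => W z - V z with hm
  have h1 := ((prob_gibbs hV).2.mul_right (1 + m)).sub hs.hasSum
  have h2 := (hW.hasSum.mul_left (Real.exp (Ff V + m)))
  have h3 := hasSum_le (fun z => ?_) h1 h2
  · change 1 * (1 + m) - m ≤ Real.exp (Ff V + m) * Zf W at h3
    rw [← Real.exp_log (Zf_pos hW), ← Real.exp_add, one_mul, add_sub_cancel_right,
      Real.one_le_exp_iff] at h3
    rw [Ff]
    linarith
  · rw [← Real.exp_add, show Ff V + m + -W z = Ff V - V z + (m - (W z - V z)) by ring,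
      Real.exp_add, ← gibbs_eq hV, ← mul_sub]
    exact mul_le_mul_of_nonneg_left (by linarith [Real.add_one_le_exp (m - (W z - V z))])
      (gibbs_pos hV z).le

theorem Ff_equiv (e : G ≃ G) (V : G → ℝ) : Ff (fun z => V (e z)) = Ff V := by
  exact congrArg (fun t => -Real.log t) (e.tsum_eq fun z => Real.exp (-V z))

theorem Ef_equiv (e : G ≃ G) (V f : G → ℝ) :
    Ef (fun z => V (e z)) (fun z => f (e z)) = Ef V f := by
  have h : Zf (fun z => V (e z)) = Zf V := e.tsum_eq fun z => Real.exp (-V z)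
  simp only [Ef, Ex, gibbs, h]
  exact e.tsum_eq fun z => Real.exp (-V z) / Zf V * f z

theorem gibbs_Cv (hV : Summable fun z => Real.exp (-V z)) (hf : Bdd f) {Γ : ℝ}
    (h0 : ∀ z, 0 ≤ k z) (h1 : ∀ z, k z ≤ Γ) :
    Cv V f k = Ex (gibbs V) (fun z => f z * (k z - Ef V k)) ∧ ∀ z, |k z - Ef V k| ≤ Γ := by
  have hμ := prob_gibbs hV
  have h2 : ∀ z, |k z| ≤ Γ := fun z => (abs_of_nonneg (h0 z)).trans_le (h1 z)
  refine ⟨?_, fun z => abs_le.2 ⟨?_, ?_⟩⟩
  · simp only [mul_sub, mul_comm _ (Ef V k)]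
    rw [ex_sub (hμ.summable_mul (hf.mul ⟨Γ, h2⟩)) (hμ.summable_mul ((Bdd.const _).mul hf)),
      ex_const_mul, mul_comm]
    rfl
  · linarith [h0 z, show Ef V k ≤ Γ from (le_abs_self _).trans (hμ.abs_ex_le h2)]
  · linarith [h1 z, show 0 ≤ Ef V k from hμ.ex_nonneg h0]

/-- `Cv V f k = E[f (k - E k)]` and `|k - E k| ≤ Γ` -/
theorem Cv_sq_le (hV : Summable fun z => Real.exp (-V z)) (hf : Bdd f) {Γ : ℝ}
    (h0 : ∀ z, 0 ≤ k z) (h1 : ∀ z, k z ≤ Γ) :
    Cv V f k ^ 2 ≤ Γ ^ 2 * Ef V fun z => f z ^ 2 := by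
  obtain ⟨h2, h3⟩ := gibbs_Cv hV hf h0 h1
  have hμ := prob_gibbs hV
  have hb : Bdd fun z => k z - Ef V k := ⟨Γ, h3⟩
  rw [h2, mul_comm]
  refine (hμ.ex_mul_sq_le hf hb).trans (mul_le_mul_of_nonneg_left ((le_abs_self _).trans
    (hμ.abs_ex_le fun z => ?_)) (hμ.ex_nonneg fun _ => sq_nonneg _))
  rw [abs_pow]
  exact pow_le_pow_left₀ (abs_nonneg _) (h3 z) 2

theorem abs_Cv_le (hV : Summable fun z => Real.exp (-V z)) {C Γ : ℝ} (hf : ∀ z, |f z| ≤ C)
    (h0 : ∀ z, 0 ≤ k z) (h1 : ∀ z, k z ≤ Γ) : |Cv V f k| ≤ Γ * C := by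
  obtain ⟨h2, h3⟩ := gibbs_Cv hV ⟨C, hf⟩ h0 h1
  rw [h2]
  refine (prob_gibbs hV).abs_ex_le fun z => ?_
  rw [abs_mul, mul_comm]
  exact mul_le_mul (h3 z) (hf z) (abs_nonneg _) ((h0 z).trans (h1 z))

theorem Adm.summable (h : Adm Z V) : Summable fun z => Real.exp (-V z) := by
  exact h.2.1.of_nonneg_of_le (fun _ => (Real.exp_pos _).le) fun z =>
    Real.exp_le_exp.2 (by linarith [h.1 z])

theorem Adm.mono (h : Adm Z V) (hVW : ∀ z, V z ≤ W z) : Adm Z W := by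
  have h1 : ∀ z, Real.exp (-W z / 2) ≤ Real.exp (-V z / 2) := fun z =>
    Real.exp_le_exp.2 (by linarith [hVW z])
  have h2 := h.2.1.of_nonneg_of_le (fun _ => (Real.exp_pos _).le) h1
  exact ⟨fun z => (h.1 z).trans (hVW z), h2, (h2.tsum_le_tsum h1 h.2.1).trans h.2.2⟩

/-- `t exp (-t) ≤ 2 exp (-t / 2)` -/
theorem Adm.summable_mul (h : Adm Z V) {a b : ℝ} (hf : ∀ z, |f z| ≤ a * V z + b) :
    Summable fun z => gibbs V z * f z := by
  refine ((h.2.1.mul_left (2 * |a| + |b|)).div_const (Zf V)).of_norm_bounded fun z => ?_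
  have hZ := Zf_pos h.summable
  have h0 := h.1 z
  rw [Real.norm_eq_abs, abs_mul, abs_of_pos (gibbs_pos h.summable z), gibbs, div_mul_eq_mul_div,
    mul_comm, show -V z = -V z / 2 + -V z / 2 by ring, Real.exp_add, ← mul_assoc,
    show (-V z / 2 + -V z / 2) / 2 = -V z / 2 by ring]
  gcongr
  have h1 : V z * Real.exp (-V z / 2) ≤ 2 := by
    rw [neg_div, Real.exp_neg, ← div_eq_mul_inv, div_le_iff₀ (Real.exp_pos _)]
    linarith [Real.add_one_le_exp (V z / 2)]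
  have h2 : Real.exp (-V z / 2) ≤ 1 := Real.exp_le_one_iff.2 (by linarith)
  calc _ ≤ (|a| * V z + |b|) * Real.exp (-V z / 2) := by
        gcongr
        exact (hf z).trans (by gcongr <;> exact le_abs_self _)
    _ = |a| * (V z * Real.exp (-V z / 2)) + |b| * Real.exp (-V z / 2) := by ring
    _ ≤ |a| * 2 + |b| * 1 := by gcongr
    _ = _ := by ring

/-- `gibbs_ineq` with `W = V / 2` -/
theorem Adm.ef_self_le (h : Adm Z V) : Ef V V ≤ 2 * (Ff V + Real.log Z) := by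
  have h1 : Summable fun z => Real.exp (-(V z / 2)) := by simpa only [neg_div] using h.2.1
  have h2 := gibbs_ineq (W := fun z => V z / 2) h.summable h1
    (h.summable_mul (a := 1) (b := 0) fun z => abs_le.2 ⟨by linarith [h.1 z], by linarith [h.1 z]⟩)
  have h3 : (Ef V fun z => V z / 2 - V z) = -(1 / 2) * Ef V V := by
    rw [Ef, Ef, ← ex_const_mul]
    congr 1
    funext z
    ring
  have h4 : Real.log (Zf fun z => V z / 2) ≤ Real.log Z :=
    Real.log_le_log (Zf_pos h1) (by simpa only [Zf, neg_div] using h.2.2)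
  rw [h3, Ff] at h2
  linarith

theorem Adm.exists_le (h : Adm Z V) : ∃ z, V z ≤ 2 * (Ff V + Real.log Z) := by
  obtain ⟨z, hz⟩ := (prob_gibbs h.summable).exists_le_ex
    (h.summable_mul (f := V) (a := 1) (b := 0) fun z => by simp [abs_of_nonneg (h.1 z)])
  exact ⟨z, hz.trans h.ef_self_le⟩

theorem Adm.le_Ff (h : Adm Z V) {y : ℝ} (hy : ∀ z, y ≤ V z) : y / 2 - Real.log Z ≤ Ff V := by
  have h1 : Zf V ≤ Real.exp (-y / 2) * Z := by
    refine (h.summable.tsum_le_tsum (fun z => ?_) (h.2.1.mul_left (Real.exp (-y / 2)))).trans ?_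
    · rw [← Real.exp_add]
      exact Real.exp_le_exp.2 (by linarith [hy z])
    · rw [tsum_mul_left]
      exact mul_le_mul_of_nonneg_left h.2.2 (Real.exp_pos _).le
  have h2 := Zf_pos h.summable
  have h3 : 0 < Z := (pos_iff_pos_of_mul_pos (h2.trans_le h1)).1 (Real.exp_pos _)
  have h4 := Real.log_le_log h2 h1
  rw [Real.log_mul (Real.exp_pos _).ne' h3.ne', Real.log_exp] at h4
  rw [Ff]
  linarith

theorem Adm.ef_le (h : Adm Z V) {a c : ℝ} (ha : 0 ≤ a) (hf : Bdd f)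
    (hle : ∀ y, f y ≤ a * V y + c) : Ef V f ≤ a * (2 * (Ff V + Real.log Z)) + c := by
  have hμ := prob_gibbs h.summable
  have h1 : Summable fun z => gibbs V z * (a * V z) :=
    h.summable_mul (a := a) (b := 0) fun z => by simp [abs_of_nonneg (mul_nonneg ha (h.1 z))]
  have h2 := hμ.summable_mul (Bdd.const c)
  have h3 := hμ.ex_mono (hμ.summable_mul hf) (by simpa only [mul_add] using h1.add h2) hle
  rw [ex_add h1 h2, ex_const_mul, hμ.ex_const] at h3
  exact h3.trans (add_le_add (mul_le_mul_of_nonneg_left h.ef_self_le ha) le_rfl)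

theorem Adm.le_ef (h : Adm Z V) {a c : ℝ} (ha : 0 ≤ a) (hf : Bdd f)
    (hle : ∀ y, c ≤ a * V y + f y) : c ≤ a * (2 * (Ff V + Real.log Z)) + Ef V f := by
  have := h.ef_le (c := -c) ha hf.neg fun y => by linarith [hle y]
  rw [Ef, ex_neg] at this
  rw [Ef]
  linarith

end Gibbs

section Len
variable [Group G] {ℓ : G → ℝ}

theorem IsLen.nonneg (h : IsLen ℓ) (x : G) : 0 ≤ ℓ x := by
  have h1 := h.mul x x⁻¹
  rw [mul_inv_cancel, h.one, h.inv] at h1
  linarith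

theorem IsLen.tri (h : IsLen ℓ) (a b c : G) : ℓ (a⁻¹ * c) ≤ ℓ (a⁻¹ * b) + ℓ (b⁻¹ * c) := by
  simpa [mul_assoc] using h.mul (a⁻¹ * b) (b⁻¹ * c)

theorem IsLen.symm (h : IsLen ℓ) (a b : G) : ℓ (a⁻¹ * b) = ℓ (b⁻¹ * a) := by
  rw [← h.inv, mul_inv_rev, inv_inv]

theorem IsLen.abs_sub_le (h : IsLen ℓ) (a b z : G) :
    |ℓ (a⁻¹ * z) - ℓ (b⁻¹ * z)| ≤ ℓ (b⁻¹ * a) := by
  exact abs_le.2 ⟨by linarith [h.tri b a z], by linarith [h.tri a b z, h.symm a b]⟩

theorem IsLen.min (h : IsLen ℓ) {T : ℝ} (hT : 0 ≤ T) : IsLen fun x => min (ℓ x) T := by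
  refine ⟨by simp [h.one, hT], fun x => by simp only [h.inv], fun x y => ?_⟩
  have h1 := h.mul x y
  have h2 := h.nonneg x
  have h3 := h.nonneg y
  have h4 := min_le_left (ℓ (x * y)) T
  have h5 := min_le_right (ℓ (x * y)) T
  rcases min_choice (ℓ x) T with h6 | h6 <;> rcases min_choice (ℓ y) T with h7 | h7 <;>
    simp only [h6, h7] <;> linarith

theorem IsLen.trc (h : IsLen ℓ) {γ T : ℝ} (hγ : 0 ≤ γ) (hT : 0 ≤ T) : IsLen (trc ℓ γ T) := by
  have h1 := h.min hT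
  refine ⟨by simp [R192.trc, h.one, hT], fun x => by simp only [R192.trc, h.inv], fun x y => ?_⟩
  simpa only [R192.trc, mul_add] using mul_le_mul_of_nonneg_left (h1.mul x y) hγ

theorem IsLen.ℓD (h : IsLen ℓ) {γ T : ℝ} (hγ : 0 ≤ γ) (hT : 0 ≤ T) : IsLen (ℓD ℓ γ T) := by
  have h1 := h.trc hγ hT
  refine ⟨by simp [R192.ℓD, h.one, h1.one], fun x => by simp only [R192.ℓD, h.inv, h1.inv],
    fun x y => ?_⟩
  simp only [R192.ℓD]
  linarith [h1.mul x y, h.mul x y]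

theorem IsLen.one_le_tsum (h : IsLen ℓ) (hs : Summable fun x => Real.exp (-ℓ x / 2)) :
    1 ≤ ∑' x, Real.exp (-ℓ x / 2) := by
  simpa [h.one] using hs.le_tsum 1 fun _ _ => (Real.exp_pos _).le

theorem IsLen.adm (h : IsLen ℓ) {Z : ℝ} (hs : Summable fun x => Real.exp (-ℓ x / 2))
    (hZ : ∑' x, Real.exp (-ℓ x / 2) ≤ Z) (y : G) : Adm Z fun z => ℓ (y⁻¹ * z) := by
  exact ⟨fun z => h.nonneg _, (Equiv.mulLeft y⁻¹).summable_iff.2 hs,
    ((Equiv.mulLeft y⁻¹).tsum_eq fun x => Real.exp (-ℓ x / 2)).trans_le hZ⟩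

/-- Effective support.  With `d z = ℓ (y⁻¹ z)` and `π = gibbs (d / 2)` one has
`1 / π z ≤ Z exp (d z / 2)`; for `d z ≤ 56 R` use `gibbs V z ≤ 1` and
`exp (d / 2) ≤ exp (56 R) exp (-d / 2)`, otherwise `gibbs V z ≤ exp (-d z)`. -/
theorem IsLen.support (h : IsLen ℓ) {Z R : ℝ} (hs : Summable fun x => Real.exp (-ℓ x / 2))
    (hZ : ∑' x, Real.exp (-ℓ x / 2) ≤ Z) (hR : 0 ≤ R) {V : G → ℝ}
    (hV : Summable fun z => Real.exp (-V z)) (y : G)
    (hfar : ∀ z, 56 * R < ℓ (y⁻¹ * z) → ℓ (y⁻¹ * z) ≤ V z - Ff V) :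
    Prob (gibbs fun z => ℓ (y⁻¹ * z) / 2) ∧ (∀ z, 0 < gibbs (fun z => ℓ (y⁻¹ * z) / 2) z) ∧
    (Summable fun z => gibbs V z * (gibbs (fun z => ℓ (y⁻¹ * z) / 2) z)⁻¹) ∧
    Ex (gibbs V) (fun z => (gibbs (fun z => ℓ (y⁻¹ * z) / 2) z)⁻¹)
      ≤ Z ^ 2 * Real.exp (56 * R) := by
  have hA := h.adm hs hZ y
  have h1 : Summable fun z => Real.exp (-(ℓ (y⁻¹ * z) / 2)) := by
    simpa only [neg_div] using hA.2.1
  have h2 : Zf (fun z => ℓ (y⁻¹ * z) / 2) ≤ Z := by simpa only [Zf, neg_div] using hA.2.2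
  have hZ0 : 0 < Z := (Zf_pos h1).trans_le h2
  have h3 : ∀ z, gibbs V z * (gibbs (fun z => ℓ (y⁻¹ * z) / 2) z)⁻¹ ≤
      Z * Real.exp (56 * R) * Real.exp (-ℓ (y⁻¹ * z) / 2) := fun z => by
    rw [gibbs_eq hV, gibbs, inv_div, Real.exp_neg, div_inv_eq_mul, mul_left_comm, mul_assoc,
      ← Real.exp_add, ← Real.exp_add]
    refine mul_le_mul h2 (Real.exp_le_exp.2 ?_) (Real.exp_pos _).le hZ0.le
    rcases le_or_gt (ℓ (y⁻¹ * z)) (56 * R) with h4 | h4
    · linarith [Ff_le hV z]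
    · linarith [hfar z h4]
  have h4 := hA.2.1.mul_left (Z * Real.exp (56 * R))
  have h5 := h4.of_nonneg_of_le
    (fun z => mul_nonneg (gibbs_pos hV z).le (inv_pos.2 (gibbs_pos h1 z)).le) h3
  refine ⟨prob_gibbs h1, gibbs_pos h1, h5, (h5.tsum_le_tsum h3 h4).trans ?_⟩
  rw [tsum_mul_left, sq, mul_right_comm Z Z]
  exact mul_le_mul_of_nonneg_left hA.2.2 (by positivity)

end Len

end Crest.Agent.R192
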