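import Crest.Agent.R192.Maj

/-! Row 192: the periodic majorant, convolutions of kernels, comparison of windows. -/

set_option autoImplicit false
set_option linter.unusedSectionVars false
set_option linter.unusedVariables false

open scoped ContDiff Matrix Topology
open MeasureTheory

noncomputable section

namespace Crest.Agent.R192

theorem ker2_int {a : ℝ} (ha : 0 < a) {g : ℝ → ℝ} (hg : Continuous g) :
    Integrable fun v => ρη a v * g v := by
  refine ((contDiff_ρη a).continuous.mul hg).integrable_of_hasCompactSupport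
    (HasCompactSupport.mul_right (HasCompactSupport.intro
      (isCompact_Icc (a := -(3 * a / 4)) (b := 3 * a / 4)) fun x hx => (kb_ρη ha).2 x ?_))
  exact not_le.1 fun h => hx (abs_le.1 h)

theorem ker2_le {a : ℝ} (ha : 0 < a) (u : ℝ) : ρη a u ≤ 1 / a :=
  (le_abs_self _).trans ((kb_ρη ha).1 u)

theorem ker2_sub {b : ℝ} (hb : 0 < b) (c u : ℝ) : ∫ v, c * ρη b (u - v) = c := by
  rw [integral_const_mul, integral_sub_left_eq_self (ρη b) volume u, integral_ρη hb, mul_one]

theorem rk_kconv {a b : ℝ} (ha : 0 < a) (hb : 0 < b) : RK (kconv (ρη a) (Rη b)) := by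
  obtain ⟨hm, w, h1, h0⟩ := rk_Rη hb
  have hc : ∀ u : ℝ, Continuous fun v => Rη b (u - v) := fun u =>
    (contDiff_Rη b).continuous.comp (continuous_const.sub continuous_id)
  refine ⟨fun u u' h => integral_mono (ker2_int ha (hc u)) (ker2_int ha (hc u')) fun v =>
    mul_le_mul_of_nonneg_left (hm (sub_le_sub_right h v)) (ρη_nonneg ha v), w + 3 * a / 4,
    fun u hu => ?_, fun u hu => ?_⟩
  · rw [← integral_ρη ha]
    refine integral_congr_ae (.of_forall fun v => ?_)
    rcases lt_or_ge (3 * a / 4) |v| with h | h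
    · simp only [(kb_ρη ha).2 v h, zero_mul]
    · simp only [h1 (u - v) (by linarith [(abs_le.1 h).2]), mul_one]
  · refine integral_eq_zero_of_ae (.of_forall fun v => ?_)
    rcases lt_or_ge (3 * a / 4) |v| with h | h
    · simp only [(kb_ρη ha).2 v h, zero_mul, Pi.zero_apply]
    · simp only [h0 (u - v) (by linarith [(abs_le.1 h).1]), mul_zero, Pi.zero_apply]

theorem hasDerivAt_kconv {a b : ℝ} (ha : 0 < a) (hb : 0 < b) (u : ℝ) :
    HasDerivAt (kconv (ρη a) (Rη b)) (∫ v, ρη a v * ρη b (u - v)) u := by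
  have hc : ∀ u : ℝ, Continuous fun v => Rη b (u - v) := fun u =>
    (contDiff_Rη b).continuous.comp (continuous_const.sub continuous_id)
  have hc' : Continuous fun v => ρη b (u - v) :=
    (contDiff_ρη b).continuous.comp (continuous_const.sub continuous_id)
  refine (hasDerivAt_integral_of_dominated_loc_of_deriv_le (μ := volume)
    (F := fun x v => ρη a v * Rη b (x - v)) (F' := fun x v => ρη a v * ρη b (x - v))
    (bound := fun v => ρη a v * (1 / b)) (s := Set.univ) Filter.univ_mem
    (.of_forall fun x => (ker2_int ha (hc x)).aestronglyMeasurable) (ker2_int ha (hc u))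
    (ker2_int ha hc').aestronglyMeasurable (.of_forall fun v x _ => ?_)
    (ker2_int ha continuous_const) (.of_forall fun v x _ => ?_)).2
  · rw [Real.norm_eq_abs, abs_mul, abs_of_nonneg (ρη_nonneg ha v)]
    exact mul_le_mul_of_nonneg_left ((kb_ρη hb).1 _) (ρη_nonneg ha v)
  · exact ((hasDerivAt_Rη b (x - v)).comp_sub_const x v).const_mul _

/-- the derivative `ρη η u * η / η' - ρη η' (u + δ)` is nonnegative -/
theorem mono_D1 {η η' δ : ℝ} (hη : 0 < η) (hη' : 0 < η') (h : 3 * η' / 4 + |δ| ≤ η / 4) :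
    Monotone fun u => η / η' * Rη η u - Rη η' (u + δ) := by
  refine monotone_of_hasDerivAt_nonneg (fun u => ((hasDerivAt_Rη η u).const_mul _).fun_sub
    ((hasDerivAt_Rη η' (u + δ)).comp_add_const u δ)) fun u => sub_nonneg.2 ?_
  rcases lt_or_ge (3 * η' / 4) |u + δ| with h1 | h1
  · rw [(kb_ρη hη').2 _ h1]
    exact mul_nonneg (by positivity) (ρη_nonneg hη u)
  · have h2 : |u| ≤ η / 4 := by
      have := abs_sub (u + δ) δ
      rw [add_sub_cancel_right] at this
      linarith
    rw [ρη_eq hη h2]
    exact (ker2_le hη' _).trans (le_of_eq (by field_simp))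

/-- `ρ_a * ρ_b ≤ 1 / a` is supported in `|u| ≤ 3 a / 2`, where `8 ρ_{8a} = 1 / a` -/
theorem mono_D2 {a b : ℝ} (hb : 0 < b) (hba : b ≤ a) :
    Monotone fun u => 8 * Rη (8 * a) u - kconv (ρη a) (Rη b) u := by
  have ha : 0 < a := hb.trans_le hba
  have ha' : 0 < 8 * a := by positivity
  refine monotone_of_hasDerivAt_nonneg (fun u => ((hasDerivAt_Rη (8 * a) u).const_mul _).fun_sub
    (hasDerivAt_kconv ha hb u)) fun u => sub_nonneg.2 ?_
  have hc' : Continuous fun v => ρη b (u - v) :=
    (contDiff_ρη b).continuous.comp (continuous_const.sub continuous_id)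
  rcases le_or_gt |u| (8 * a / 4) with h1 | h1
  · rw [ρη_eq ha' h1, show 8 * (1 / (8 * a)) = 1 / a by field_simp, ← ker2_sub hb (1 / a) u]
    exact integral_mono (ker2_int ha hc')
      ((((kb_ρη hb).integrable (contDiff_ρη b).continuous).comp_sub_left u).const_mul _)
      fun v => mul_le_mul_of_nonneg_right (ker2_le ha v) (ρη_nonneg hb _)
  · refine le_trans (le_of_eq (integral_eq_zero_of_ae (.of_forall fun v => ?_)))
      (mul_nonneg (by norm_num) (ρη_nonneg ha' u))
    rcases lt_or_ge (3 * a / 4) |v| with h | h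
    · simp only [(kb_ρη ha).2 v h, zero_mul, Pi.zero_apply]
    · have h2 := abs_add_le (u - v) v
      rw [sub_add_cancel] at h2
      simp only [(kb_ρη hb).2 (u - v) (by linarith), mul_zero, Pi.zero_apply]

/-- `ρ_a * ρ_b = ρ_b * ρ_a = 1 / a` on `|u| ≤ 3 a / 32`, the support of `ρ_{a/8} ≤ 8 / a` -/
theorem mono_D3 {a b : ℝ} (hb : 0 < b) (hba : 8 * b ≤ a) :
    Monotone fun u => 8 * kconv (ρη a) (Rη b) u - Rη (a / 8) u := by
  have ha : 0 < a := by linarith
  have ha' : 0 < a / 8 := by positivity
  refine monotone_of_hasDerivAt_nonneg (fun u => ((hasDerivAt_kconv ha hb u).const_mul _).fun_sub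
    (hasDerivAt_Rη (a / 8) u)) fun u => sub_nonneg.2 ?_
  rcases lt_or_ge (3 * (a / 8) / 4) |u| with h1 | h1
  · rw [(kb_ρη ha').2 _ h1]
    exact mul_nonneg (by norm_num)
      (integral_nonneg fun v => mul_nonneg (ρη_nonneg ha v) (ρη_nonneg hb _))
  · have e : ∫ v, ρη a v * ρη b (u - v) = 1 / a := by
      rw [← ker2_sub hb (1 / a) u]
      refine integral_congr_ae (.of_forall fun v => ?_)
      rcases lt_or_ge (3 * b / 4) |u - v| with h | h
      · simp only [(kb_ρη hb).2 _ h, mul_zero]
      · have h2 := abs_sub u (u - v)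
        rw [sub_sub_cancel] at h2
        simp only [ρη_eq ha (show |v| ≤ a / 4 by linarith)]
    rw [e]
    exact (ker2_le ha' u).trans (le_of_eq (by field_simp))

end Crest.Agent.R192
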