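import Crest.Agent.R192.Tim
import Crest.Agent.R192.Ker2
import Crest.Agent.R192.Gibbs

/-! Row 192: window averages along a loop. -/

set_option autoImplicit false
set_option linter.unusedSectionVars false
set_option linter.unusedVariables false

open scoped ContDiff Matrix Topology
open MeasureTheory

noncomputable section

namespace Crest.Agent.R192

variable {G : Type} [Group G] {p : ℕ} {Q Q₁ Q₂ : ℝ → ℝ} {L : Loop G p} {ℓ : G → ℝ}

theorem avg0_wt_zero {w a b B : ℝ} (ha : ∀ u, w ≤ u → Q u = a) (hb : ∀ u, u ≤ -w → Q u = b)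
    {q : ℝ × Tm p} (hq : ‖q‖ ≤ B) {N : ℕ} (hN : |w| + 2 * B + 1 ≤ N) (l : Fin (p + 1)) (m : ℤ)
    (hm : m ∉ Finset.Ico (-(N : ℤ)) N) : wt Q q l m = 0 := by
  have h1 : |q.1| ≤ B := (norm_fst_le q).trans hq
  have h2 : ∀ j, |q.2 j| ≤ B := fun j => (norm_le_pi_norm q.2 j).trans ((norm_snd_le q).trans hq)
  have h3 : |nxt q.2 l| ≤ B + 1 := by
    refine Fin.lastCases ?_ (fun j => ?_) l
    · have : nxt q.2 (Fin.last p) = q.2 0 + 1 := by
        simp only [nxt, extT, Fin.succ_last, Fin.snoc_last]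
      rw [this]
      refine (abs_add_le _ _).trans ?_
      rw [abs_one]
      linarith [h2 0]
    · have : nxt q.2 j.castSucc = q.2 j.succ := by
        simp only [nxt, extT, Fin.succ_castSucc, Fin.snoc_castSucc]
      rw [this]
      linarith [h2 j.succ]
  have h4 := h2 l
  have h5 := le_abs_self w
  rw [abs_le] at h1 h3 h4
  rw [Finset.mem_Ico, not_and_or, not_le, not_lt] at hm
  rcases hm with hm | hm
  · have hm' : (m : ℝ) < -N := by exact_mod_cast hm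
    rw [wt, ha _ (by linarith), ha _ (by linarith), sub_self]
  · have hm' : (N : ℝ) ≤ m := by exact_mod_cast hm
    rw [wt, hb _ (by linarith), hb _ (by linarith), sub_self]

theorem avg0_finset (hQ : EvC Q) (b : ℝ) :
    ∃ S : Finset ℤ, ∀ q : ℝ × Tm p, ‖q‖ ≤ b → ∀ l, ∀ m ∉ S, wt Q q l m = 0 := by
  obtain ⟨w, a, a', ha, hb⟩ := hQ
  obtain ⟨N, hN⟩ := exists_nat_ge (|w| + 2 * b + 1)
  exact ⟨_, fun q hq l m hm => avg0_wt_zero ha hb hq hN l m hm⟩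

theorem avg0_eq_sum {q : ℝ × Tm p} {S : Finset ℤ} (hS : ∀ l, ∀ m ∉ S, wt Q q l m = 0)
    (f : G → ℝ) : avg Q L q f = ∑ l, ∑ m ∈ S, wt Q q l m * f (L.g ^ m * L.x l) :=
  Finset.sum_congr rfl fun l _ => tsum_eq_sum fun m hm => by rw [hS l m hm, zero_mul]

theorem avg0_wt_nonneg (hm : Monotone Q) {s : ℝ} {ξ : Tm p} (hξ : Sx ξ) (l : Fin (p + 1))
    (m : ℤ) : 0 ≤ wt Q (s, ξ) l m :=
  sub_nonneg.2 (hm (by have := hξ l; dsimp only; linarith))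

theorem EvC.wt_finite (hQ : EvC Q) (q : ℝ × Tm p) (l : Fin (p + 1)) :
    (Function.support fun m => wt Q q l m).Finite := by
  obtain ⟨S, hS⟩ := avg0_finset (p := p) hQ ‖q‖
  exact S.finite_toSet.subset fun m hm => by_contra fun h => hm (hS q le_rfl l m h)

/-- a finite set of `m` carrying all the weights, uniformly on a bounded set of parameters -/
theorem EvC.exists_finset (hQ : EvC Q) (b : ℝ) :
    ∃ S : Finset ℤ, ∀ q : ℝ × Tm p, ‖q‖ ≤ b → ∀ l, ∀ m ∉ S, wt Q q l m = 0 := by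
  exact avg0_finset hQ b

theorem avg_add (hQ : EvC Q) (q : ℝ × Tm p) (f k : G → ℝ) :
    avg Q L q (fun y => f y + k y) = avg Q L q f + avg Q L q k := by
  obtain ⟨S, hS⟩ := hQ.exists_finset (p := p) ‖q‖
  simp only [avg0_eq_sum (hS q le_rfl), mul_add, Finset.sum_add_distrib]

theorem avg_const_mul (q : ℝ × Tm p) (c : ℝ) (f : G → ℝ) :
    avg Q L q (fun y => c * f y) = c * avg Q L q f := by
  simp only [avg, Finset.mul_sum, ← tsum_mul_left, mul_left_comm]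

theorem avg_sub_ker (h₁ : EvC Q₁) (h₂ : EvC Q₂) (q : ℝ × Tm p) (f : G → ℝ) :
    avg (fun u => Q₁ u - Q₂ u) L q f = avg Q₁ L q f - avg Q₂ L q f := by
  obtain ⟨S₁, hS₁⟩ := h₁.exists_finset (p := p) ‖q‖
  obtain ⟨S₂, hS₂⟩ := h₂.exists_finset (p := p) ‖q‖
  have e : ∀ l m, wt (fun u => Q₁ u - Q₂ u) q l m = wt Q₁ q l m - wt Q₂ q l m := fun l m => by
    simp only [wt]; ring
  have a₁ : ∀ l, ∀ m ∉ S₁ ∪ S₂, wt Q₁ q l m = 0 :=
    fun l m hm => hS₁ q le_rfl l m fun h => hm (Finset.mem_union_left _ h)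
  have a₂ : ∀ l, ∀ m ∉ S₁ ∪ S₂, wt Q₂ q l m = 0 :=
    fun l m hm => hS₂ q le_rfl l m fun h => hm (Finset.mem_union_right _ h)
  rw [avg0_eq_sum a₁, avg0_eq_sum a₂, avg0_eq_sum (S := S₁ ∪ S₂)
    fun l m hm => by rw [e, a₁ l m hm, a₂ l m hm, sub_self]]
  simp only [e, sub_mul, Finset.sum_sub_distrib]

/-- telescoping, first in `l` (`∑ l, wt Q q l m = Q (s - ξ 0 - m) - Q (s - ξ 0 - (m + 1))`),
then in `m` -/
theorem avg_const {w a b : ℝ} (ha : ∀ u, w ≤ u → Q u = a) (hb : ∀ u, u ≤ -w → Q u = b)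
    (q : ℝ × Tm p) (c : ℝ) : avg Q L q (fun _ => c) = (a - b) * c := by
  obtain ⟨N, hN⟩ := exists_nat_ge (|w| + 2 * ‖q‖ + 1)
  rw [avg0_eq_sum fun l m hm => avg0_wt_zero ha hb le_rfl hN l m hm]
  simp only [← Finset.sum_mul]
  congr 1
  rw [Finset.sum_comm]
  have e : ∀ m : ℤ, ∑ l, wt Q q l m =
      Q (q.1 - q.2 0 - m) - Q (q.1 - q.2 0 - ((m + 1 : ℤ) : ℝ)) := by
    intro m
    have h1 := Fin.sum_univ_castSucc fun i : Fin (p + 2) => Q (q.1 - extT q.2 i - m)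
    have h2 := Fin.sum_univ_succ fun i : Fin (p + 2) => Q (q.1 - extT q.2 i - m)
    have h4 : extT q.2 (Fin.last _) = q.2 0 + 1 := by rw [extT, Fin.snoc_last]
    have h5 : ∀ l : Fin (p + 1), extT q.2 l.castSucc = q.2 l := fun l => by
      rw [extT, Fin.snoc_castSucc]
    have h3 : extT q.2 0 = q.2 0 := h5 0
    simp only [h3, h4, h5] at h1 h2
    simp only [wt, nxt, Finset.sum_sub_distrib]
    rw [show q.1 - q.2 0 - ((m + 1 : ℤ) : ℝ) = q.1 - (q.2 0 + 1) - m by push_cast; ring]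
    linarith
  simp only [e]
  have h1 : |q.1| ≤ ‖q‖ := norm_fst_le q
  have h2 : |q.2 0| ≤ ‖q‖ := (norm_le_pi_norm q.2 0).trans (norm_snd_le q)
  have h5 := le_abs_self w
  rw [abs_le] at h1 h2
  rw [Finset.sum_Ico_int_sub N fun m : ℤ => Q (q.1 - q.2 0 - m)]
  push_cast
  rw [ha _ (by linarith), hb _ (by linarith)]

theorem RK.avg_const (hQ : RK Q) (q : ℝ × Tm p) (c : ℝ) : avg Q L q (fun _ => c) = c := by
  obtain ⟨-, w, ha, hb⟩ := hQ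
  rw [R192.avg_const ha hb, sub_zero, one_mul]

theorem KB.avg_const {h w : ℝ} (hQ : KB Q h w) (q : ℝ × Tm p) (c : ℝ) :
    avg Q L q (fun _ => c) = 0 := by
  rw [R192.avg_const (w := |w| + 1) (a := 0) (b := 0) (fun u hu => hQ.2 u ?_)
    (fun u hu => hQ.2 u ?_), sub_zero, zero_mul]
  · linarith [le_abs_self w, le_abs_self u]
  · linarith [le_abs_self w, neg_le_abs u]

theorem avg_nonneg (hm : Monotone Q) {s : ℝ} {ξ : Tm p} (hξ : Sx ξ) {f : G → ℝ}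
    (hf : ∀ y, 0 ≤ f y) : 0 ≤ avg Q L (s, ξ) f := by
  exact Finset.sum_nonneg fun l _ => tsum_nonneg fun m =>
    mul_nonneg (avg0_wt_nonneg hm hξ l m) (hf _)

theorem RK.avg_mono (hQ : RK Q) {s : ℝ} {ξ : Tm p} (hξ : Sx ξ) {f k : G → ℝ}
    (h : ∀ y, f y ≤ k y) : avg Q L (s, ξ) f ≤ avg Q L (s, ξ) k := by
  have h1 := avg_add (L := L) hQ.evC (s, ξ) f fun y => k y - f y
  have h2 := avg_nonneg (L := L) hQ.1 (s := s) hξ (f := fun y => k y - f y)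
    fun y => sub_nonneg.2 (h y)
  simp only [add_sub_cancel] at h1
  have h3 : avg Q L (s, ξ) k = avg Q L (s, ξ) fun y => k y := rfl
  linarith

/-- comparison of windows -/
theorem avg_dom (h₁ : EvC Q₁) (h₂ : EvC Q₂) {c δ : ℝ}
    (hm : Monotone fun u => c * Q₂ u - Q₁ (u + δ)) {s : ℝ} {ξ : Tm p} (hξ : Sx ξ) {f : G → ℝ}
    (hf : ∀ y, 0 ≤ f y) : avg Q₁ L (s + δ, ξ) f ≤ c * avg Q₂ L (s, ξ) f := by
  have h1 := avg_nonneg (L := L) hm (s := s) hξ hf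
  rw [avg_sub_ker (h₂.const_mul c) (h₁.shift δ)] at h1
  have e1 : avg (fun u => c * Q₂ u) L (s, ξ) f = c * avg Q₂ L (s, ξ) f := by
    simp only [avg, wt, Finset.mul_sum, ← tsum_mul_left, ← mul_sub, mul_assoc]
  have e2 : avg (fun u => Q₁ (u + δ)) L (s, ξ) f = avg Q₁ L (s + δ, ξ) f := by
    simp only [avg, wt, add_sub_right_comm]
  rw [e1, e2] at h1
  linarith

theorem avg0_len_nonneg (hℓ : IsLen ℓ) (x : G) : 0 ≤ ℓ x := by
  have h := hℓ.mul x x⁻¹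
  rw [mul_inv_cancel, hℓ.one, hℓ.inv] at h
  linarith

theorem fld_nonneg (hQ : RK Q) (hℓ : IsLen ℓ) {s : ℝ} {ξ : Tm p} (hξ : Sx ξ) (z : G) :
    0 ≤ fld Q ℓ p L (s, ξ) z := by
  exact avg_nonneg hQ.1 hξ fun y => avg0_len_nonneg hℓ _

theorem fld_mono (hQ : RK Q) {ℓ' : G → ℝ} (h : ∀ x, ℓ x ≤ ℓ' x) {s : ℝ} {ξ : Tm p} (hξ : Sx ξ)
    (z : G) : fld Q ℓ p L (s, ξ) z ≤ fld Q ℓ' p L (s, ξ) z := by
  exact hQ.avg_mono hξ fun y => h _

theorem le_fld_add_fld (hQ : RK Q) (hℓ : IsLen ℓ) {s : ℝ} {ξ : Tm p} (hξ : Sx ξ) (z z' : G) :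
    ℓ (z'⁻¹ * z) ≤ fld Q ℓ p L (s, ξ) z' + fld Q ℓ p L (s, ξ) z := by
  rw [fld, fld, ← avg_add hQ.evC, ← hQ.avg_const (L := L) (s, ξ) (ℓ (z'⁻¹ * z))]
  refine hQ.avg_mono hξ fun y => ?_
  have h := hℓ.mul (y⁻¹ * z')⁻¹ (y⁻¹ * z)
  rwa [hℓ.inv, show (y⁻¹ * z')⁻¹ * (y⁻¹ * z) = z'⁻¹ * z by group] at h

theorem fld_le_fld_add (hQ : RK Q) (hℓ : IsLen ℓ) {s : ℝ} {ξ : Tm p} (hξ : Sx ξ) (z z' : G) :
    fld Q ℓ p L (s, ξ) z ≤ fld Q ℓ p L (s, ξ) z' + ℓ (z'⁻¹ * z) := by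
  rw [fld, fld, ← hQ.avg_const (L := L) (s, ξ) (ℓ (z'⁻¹ * z)), ← avg_add hQ.evC]
  refine hQ.avg_mono hξ fun y => ?_
  have h := hℓ.mul (y⁻¹ * z') (z'⁻¹ * z)
  rwa [show y⁻¹ * z' * (z'⁻¹ * z) = y⁻¹ * z by group] at h

/-- Jensen: `exp (-avg / 2) ≤ avg (exp (- · / 2))` (a finite convex combination); then sum over
`z`, each translate contributing at most `Z` -/
theorem adm_fld (hQ : RK Q) (hℓ : IsLen ℓ) {Z : ℝ} (hs : Summable fun x => Real.exp (-ℓ x / 2))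
    (hZ : ∑' x, Real.exp (-ℓ x / 2) ≤ Z) {s : ℝ} {ξ : Tm p} (hξ : Sx ξ) :
    Adm Z (fld Q ℓ p L (s, ξ)) := by
  obtain ⟨S, hS⟩ := hQ.evC.exists_finset (p := p) ‖((s, ξ) : ℝ × Tm p)‖
  have hS' := hS (s, ξ) le_rfl
  let T : Finset (Fin (p + 1) × ℤ) := Finset.univ ×ˢ S
  let W : Fin (p + 1) × ℤ → ℝ := fun i => wt Q (s, ξ) i.1 i.2
  let y : Fin (p + 1) × ℤ → G := fun i => L.g ^ i.2 * L.x i.1
  have hW0 : ∀ i ∈ T, 0 ≤ W i := fun i _ => avg0_wt_nonneg hQ.1 hξ _ _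
  have hsum : ∀ f : G → ℝ, avg Q L (s, ξ) f = ∑ i ∈ T, W i * f (y i) := fun f => by
    rw [avg0_eq_sum hS', Finset.sum_product]
  have hW1 : ∑ i ∈ T, W i = 1 := by
    have := hsum fun _ => 1
    rw [hQ.avg_const] at this
    simpa using this.symm
  have hJ : ∀ z, Real.exp (-fld Q ℓ p L (s, ξ) z / 2) ≤
      ∑ i ∈ T, W i * Real.exp (-ℓ ((y i)⁻¹ * z) / 2) := by
    intro z
    have := convexOn_exp.map_sum_le (p := fun i => -ℓ ((y i)⁻¹ * z) / 2) hW0 hW1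
      fun _ _ => Set.mem_univ _
    refine le_of_eq_of_le ?_ this
    rw [fld, hsum, ← Finset.sum_neg_distrib, Finset.sum_div]
    congr 1
    refine Finset.sum_congr rfl fun i _ => ?_
    rw [smul_eq_mul]
    ring
  have h1 : ∀ i, HasSum (fun z => W i * Real.exp (-ℓ ((y i)⁻¹ * z) / 2))
      (W i * ∑' x, Real.exp (-ℓ x / 2)) :=
    fun i => ((Equiv.mulLeft (y i)⁻¹).hasSum_iff.2 hs.hasSum).mul_left _
  have h2 := hasSum_sum (s := T) fun i _ => h1 i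
  have h3 := Summable.of_nonneg_of_le (fun z => (Real.exp_pos _).le) hJ h2.summable
  refine ⟨fun z => fld_nonneg hQ hℓ hξ z, h3, (h3.tsum_le_tsum hJ h2.summable).trans ?_⟩
  rw [h2.tsum_eq, ← Finset.sum_mul, hW1, one_mul]
  exact hZ

end Crest.Agent.R192
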