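import Crest.Agent.R192.Cell0

/-! Row 192: nuclear norm and cost of time integrals of second moments. -/

set_option autoImplicit false
set_option linter.unusedSectionVars false
set_option linter.unusedVariables false

open scoped ContDiff Matrix Topology
open MeasureTheory

noncomputable section

namespace Crest.Agent.R192

variable {G : Type} {ι : Type} [Fintype ι] [DecidableEq ι]

theorem cell_amgm {S a b : ℝ} (ha : 0 ≤ a) (hb : 0 ≤ b)
    (h : ∀ t : ℝ, 0 < t → S ≤ (t * a + b / t) / 2) : S ≤ √(a * b) := by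
  rw [Real.sqrt_mul ha]
  have h1 := Real.sqrt_nonneg a
  have h2 := Real.sqrt_nonneg b
  have h3 := Real.mul_self_sqrt ha
  have h4 := Real.mul_self_sqrt hb
  generalize √a = x at *
  generalize √b = y at *
  subst h3 h4
  refine le_of_forall_pos_le_add fun e he => ?_
  obtain ⟨η, hη, hη'⟩ : ∃ η : ℝ, 0 < η ∧ η * (x + y) ≤ e :=
    ⟨e / (x + y + 1), by positivity, by
      rw [div_mul_eq_mul_div, div_le_iff₀ (by positivity)]; nlinarith⟩
  have k := h ((y + η) / (x + η)) (by positivity)
  have k1 : (y + η) / (x + η) * (x * x) ≤ (y + η) * x := by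
    rw [div_mul_eq_mul_div, div_le_iff₀ (by positivity)]
    have : 0 ≤ (y + η) * x * η := by positivity
    nlinarith
  have k2 : y * y / ((y + η) / (x + η)) ≤ y * (x + η) := by
    rw [div_div_eq_mul_div, div_le_iff₀ (by positivity)]
    have : 0 ≤ y * (x + η) * η := by positivity
    nlinarith
  nlinarith

theorem cell_split {f : ℝ → ℝ} (hf : Continuous f) {n : ℕ} (hn : 1 ≤ n) :
    ∑ I ∈ Finset.range n, ∫ s in ((I : ℝ) / n)..(((I : ℝ) + 1) / n), f s =
      ∫ s in (0 : ℝ)..1, f s := by
  have h0 : (n : ℝ) ≠ 0 := by positivity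
  have := intervalIntegral.sum_integral_adjacent_intervals (f := f) (μ := volume)
    (a := fun I : ℕ => (I : ℝ) / n) (n := n) fun k _ => hf.intervalIntegrable _ _
  simpa [div_self h0] using this

theorem cell_mul_mom {μ : ℝ → G → ℝ} {X Y : ℝ → G → ι → ℝ} (hc : CtM μ X Y) (P : Matrix ι ι ℝ)
    {ν : ℝ → ℝ} (hν : Continuous ν) {a b : ℝ} (hab : a ≤ b)
    (h : ∀ s ∈ Set.Icc a b,
      NucLe (P * Matrix.of fun i l => Ex (μ s) fun z => X s z i * Y s z l) (ν s)) :
    NucLe (P * mom a b μ X Y) (∫ s in a..b, ν s) := by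
  have hm : ∀ i l, Continuous fun s =>
      (P * Matrix.of fun i l => Ex (μ s) fun z => X s z i * Y s z l) i l := fun i l => by
    simp only [Matrix.mul_apply, Matrix.of_apply]
    exact continuous_finsetSum _ fun j _ => continuous_const.mul (hc j l)
  convert nuc_int hm hν hab h using 1
  ext i l
  simp only [Matrix.mul_apply, Matrix.of_apply, mom]
  rw [intervalIntegral.integral_finsetSum
    (f := fun j s => P i j * Ex (μ s) fun z => X s z j * Y s z l) fun j _ =>
    (continuous_const.mul (hc j l)).intervalIntegrable _ _]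
  simp only [intervalIntegral.integral_const_mul]

theorem cell_rank_add (M N : Matrix ι ι ℝ) : (M + N).rank ≤ M.rank + N.rank := by
  unfold Matrix.rank
  rw [Matrix.mulVecLin_add]
  exact (Submodule.finrank_mono (LinearMap.range_add_le _ _)).trans
    (Submodule.finrank_add_le_finrank_add_finrank _ _)

theorem cell_rank_sum {n k : ℕ} {M : ℕ → Matrix ι ι ℝ} (h : ∀ I < n, (M I).rank ≤ k) :
    (∑ I ∈ Finset.range n, M I).rank ≤ n * k := by
  induction n with
  | zero => simp
  | succ n ih =>
    rw [Finset.sum_range_succ, Nat.succ_mul]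
    exact (cell_rank_add _ _).trans
      (add_le_add (ih fun I hI => h I (by omega)) (h n (by omega)))

/-- The cell lemma.  Let `P I` be given by `frame` for `Γ I`, `M I = mom (I/n) ((I+1)/n) μ X Y`.
`mom 0 1 = ∑ I, P I * M I + ∑ I, (1 - P I) * M I`.  The first sum has rank `≤ n k` and nuclear
norm `≤ ∫ x y ≤ √(A B)`; on cell `I` the second has, by `nrm_compl_le`, `nuc_pt` and
`Prob.ex_sqrt_le`, pointwise nuclear norm `≤ √(trace (Γ I) / k) √κ y s`; finish with
Cauchy-Schwarz in time and in `I`. -/
theorem cell {μ : ℝ → G → ℝ} (hμ : ∀ s, Prob (μ s)) {X Y : ℝ → G → ι → ℝ} {A B : ℝ}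
    (hX : VB A X) (hY : VB B Y) (hc : CtM μ X Y) {n k : ℕ} (hn : 1 ≤ n) (hk : 1 ≤ k)
    {Γ : ℕ → Matrix ι ι ℝ} (hΓ : ∀ I < n, (Γ I).PosSemidef) {τ κ ε lam : ℝ}
    (hτ : ∑ I ∈ Finset.range n, (Γ I).trace ≤ τ) (hκ : 0 ≤ κ) (hε : 0 < ε) (hlam : 0 < lam)
    (hD : ∀ I < n, ∀ s ∈ Set.Icc ((I : ℝ) / n) (((I : ℝ) + 1) / n),
      (∀ z, Y s z = 0) ∨ Dom (μ s) (X s) (Γ I) κ) :
    CostLe ε (mom 0 1 μ X Y)
      (lam * (n * k) + √(A * B) / (ε * lam) + √(κ * τ * B / (n * k)) / ε) := by
  have hA := hX.nonneg
  have hB := hY.nonneg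
  have hb := hX.bdd
  obtain ⟨x, xc, -, xb, xi⟩ := hX
  obtain ⟨y, yc, -, yb, yi⟩ := hY
  have n0 : (0 : ℝ) < n := by exact_mod_cast hn
  have k0 : (0 : ℝ) < k := by exact_mod_cast hk
  have hex : ∀ I, ∃ P : Matrix ι ι ℝ, I < n → Pᵀ = P ∧ P * P = P ∧ P.rank ≤ k ∧
      ∀ c : ι → ℝ, P *ᵥ c = 0 → c ⬝ᵥ Γ I *ᵥ c ≤ (Γ I).trace / k * (c ⬝ᵥ c) := fun I => by
    by_cases hI : I < n
    · obtain ⟨P, hP⟩ := frame (hΓ I hI) hk
      exact ⟨P, fun _ => hP⟩
    · exact ⟨0, fun h => absurd h hI⟩
  choose P hP using hex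
  have hle : ∀ I : ℕ, (I : ℝ) / n ≤ ((I : ℝ) + 1) / n := fun I => by gcongr; linarith
  have htr : ∀ I < n, 0 ≤ (Γ I).trace / k := fun I hI =>
    div_nonneg (hΓ I hI).trace_nonneg k0.le
  have hτ0 : 0 ≤ τ := (Finset.sum_nonneg fun I hI =>
    (hΓ I (Finset.mem_range.1 hI)).trace_nonneg).trans hτ
  have y0 : ∀ s, 0 ≤ y s := fun s => by
    obtain ⟨z, -⟩ := (hμ s).exists_le_ex ((hμ s).summable_mul (Bdd.const 0))
    exact (nrm_nonneg _).trans (yb s z)
  set M : ℕ → Matrix ι ι ℝ := fun I => mom ((I : ℝ) / n) (((I : ℝ) + 1) / n) μ X Y with hM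
  have e : mom 0 1 μ X Y = ∑ I ∈ Finset.range n, P I * M I +
      ∑ I ∈ Finset.range n, (1 - P I) * M I := by
    rw [← Finset.sum_add_distrib]
    simp only [← add_mul, add_sub_cancel, one_mul]
    ext i l
    simp only [hM, mom, Matrix.sum_apply, Matrix.of_apply]
    exact (cell_split (hc i l) hn).symm
  have N1 : NucLe (∑ I ∈ Finset.range n, P I * M I) (√(A * B)) := by
    refine (NucLe.sum _ fun I hI => cell_mul_mom hc (P I) (xc.mul yc) (hle I) fun s _ => ?_).mono ?_
    · obtain ⟨h1, h2, -, -⟩ := hP I (Finset.mem_range.1 hI)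
      have := nuc_pt (hμ s) (hb s) (yb s) (P I) (α := fun _ => x s)
        (fun z => (nrm_proj_le h1 h2 _).trans (xb s z)) ((hμ s).summable_mul (Bdd.const _))
      rwa [(hμ s).ex_const] at this
    · rw [cell_split (xc.mul yc) hn]
      refine cell_amgm hA hB fun t ht => ?_
      calc _ ≤ ∫ s in (0 : ℝ)..1, (t / 2 * x s ^ 2 + 1 / (2 * t) * y s ^ 2) := by
            refine intervalIntegral.integral_mono_on zero_le_one
              ((xc.mul yc).intervalIntegrable _ _)
              (Continuous.intervalIntegrable (by fun_prop) _ _) fun s _ => ?_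
            have : t / 2 * x s ^ 2 + 1 / (2 * t) * y s ^ 2 - x s * y s =
                (t * x s - y s) ^ 2 / (2 * t) := by field_simp; ring
            have h2 : 0 ≤ (t * x s - y s) ^ 2 / (2 * t) := by positivity
            simp only [Pi.mul_apply]
            linarith
        _ = t / 2 * (∫ s in (0 : ℝ)..1, x s ^ 2) + 1 / (2 * t) * ∫ s in (0 : ℝ)..1, y s ^ 2 := by
            rw [intervalIntegral.integral_add (Continuous.intervalIntegrable (by fun_prop) _ _)
              (Continuous.intervalIntegrable (by fun_prop) _ _),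
              intervalIntegral.integral_const_mul, intervalIntegral.integral_const_mul]
        _ ≤ t / 2 * A + 1 / (2 * t) * B := by gcongr
        _ = _ := by field_simp
  have N2 : NucLe (∑ I ∈ Finset.range n, (1 - P I) * M I) (√(κ * τ * B / (n * k))) := by
    refine (NucLe.sum _ fun I hI => cell_mul_mom hc (1 - P I)
      (ν := fun s => √((Γ I).trace / k) * √κ * y s) (by fun_prop) (hle I) fun s hs => ?_).mono ?_
    · have hI' := Finset.mem_range.1 hI
      obtain ⟨h1, h2, -, h4⟩ := hP I hI'
      rcases hD I hI' s hs with h | ⟨q, q0, qs, qe, qd⟩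
      · have : (Matrix.of fun i l => Ex (μ s) fun z => X s z i * Y s z l) = 0 := by
          ext i l
          simp [h, Ex]
        rw [this, mul_zero]
        exact nucLe_zero.mono (mul_nonneg (by positivity) (y0 s))
      · obtain ⟨r1, r2⟩ := (hμ s).ex_sqrt_le q0 qs
        refine (nuc_pt (hμ s) (hb s) (yb s) (1 - P I)
          (α := fun z => √((Γ I).trace / k) * √(q z))
          (fun z => nrm_compl_le h1 h2 (htr I hI') (q0 z) h4 (qd z)) ?_).mono ?_
        · simpa only [mul_left_comm] using r1.mul_left √((Γ I).trace / k)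
        · rw [ex_const_mul]
          have := r2.trans (Real.sqrt_le_sqrt qe)
          have := y0 s
          gcongr
    · rw [show κ * τ * B / (n * k) = κ * τ / (n * k) * B by ring]
      refine cell_amgm (by positivity) hB fun t ht => ?_
      calc _ ≤ ∑ I ∈ Finset.range n, (t / 2 * (κ * (Γ I).trace / (n * k)) +
              1 / (2 * t) * ∫ s in ((I : ℝ) / n)..(((I : ℝ) + 1) / n), y s ^ 2) := by
            refine Finset.sum_le_sum fun I hI => ?_
            have h0 := htr I (Finset.mem_range.1 hI)
            calc _ ≤ ∫ s in ((I : ℝ) / n)..(((I : ℝ) + 1) / n),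
                    (t / 2 * ((Γ I).trace / k * κ) + 1 / (2 * t) * y s ^ 2) := by
                  refine intervalIntegral.integral_mono_on (hle I)
                    (Continuous.intervalIntegrable (by fun_prop) _ _)
                    (Continuous.intervalIntegrable (by fun_prop) _ _) fun s _ => ?_
                  rw [← Real.sqrt_mul h0]
                  have h3 := Real.mul_self_sqrt (mul_nonneg h0 hκ)
                  generalize √((Γ I).trace / k * κ) = u at *
                  rw [← h3]
                  have : t / 2 * (u * u) + 1 / (2 * t) * y s ^ 2 - u * y s =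
                      (t * u - y s) ^ 2 / (2 * t) := by field_simp; ring
                  have h2 : 0 ≤ (t * u - y s) ^ 2 / (2 * t) := by positivity
                  linarith
              _ = _ := by
                  rw [intervalIntegral.integral_add (Continuous.intervalIntegrable (by fun_prop) _ _)
                    (Continuous.intervalIntegrable (by fun_prop) _ _),
                    intervalIntegral.integral_const, intervalIntegral.integral_const_mul,
                    smul_eq_mul]
                  field_simp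
                  ring
        _ = t / 2 * (κ * (∑ I ∈ Finset.range n, (Γ I).trace) / (n * k)) +
              1 / (2 * t) * ∫ s in (0 : ℝ)..1, y s ^ 2 := by
            rw [Finset.sum_add_distrib, ← Finset.mul_sum, ← Finset.mul_sum, ← Finset.sum_div,
              ← Finset.mul_sum, cell_split (by fun_prop) hn]
        _ ≤ t / 2 * (κ * τ / (n * k)) + 1 / (2 * t) * B := by gcongr
        _ = _ := by field_simp
  rw [e]
  refine (N1.cost_rank hε hlam ?_).add (N2.cost hε)
  exact_mod_cast cell_rank_sum fun I hI => (Matrix.rank_mul_le_left _ _).trans (hP I hI).2.2.1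

end Crest.Agent.R192
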