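import Crest.Agent.R192.Svd
import Crest.Agent.R192.Gibbs
import Crest.Agent.R192.Ker2

/-! Row 192: nuclear norm and cost of time integrals of second moments. -/

set_option autoImplicit false
set_option linter.unusedSectionVars false
set_option linter.unusedVariables false

open scoped ContDiff Matrix Topology
open MeasureTheory

noncomputable section

namespace Crest.Agent.R192

variable {G : Type} {ι : Type} [Fintype ι] [DecidableEq ι]

theorem VB.mono {A A' : ℝ} {X : ℝ → G → ι → ℝ} (h : VB A X) (hA : A ≤ A') : VB A' X := by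
  obtain ⟨x, h1, h2, h3, h4⟩ := h
  exact ⟨x, h1, h2, h3, h4.trans hA⟩

theorem VB.nonneg {A : ℝ} {X : ℝ → G → ι → ℝ} (h : VB A X) : 0 ≤ A := by
  obtain ⟨x, -, -, -, h4⟩ := h
  exact (intervalIntegral.integral_nonneg zero_le_one fun _ _ => sq_nonneg _).trans h4

theorem VB.add {A B : ℝ} {X Y : ℝ → G → ι → ℝ} (hX : VB A X) (hY : VB B Y) :
    VB (2 * A + 2 * B) fun s z => X s z + Y s z := by
  obtain ⟨x, h1, h2, h3, h4⟩ := hX
  obtain ⟨y, k1, k2, k3, k4⟩ := hY
  refine ⟨fun s => x s + y s, h1.add k1, fun s => by simp only [h2 s, k2 s],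
    fun s z => (nrm_add_le _ _).trans (add_le_add (h3 s z) (k3 s z)), ?_⟩
  calc ∫ s in (0 : ℝ)..1, (x s + y s) ^ 2 ≤ ∫ s in (0 : ℝ)..1, (2 * x s ^ 2 + 2 * y s ^ 2) :=
        intervalIntegral.integral_mono_on zero_le_one (Continuous.intervalIntegrable (by fun_prop) _ _)
          (Continuous.intervalIntegrable (by fun_prop) _ _) fun s _ => by
            nlinarith [sq_nonneg (x s - y s)]
    _ ≤ 2 * A + 2 * B := by
        rw [intervalIntegral.integral_add (Continuous.intervalIntegrable (by fun_prop) _ _)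
          (Continuous.intervalIntegrable (by fun_prop) _ _), intervalIntegral.integral_const_mul,
          intervalIntegral.integral_const_mul]
        linarith

theorem VB.bdd {A : ℝ} {X : ℝ → G → ι → ℝ} (h : VB A X) (s : ℝ) (i : ι) :
    Bdd fun z => X s z i := by
  obtain ⟨x, -, -, h3, -⟩ := h
  exact ⟨x s, fun z => (abs_le_nrm _ i).trans (h3 s z)⟩

/-- take `x s = h * nrm fun l => maj w (s - ξ l)`; `maj ^ 2 ≤ (6 w + 1) maj` -/
theorem LocB.vb {p : ℕ} {ξ : Tm p} {h w : ℝ} (hh : 0 ≤ h) (hw : 0 < w) {X : ℝ → G → Tm p}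
    (hX : LocB ξ h w X) : VB (h ^ 2 * ((p + 1) * ((6 * w + 1) * (4 * w)))) X := by
  have hm := continuous_maj hw
  have hc : Continuous fun s : ℝ => nrm fun l => maj w (s - ξ l) :=
    continuous_nrm.comp (continuous_pi fun l => by fun_prop)
  refine ⟨fun s => h * nrm fun l => maj w (s - ξ l), by fun_prop, fun s => ?_, fun s z => ?_, ?_⟩
  · simp only [add_sub_right_comm s 1, periodic_maj w _]
  · have := nrm_smul h fun l => maj w (s - ξ l)
    rw [abs_of_nonneg hh] at this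
    exact (nrm_mono (w := h • fun l => maj w (s - ξ l)) (hX s z)).trans this.le
  · calc ∫ s in (0 : ℝ)..1, (h * nrm fun l => maj w (s - ξ l)) ^ 2
        ≤ ∫ s in (0 : ℝ)..1, h ^ 2 * ((6 * w + 1) * ∑ l, maj w (s - ξ l)) := by
          refine intervalIntegral.integral_mono_on zero_le_one
            (Continuous.intervalIntegrable (by fun_prop) _ _)
            (Continuous.intervalIntegrable (by fun_prop) _ _) fun s _ => ?_
          rw [mul_pow, nrm_sq, Finset.mul_sum]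
          refine mul_le_mul_of_nonneg_left (Finset.sum_le_sum fun l _ => ?_) (sq_nonneg h)
          exact mul_le_mul_of_nonneg_right (maj_le hw _) (maj_nonneg _ _)
      _ = _ := by
          rw [intervalIntegral.integral_const_mul, intervalIntegral.integral_const_mul,
            intervalIntegral.integral_finsetSum fun l _ =>
              Continuous.intervalIntegrable (by fun_prop) _ _]
          simp only [integral_maj hw, Finset.sum_const, Finset.card_univ, Fintype.card_fin,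
            nsmul_eq_mul]
          push_cast
          ring

theorem cell0_bdd_dot {Y : G → ι → ℝ} (hY : ∀ i, Bdd fun z => Y z i) (c : ι → ℝ) :
    Bdd fun z => c ⬝ᵥ Y z :=
  Bdd.sum _ fun i _ => (Bdd.const _).mul (hY i)

theorem cell0_dot_ex {μ : G → ℝ} (hμ : Prob μ) {Y : G → ι → ℝ} (hY : ∀ i, Bdd fun z => Y z i)
    (c : ι → ℝ) : (c ⬝ᵥ fun l => Ex μ fun z => Y z l) = Ex μ fun z => c ⬝ᵥ Y z := by
  simp only [dotProduct]
  rw [ex_sum _ fun i _ => hμ.summable_mul ((Bdd.const _).mul (hY i))]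
  simp only [ex_const_mul]

theorem cell0_quad_ex {μ : G → ℝ} (hμ : Prob μ) {X Y : G → ι → ℝ} (hX : ∀ i, Bdd fun z => X z i)
    (hY : ∀ i, Bdd fun z => Y z i) (a b : ι → ℝ) :
    a ⬝ᵥ (Matrix.of fun i l => Ex μ fun z => X z i * Y z l) *ᵥ b =
      Ex μ fun z => (a ⬝ᵥ X z) * (b ⬝ᵥ Y z) := by
  have e : (Matrix.of fun i l => Ex μ fun z => X z i * Y z l) *ᵥ b =
      fun i => Ex μ fun z => X z i * (b ⬝ᵥ Y z) := by
    ext i
    change (fun l => Ex μ fun z => X z i * Y z l) ⬝ᵥ b = _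
    rw [dotProduct_comm, cell0_dot_ex hμ (Y := fun z l => X z i * Y z l)
      fun l => (hX i).mul (hY l)]
    congr 1
    ext z
    simp only [dotProduct, Finset.mul_sum, mul_left_comm]
  rw [e, cell0_dot_ex hμ (Y := fun z i => X z i * (b ⬝ᵥ Y z))
    fun i => (hX i).mul (cell0_bdd_dot hY b)]
  congr 1
  ext z
  rw [dotProduct, show a ⬝ᵥ X z = ∑ i, a i * X z i from rfl, Finset.sum_mul]
  simp only [mul_assoc]

theorem cell0_dot_int {m : ℝ → ι → ℝ} (hm : ∀ i, Continuous fun s => m s i) (a b : ℝ)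
    (c : ι → ℝ) : (c ⬝ᵥ fun l => ∫ s in a..b, m s l) = ∫ s in a..b, c ⬝ᵥ m s := by
  simp only [dotProduct]
  rw [intervalIntegral.integral_finsetSum fun l _ =>
    Continuous.intervalIntegrable (by have := hm l; fun_prop) _ _]
  simp only [intervalIntegral.integral_const_mul]

theorem cell0_cont_quad {m : ℝ → Matrix ι ι ℝ} (hm : ∀ i l, Continuous fun s => m s i l)
    (u v : ι → ℝ) : Continuous fun s => u ⬝ᵥ m s *ᵥ v :=
  continuous_finsetSum _ fun i _ => continuous_const.mul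
    (continuous_finsetSum _ fun l _ => (hm i l).mul continuous_const)

theorem cell0_quad_int {m : ℝ → Matrix ι ι ℝ} (hm : ∀ i l, Continuous fun s => m s i l) (a b : ℝ)
    (u v : ι → ℝ) : u ⬝ᵥ (Matrix.of fun i l => ∫ s in a..b, m s i l) *ᵥ v =
      ∫ s in a..b, u ⬝ᵥ m s *ᵥ v := by
  rw [← cell0_dot_int (m := fun s => m s *ᵥ v) fun i =>
    continuous_finsetSum _ fun l _ => (hm i l).mul continuous_const]
  congr 1
  ext i
  change (fun l => ∫ s in a..b, m s i l) ⬝ᵥ v = ∫ s in a..b, m s i ⬝ᵥ v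
  simp only [dotProduct_comm _ v]
  exact cell0_dot_int (m := fun s => m s i) (hm i) a b v

theorem cell0_bes {κ : Type} [Fintype κ] {u : κ → ι → ℝ} (hu : Bes u) (c : ι → ℝ) :
    nrm (fun q => u q ⬝ᵥ c) ≤ nrm c :=
  Real.sqrt_le_sqrt ((hu c).trans_eq (Finset.sum_congr rfl fun i _ => (sq _).symm))

theorem cell0_cs {x y : ℝ → ℝ} (hx : Continuous x) (hy : Continuous y) {A B : ℝ}
    (hA : ∫ s in (0 : ℝ)..1, x s ^ 2 ≤ A) (hB : ∫ s in (0 : ℝ)..1, y s ^ 2 ≤ B) :
    ∫ s in (0 : ℝ)..1, x s * y s ≤ √(A * B) := by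
  have h := discrim_le_zero (a := A) (b := 2 * ∫ s in (0 : ℝ)..1, x s * y s) (c := B) fun t => by
    have h0 : 0 ≤ ∫ s in (0 : ℝ)..1, (t ^ 2 * x s ^ 2 + 2 * t * (x s * y s) + y s ^ 2) :=
      intervalIntegral.integral_nonneg zero_le_one fun s _ => by
        nlinarith [sq_nonneg (t * x s + y s)]
    rw [intervalIntegral.integral_add (Continuous.intervalIntegrable (by fun_prop) _ _)
      (Continuous.intervalIntegrable (by fun_prop) _ _),
      intervalIntegral.integral_add (Continuous.intervalIntegrable (by fun_prop) _ _)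
      (Continuous.intervalIntegrable (by fun_prop) _ _), intervalIntegral.integral_const_mul,
      intervalIntegral.integral_const_mul] at h0
    nlinarith [mul_le_mul_of_nonneg_left hA (sq_nonneg t)]
  rw [discrim] at h
  exact Real.le_sqrt_of_sq_le (by nlinarith)

theorem cell0_nonneg {μ : G → ℝ} (hμ : Prob μ) {Y : G → ι → ℝ} {y : ℝ}
    (hY : ∀ z, nrm (Y z) ≤ y) : 0 ≤ y := by
  obtain ⟨z, -⟩ := hμ.exists_le_ex (hμ.summable_mul (Bdd.const 0))
  exact (nrm_nonneg _).trans (hY z)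

theorem nrm_ex_le {μ : G → ℝ} (hμ : Prob μ) {Y : G → ι → ℝ} {y : ℝ} (hY : ∀ z, nrm (Y z) ≤ y) :
    nrm (fun l => Ex μ fun z => Y z l) ≤ y := by
  refine nrm_le_of_dot (cell0_nonneg hμ hY) fun c => ?_
  rw [cell0_dot_ex hμ fun i => ⟨y, fun z => (abs_le_nrm _ i).trans (hY z)⟩]
  refine (le_abs_self _).trans (hμ.abs_ex_le fun z => (abs_dotProduct_le _ _).trans ?_)
  rw [mul_comm]
  exact mul_le_mul_of_nonneg_right (hY z) (nrm_nonneg _)

theorem VB.tl {B c : ℝ} {Y : ℝ → G → ι → ℝ} (hY : VB B Y) {V : ℝ → G → ℝ}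
    (hV : ∀ s, Prob (gibbs (V s))) {φ : ℝ → ℝ} (h1 : ∀ x, |φ x| ≤ 1)
    (h2 : ∀ x, |deriv φ x| ≤ c) : VB ((2 + c) ^ 2 * B) fun s => tl φ (V s) (Y s) := by
  obtain ⟨y, k1, k2, k3, k4⟩ := hY
  refine ⟨fun s => (2 + c) * y s, by fun_prop, fun s => by simp only [k2 s], fun s z => ?_, ?_⟩
  · have h3 := nrm_ex_le (hV s) (k3 s)
    obtain ⟨E, hE⟩ : ∃ E : ι → ℝ, E = fun l => Ex (gibbs (V s)) fun z => Y s z l := ⟨_, rfl⟩
    have e : Crest.Agent.R192.tl φ (V s) (Y s) z =
        φ (Ff (V s)) • (Y s z + -E) + -(deriv φ (Ff (V s)) • E) := by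
      ext l
      simp [Crest.Agent.R192.tl, hE, Ef, sub_eq_add_neg, mul_add]
    rw [← hE] at h3
    have h4 := nrm_add_le (Y s z) (-E)
    rw [nrm_neg] at h4
    have h5 := mul_le_mul (h1 (Ff (V s))) h4 (nrm_nonneg _) zero_le_one
    have h6 := mul_le_mul (h2 (Ff (V s))) h3 (nrm_nonneg _) ((abs_nonneg _).trans (h2 0))
    refine (e ▸ nrm_add_le _ _).trans ?_
    rw [nrm_neg, nrm_smul, nrm_smul]
    linarith [k3 s z]
  · simp only [mul_pow]
    rw [intervalIntegral.integral_const_mul]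
    exact mul_le_mul_of_nonneg_left k4 (sq_nonneg _)

/-- `∑ q, (u q ⬝ᵥ P X) (v q ⬝ᵥ Y) ≤ nrm (P X) * nrm Y` for Bessel families -/
theorem nuc_pt {μ : G → ℝ} (hμ : Prob μ) {X Y : G → ι → ℝ} (hX : ∀ i, Bdd fun z => X z i)
    {y : ℝ} (hY : ∀ z, nrm (Y z) ≤ y) (P : Matrix ι ι ℝ) {α : G → ℝ}
    (hα : ∀ z, nrm (P *ᵥ X z) ≤ α z) (hs : Summable fun z => μ z * α z) :
    NucLe (P * Matrix.of fun i l => Ex μ fun z => X z i * Y z l) (Ex μ α * y) := by
  classical
  intro κ _ u v hu hv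
  have hYb : ∀ i, Bdd fun z => Y z i := fun i => ⟨y, fun z => (abs_le_nrm _ i).trans (hY z)⟩
  have hb : ∀ q, Bdd fun z => (u q ᵥ* P ⬝ᵥ X z) * (v q ⬝ᵥ Y z) := fun q =>
    (cell0_bdd_dot hX _).mul (cell0_bdd_dot hYb _)
  simp only [← Matrix.mulVec_mulVec, Matrix.dotProduct_mulVec _ P, cell0_quad_ex hμ hX hYb]
  rw [← ex_sum _ fun q _ => hμ.summable_mul (hb q), mul_comm, ← ex_const_mul]
  refine hμ.ex_mono (hμ.summable_mul (Bdd.sum _ fun q _ => hb q))
    (by simpa only [mul_left_comm] using hs.mul_left y) fun z => ?_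
  simp only [← Matrix.dotProduct_mulVec]
  refine (le_abs_self _).trans ((abs_dotProduct_le (fun q => u q ⬝ᵥ P *ᵥ X z)
    (fun q => v q ⬝ᵥ Y z)).trans ?_)
  rw [mul_comm y]
  exact mul_le_mul ((cell0_bes hu _).trans (hα z)) ((cell0_bes hv _).trans (hY z)) (nrm_nonneg _)
    ((nrm_nonneg _).trans (hα z))

theorem nuc_int {m : ℝ → Matrix ι ι ℝ} (hm : ∀ i l, Continuous fun s => m s i l) {ν : ℝ → ℝ}
    (hν : Continuous ν) {a b : ℝ} (hab : a ≤ b) (h : ∀ s ∈ Set.Icc a b, NucLe (m s) (ν s)) :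
    NucLe (Matrix.of fun i l => ∫ s in a..b, m s i l) (∫ s in a..b, ν s) := by
  intro κ _ u v hu hv
  simp only [cell0_quad_int hm]
  rw [← intervalIntegral.integral_finsetSum fun q _ =>
    (cell0_cont_quad hm _ _).intervalIntegrable _ _]
  exact intervalIntegral.integral_mono_on hab
    ((continuous_finsetSum _ fun q _ => cell0_cont_quad hm _ _).intervalIntegrable _ _)
    (hν.intervalIntegrable _ _) fun s hs => h s hs κ u v hu hv

/-- `nuc_pt` with `P = 1`, `nuc_int`, Cauchy-Schwarz in time -/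
theorem nuc_mom {μ : ℝ → G → ℝ} (hμ : ∀ s, Prob (μ s)) {X Y : ℝ → G → ι → ℝ} {A B : ℝ}
    (hX : VB A X) (hY : VB B Y) (hc : CtM μ X Y) : NucLe (mom 0 1 μ X Y) (√(A * B)) := by
  have hXb := hX.bdd
  obtain ⟨x, h1, -, h3, h4⟩ := hX
  obtain ⟨y, k1, -, k3, k4⟩ := hY
  refine (nuc_int (m := fun s => Matrix.of fun i l => Ex (μ s) fun z => X s z i * Y s z l) hc
    (h1.mul k1) zero_le_one fun s _ => ?_).mono (cell0_cs h1 k1 h4 k4)
  have := nuc_pt (hμ s) (hXb s) (k3 s) 1 (α := fun _ => x s)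
    (fun z => by rw [Matrix.one_mulVec]; exact h3 s z) ((hμ s).summable_mul (Bdd.const _))
  rwa [Matrix.one_mul, (hμ s).ex_const] at this

theorem nrm_int_ex_le {μ : ℝ → G → ℝ} (hμ : ∀ s, Prob (μ s)) {Y : ℝ → G → ι → ℝ} {B : ℝ}
    (hY : VB B Y) {a : ℝ → ℝ} (ha : ∀ s, |a s| ≤ 1)
    (hc : ∀ l, Continuous fun s => a s * Ex (μ s) fun z => Y s z l) :
    nrm (fun l => ∫ s in (0 : ℝ)..1, a s * Ex (μ s) fun z => Y s z l) ≤ √B := by
  obtain ⟨y, k1, -, k3, k4⟩ := hY
  refine nrm_le_of_dot (Real.sqrt_nonneg _) fun c => ?_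
  rw [cell0_dot_int (m := fun s l => a s * Ex (μ s) fun z => Y s z l) hc]
  have h1 := cell0_cs k1 (continuous_const (y := (1 : ℝ))) k4 (B := 1) (by simp)
  simp only [mul_one] at h1
  calc _ ≤ ∫ s in (0 : ℝ)..1, y s * nrm c := by
        refine intervalIntegral.integral_mono_on zero_le_one
          ((continuous_finsetSum _ fun l _ => continuous_const.mul (hc l)).intervalIntegrable _ _)
          (Continuous.intervalIntegrable (by fun_prop) _ _) fun s _ => ?_
        refine (le_abs_self _).trans ((abs_dotProduct_le _ _).trans ?_)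
        rw [mul_comm]
        refine mul_le_mul_of_nonneg_right ?_ (nrm_nonneg _)
        refine (nrm_smul (a s) fun l => Ex (μ s) fun z => Y s z l).trans_le ?_
        exact (mul_le_of_le_one_left (nrm_nonneg _) (ha s)).trans (nrm_ex_le (hμ s) (k3 s))
    _ ≤ _ := by
        rw [intervalIntegral.integral_mul_const]
        exact mul_le_mul_of_nonneg_right h1 (nrm_nonneg _)

theorem mom_quad {ν : ℝ → G → ℝ} (hν : ∀ s, Prob (ν s)) {W : ℝ → G → ι → ℝ}
    (hW : ∀ s i, Bdd fun z => W s z i) (hc : CtM ν W W) (a b : ℝ) (c : ι → ℝ) :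
    (Continuous fun u => Ex (ν u) fun z => (c ⬝ᵥ W u z) ^ 2) ∧
    c ⬝ᵥ mom a b ν W W *ᵥ c = ∫ u in a..b, Ex (ν u) fun z => (c ⬝ᵥ W u z) ^ 2 := by
  have e : ∀ u, (Ex (ν u) fun z => (c ⬝ᵥ W u z) ^ 2) =
      c ⬝ᵥ (Matrix.of fun i l => Ex (ν u) fun z => W u z i * W u z l) *ᵥ c := fun u => by
    rw [cell0_quad_ex (hν u) (hW u) (hW u)]
    simp only [sq]
  simp only [e]
  exact ⟨cell0_cont_quad (m := fun u => Matrix.of fun i l => Ex (ν u) fun z => W u z i * W u z l)
    hc c c, cell0_quad_int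
      (m := fun u => Matrix.of fun i l => Ex (ν u) fun z => W u z i * W u z l) hc a b c c⟩

theorem mom_posSemidef {ν : ℝ → G → ℝ} (hν : ∀ s, Prob (ν s)) {W : ℝ → G → ι → ℝ}
    (hW : ∀ s i, Bdd fun z => W s z i) (hc : CtM ν W W) {a b : ℝ} (hab : a ≤ b) :
    (mom a b ν W W).PosSemidef := by
  refine Matrix.PosSemidef.of_dotProduct_mulVec_nonneg ?_ fun c => ?_
  · ext i l
    simp only [mom, Matrix.conjTranspose_apply, Matrix.of_apply, star_trivial, mul_comm]
  · rw [star_trivial, (mom_quad hν hW hc a b c).2]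
    exact intervalIntegral.integral_nonneg hab fun u _ => (hν u).ex_nonneg fun z => sq_nonneg _

/-- `trace ≤ ∫ x ^ 2` over the enlarged cell, then `overlap` -/
theorem sum_trace_mom_le {ν : ℕ → ℝ → G → ℝ} (hν : ∀ I s, Prob (ν I s)) {W : ℝ → G → ι → ℝ}
    {A : ℝ} (hW : VB A W) (hc : ∀ I, CtM (ν I) W W) {n : ℕ} (hn : 1 ≤ n) {w : ℝ} (hw : 0 ≤ w) :
    ∑ I ∈ Finset.range n, (mom ((I : ℝ) / n - w) (((I : ℝ) + 1) / n + w) (ν I) W W).trace
      ≤ (2 * w * n + 3) * A := by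
  have hWb := hW.bdd
  obtain ⟨x, h1, h2, h3, h4⟩ := hW
  refine le_trans (Finset.sum_le_sum fun I _ => ?_) ((overlap (f := fun s => x s ^ 2) (by fun_prop)
    (fun s => by simp only [h2 s]) (fun _ => sq_nonneg _) hn hw).trans
      (mul_le_mul_of_nonneg_left h4 (by positivity)))
  have hab : (I : ℝ) / n - w ≤ ((I : ℝ) + 1) / n + w := by
    have : (I : ℝ) / n ≤ ((I : ℝ) + 1) / n := by gcongr; linarith
    linarith
  simp only [Matrix.trace, Matrix.diag, mom, Matrix.of_apply]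
  rw [← intervalIntegral.integral_finsetSum fun i _ => (hc I i i).intervalIntegrable _ _]
  refine intervalIntegral.integral_mono_on hab
    ((continuous_finsetSum _ fun i _ => hc I i i).intervalIntegrable _ _)
    (Continuous.intervalIntegrable (by fun_prop) _ _) fun s _ => ?_
  rw [← ex_sum _ fun i _ => (hν I s).summable_mul ((hWb s i).mul (hWb s i))]
  refine (le_abs_self _).trans ((hν I s).abs_ex_le fun z => ?_)
  change |W s z ⬝ᵥ W s z| ≤ _
  rw [← nrm_sq, abs_sq]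
  exact pow_le_pow_left₀ (nrm_nonneg _) (h3 s z) 2

end Crest.Agent.R192
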