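import Crest.Agent.R192.Geo0

/-! Row 192: comparison of free energies at different scales. -/

set_option autoImplicit false
set_option linter.unusedSectionVars false
set_option linter.unusedVariables false

open scoped ContDiff Matrix Topology
open MeasureTheory

noncomputable section

namespace Crest.Agent.R192

variable {G : Type} [Group G] {p : ℕ} {ℓ : G → ℝ} {γ T Z a b : ℝ}

theorem geo_integrable {Q f : ℝ → ℝ} {h w : ℝ} (hQ : KB Q h w) (hc : Continuous Q)
    (hf : Continuous f) (s : ℝ) : Integrable fun v => Q v * f (s - v) := by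
  apply Continuous.integrable_of_hasCompactSupport
  · fun_prop
  · apply HasCompactSupport.of_support_subset_isCompact (isCompact_Icc (a := -w) (b := w))
    intro v hv
    by_contra hn
    apply hv
    have : w < |v| := by
      by_contra hle
      exact hn (abs_le.1 (not_lt.1 hle))
    simp [hQ.2 v this]

theorem geo_cont_F (hℓ : IsLen ℓ) (hs : Summable fun x => Real.exp (-ℓ x / 2)) (ha : 0 < a)
    (L : Loop G p) (ξ : Tm p) : Continuous fun s => Ff (fld (Rη a) ℓ p L (s, ξ)) :=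
  SmP.continuous_Ff (smP_fld (rk_Rη ha) (contDiff_Rη a) hℓ hs L) ξ

theorem geo_per_F (L : Loop G p) (ξ : Tm p) :
    Function.Periodic (fun s => Ff (fld (Rη a) ℓ p L (s, ξ))) 1 :=
  Eqv.periodic_Ff (eqv_fld _ _) L ξ

theorem geo_int_sigma {F : ℝ → ℝ} (hF : Continuous F) (c : ℝ) :
    ∫ s in (0 : ℝ)..1, 2 * (F s + c) = 2 * ((∫ s in (0 : ℝ)..1, F s) + c) := by
  rw [intervalIntegral.integral_const_mul,
    intervalIntegral.integral_add (hF.intervalIntegrable _ _) intervalIntegrable_const]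
  simp

/-- the integral over a period of `ρ_η * σ_a` -/
theorem geo_int_conv (hℓ : IsLen ℓ) (hs : Summable fun x => Real.exp (-ℓ x / 2))
    (hZ : ∑' x, Real.exp (-ℓ x / 2) ≤ Z) (ha : 0 < a) {η : ℝ} (hη : 0 < η) (L : Loop G p)
    {ξ : Tm p} (hξ : Sx ξ) {s₁ : ℝ}
    (h₁ : 2 * (IF (fld (Rη (8 * a)) ℓ p L) ξ + Real.log Z) ≤ s₁) :
    ∫ s in (0 : ℝ)..1, ∫ v, ρη η v * (2 * (Ff (fld (Rη a) ℓ p L (s - v, ξ)) + Real.log Z))
      ≤ 16 * s₁ + 2 * Real.log Z := by
  have hc := geo_cont_F hℓ hs ha L ξ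
  have hc8 := geo_cont_F hℓ hs (by positivity : 0 < 8 * a) L ξ
  have h1 := integral_conv_periodic (f := fun s => 2 * (Ff (fld (Rη a) ℓ p L (s, ξ)) + Real.log Z))
    (kb_ρη hη) (contDiff_ρη η).continuous (by fun_prop) (by
      intro s
      have := geo_per_F (a := a) (ℓ := ℓ) L ξ s
      simp only at this ⊢
      rw [this])
  rw [h1, integral_ρη hη, one_mul, geo_int_sigma hc]
  have h2 : ∫ s in (0 : ℝ)..1, Ff (fld (Rη a) ℓ p L (s, ξ)) ≤
      ∫ s in (0 : ℝ)..1, 8 * (2 * (Ff (fld (Rη (8 * a)) ℓ p L (s, ξ)) + Real.log Z)) := by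
    apply intervalIntegral.integral_mono_on zero_le_one (hc.intervalIntegrable _ _)
      (Continuous.intervalIntegrable (by fun_prop) _ _)
    intro s _
    have := Ff_le_eight hℓ hs hZ ha L s hξ
    linarith
  rw [intervalIntegral.integral_const_mul, geo_int_sigma hc8] at h2
  unfold IF at h₁
  linarith

/-- Let `h s` be the left side of `Ff_V2_le` minus its first two right-hand terms (continuous,
periodic).  For fixed `s'` take `z'` from `Adm.exists_le` for `V_{8b} s'`; for `|v| ≤ 3b/4`,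
`V_b (s' - v) z' ≤ 8 σ_{8b} s'` (`fld_D1`) and `∫ ρ_b v * V_{8a} (s' - v) z' ≤ 8 σ_{8b} s'`
(`fld_D2`), so `(ρ_b * h) s' ≤ 16 σ_{8b} s'`.  Integrate over a period
(`integral_conv_periodic`) and use `Ff_le_eight`. -/
theorem IF_V2_le (hℓ : IsLen ℓ) (hs : Summable fun x => Real.exp (-ℓ x / 2))
    (hZ : ∑' x, Real.exp (-ℓ x / 2) ≤ Z) (hγ : 0 ≤ γ) (hT : 0 ≤ T) (ha : 0 < a)
    (hab : 8 * a ≤ b) (L : Loop G p) {ξ : Tm p} (hξ : Sx ξ) {s₁ s₂ : ℝ}
    (h₁ : 2 * (IF (fld (Rη (8 * a)) ℓ p L) ξ + Real.log Z) ≤ s₁)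
    (h₂ : 2 * (IF (fld (Rη (8 * b)) ℓ p L) ξ + Real.log Z) ≤ s₂) :
    IF (V2 ℓ γ T a b a p L) ξ ≤ γ * (24 * s₁ + 2 * Real.log Z) + s₁ + 16 * s₂ := by
  have hb : 0 < b := by linarith
  have h8a : 0 < 8 * a := by positivity
  have h8b : 0 < 8 * b := by positivity
  have hca := geo_cont_F hℓ hs ha L ξ
  have hc8a := geo_cont_F hℓ hs h8a L ξ
  have hc8b := geo_cont_F hℓ hs h8b L ξ
  have hcV : Continuous fun s => Ff (V2 ℓ γ T a b a p L (s, ξ)) :=
    SmP.continuous_Ff (smP_V2 hℓ hs hγ hT ha hb ha L) ξ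
  have hpV : Function.Periodic (fun s => Ff (V2 ℓ γ T a b a p L (s, ξ))) 1 :=
    Eqv.periodic_Ff eqv_V2 L ξ
  let C : ℝ → ℝ := fun s =>
    ∫ v, ρη a v * (2 * (Ff (fld (Rη a) ℓ p L (s - v, ξ)) + Real.log Z))
  have hcC : Continuous C :=
    continuous_conv (f := fun s => 2 * (Ff (fld (Rη a) ℓ p L (s, ξ)) + Real.log Z))
      (kb_ρη ha) (contDiff_ρη a).continuous (by fun_prop)
  have hpC : Function.Periodic C 1 := by
    intro s
    simp only [C]
    congr 1
    funext v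
    have := geo_per_F (a := a) (ℓ := ℓ) L ξ (s - v)
    simp only at this
    rw [show s + 1 - v = s - v + 1 by ring, this]
  let h : ℝ → ℝ := fun s => Ff (V2 ℓ γ T a b a p L (s, ξ)) - γ * C s
    - (8 * γ + 1) * (2 * (Ff (fld (Rη (8 * a)) ℓ p L (s, ξ)) + Real.log Z))
  have hch : Continuous h := by
    simp only [h]
    fun_prop
  have hph : Function.Periodic h 1 := by
    intro s
    have e1 := hpV s
    have e2 := hpC s
    have e3 := geo_per_F (a := 8 * a) (ℓ := ℓ) L ξ s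
    simp only at e1 e3
    simp only [h]
    rw [e1, e2, e3]
  have hpt : ∀ s', ∫ v, ρη b v * h (s' - v) ≤
      16 * (2 * (Ff (fld (Rη (8 * b)) ℓ p L (s', ξ)) + Real.log Z)) := by
    intro s'
    obtain ⟨z', hz'⟩ := (adm_fld (L := L) (s := s') (rk_Rη h8b) hℓ hs hZ hξ).exists_le
    have i1 := geo_integrable (kb_ρη hb) (contDiff_ρη b).continuous
      (continuous_fld hℓ hs hb L ξ z') s'
    have i2 := geo_integrable (kb_ρη hb) (contDiff_ρη b).continuous
      (continuous_fld hℓ hs h8a L ξ z') s'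
    have h1 : ∫ v, ρη b v * h (s' - v) ≤ ∫ v, (ρη b v * fld (Rη b) ℓ p L (s' - v, ξ) z' +
        ρη b v * fld (Rη (8 * a)) ℓ p L (s' - v, ξ) z') := by
      apply integral_mono (geo_integrable (kb_ρη hb) (contDiff_ρη b).continuous hch s') (i1.add i2)
      intro v
      simp only [Pi.add_apply]
      rw [← mul_add]
      apply mul_le_mul_of_nonneg_left _ (ρη_nonneg hb v)
      have := Ff_V2_le hℓ hs hZ hγ hT ha hb L (s' - v) hξ z'
      simp only [h, C]
      linarith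
    rw [integral_add i1 i2] at h1
    have d1 := fld_D2 (L := L) (s := s') hℓ.nonneg hb (le_refl b) hξ z'
    have d2 := fld_D2 (L := L) (s := s') hℓ.nonneg h8a hab hξ z'
    unfold cv at d1 d2
    simp only at d1 d2
    linarith
  have h3 := integral_conv_periodic (kb_ρη hb) (contDiff_ρη b).continuous hch hph
  rw [integral_ρη hb, one_mul] at h3
  have h4 : ∫ s in (0 : ℝ)..1, ∫ v, ρη b v * h (s - v) ≤
      ∫ s in (0 : ℝ)..1, 16 * (2 * (Ff (fld (Rη (8 * b)) ℓ p L (s, ξ)) + Real.log Z)) := by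
    apply intervalIntegral.integral_mono_on zero_le_one
      ((continuous_conv (kb_ρη hb) (contDiff_ρη b).continuous hch).intervalIntegrable _ _)
      (Continuous.intervalIntegrable (by fun_prop) _ _)
    intro s _
    exact hpt s
  rw [h3, intervalIntegral.integral_const_mul, geo_int_sigma hc8b] at h4
  have h5 : ∫ s in (0 : ℝ)..1, h s = IF (V2 ℓ γ T a b a p L) ξ - γ * (∫ s in (0 : ℝ)..1, C s)
      - (8 * γ + 1) * (2 * (IF (fld (Rη (8 * a)) ℓ p L) ξ + Real.log Z)) := by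
    simp only [h]
    rw [intervalIntegral.integral_sub (Continuous.intervalIntegrable (by fun_prop) _ _)
        (Continuous.intervalIntegrable (by fun_prop) _ _),
      intervalIntegral.integral_sub (hcV.intervalIntegrable _ _)
        (Continuous.intervalIntegrable (by fun_prop) _ _),
      intervalIntegral.integral_const_mul, intervalIntegral.integral_const_mul,
      geo_int_sigma hc8a]
    rfl
  have h6 : ∫ s in (0 : ℝ)..1, C s ≤ 16 * s₁ + 2 * Real.log Z :=
    geo_int_conv hℓ hs hZ ha ha L hξ h₁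
  have h7 := mul_le_mul_of_nonneg_left h6 hγ
  have h8 := mul_le_mul_of_nonneg_left h₁ (by positivity : 0 ≤ 8 * γ + 1)
  unfold IF at h₂
  linarith

/-- At the point `z` of `Adm.exists_le` for `V2 … b s`: `fld R_{b/8} ℓD = fld R_{b/8} trc +
fld R_{b/8} ℓ ≤ 8 cv ρ_b (fld R_a trc) + 8 V_b ≤ 8 V2 + 8 γ (ρ_b * σ_a)` (`fld_D3`, `fld_D1`,
`fld_trc_le`). -/
theorem IF_ℓD_le (hℓ : IsLen ℓ) (hs : Summable fun x => Real.exp (-ℓ x / 2))
    (hZ : ∑' x, Real.exp (-ℓ x / 2) ≤ Z) (hγ : 0 ≤ γ) (hT : 0 ≤ T) (ha : 0 < a)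
    (hab : 8 * a ≤ b) (L : Loop G p) {ξ : Tm p} (hξ : Sx ξ) {s₁ : ℝ}
    (h₁ : 2 * (IF (fld (Rη (8 * a)) ℓ p L) ξ + Real.log Z) ≤ s₁) :
    IF (fld (Rη (b / 8)) (ℓD ℓ γ T) p L) ξ
      ≤ 16 * (IF (V2 ℓ γ T a b b p L) ξ + Real.log Z) + 8 * γ * (16 * s₁ + 2 * Real.log Z) := by
  have hb : 0 < b := by linarith
  have hb8 : 0 < b / 8 := by positivity
  have htr := hℓ.trc hγ hT
  have hD := hℓ.ℓD hγ hT
  have hle : ∀ x, ℓ x ≤ ℓD ℓ γ T x := fun x => by
    have := htr.nonneg x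
    unfold ℓD
    linarith
  have hsD : Summable fun x => Real.exp (-ℓD ℓ γ T x / 2) := by
    refine Summable.of_nonneg_of_le (fun x => (Real.exp_pos _).le) (fun x => ?_) hs
    apply Real.exp_le_exp.2
    have := hle x
    linarith
  have hca := geo_cont_F hℓ hs ha L ξ
  have hcD := geo_cont_F hD hsD hb8 L ξ
  have hcV : Continuous fun s => Ff (V2 ℓ γ T a b b p L (s, ξ)) :=
    SmP.continuous_Ff (smP_V2 hℓ hs hγ hT ha hb hb L) ξ
  let C : ℝ → ℝ := fun s =>
    ∫ v, ρη b v * (2 * (Ff (fld (Rη a) ℓ p L (s - v, ξ)) + Real.log Z))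
  have hcσ : Continuous fun s => 2 * (Ff (fld (Rη a) ℓ p L (s, ξ)) + Real.log Z) := by fun_prop
  have hcC : Continuous C := continuous_conv (kb_ρη hb) (contDiff_ρη b).continuous hcσ
  have hpt : ∀ s, Ff (fld (Rη (b / 8)) (ℓD ℓ γ T) p L (s, ξ)) ≤
      8 * (2 * (Ff (V2 ℓ γ T a b b p L (s, ξ)) + Real.log Z)) + 8 * γ * C s := by
    intro s
    obtain ⟨z, hz⟩ := (adm_V2 hℓ hs hZ hγ hT ha hb hb L s hξ).exists_le
    have h1 := Ff_le ((smP_fld (rk_Rη hb8) (contDiff_Rη _) hD hsD L).summable (s, ξ)) z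
    have h2 : fld (Rη (b / 8)) (ℓD ℓ γ T) p L (s, ξ) z =
        fld (Rη (b / 8)) (trc ℓ γ T) p L (s, ξ) z + fld (Rη (b / 8)) ℓ p L (s, ξ) z := by
      unfold fld ℓD
      exact avg_add (rk_Rη hb8).evC _ _ _
    have h3 := fld_D3 (L := L) (s := s) htr.nonneg ha hab hξ z
    have h4 := fld_D1 (L := L) (s := s) (s' := s) hℓ.nonneg hb hb8
      (by rw [sub_self, abs_zero]; linarith) hξ z
    rw [show b / (b / 8) = 8 by field_simp] at h4
    have hcDD : Continuous fun s => DD ℓ γ T a p L (s, ξ) z :=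
      ((smF_DD hℓ hs hγ hT ha L).contDiff_apply z).continuous.comp (by fun_prop)
    have i1 := geo_integrable (kb_ρη hb) (contDiff_ρη b).continuous hcσ s
    have i2 := geo_integrable (kb_ρη hb) (contDiff_ρη b).continuous hcDD s
    have h5 : cv (ρη b) (fld (Rη a) (trc ℓ γ T)) p L (s, ξ) z ≤
        ∫ v, (γ * (ρη b v * (2 * (Ff (fld (Rη a) ℓ p L (s - v, ξ)) + Real.log Z))) +
          ρη b v * DD ℓ γ T a p L (s - v, ξ) z) := by
      unfold cv
      apply integral_mono_of_nonneg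
      · exact Filter.Eventually.of_forall fun v =>
          mul_nonneg (ρη_nonneg hb v) (fld_nonneg (rk_Rη ha) htr hξ z)
      · exact (i1.const_mul γ).add i2
      · refine Filter.Eventually.of_forall fun v => ?_
        have := mul_le_mul_of_nonneg_left (fld_trc_le hℓ hs hZ hγ hT ha L (s - v) hξ z)
          (ρη_nonneg hb v)
        simp only
        linarith
    rw [integral_add (i1.const_mul γ) i2, integral_const_mul] at h5
    have h6 : V2 ℓ γ T a b b p L (s, ξ) z = fld (Rη b) ℓ p L (s, ξ) z +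
        ∫ v, ρη b v * DD ℓ γ T a p L (s - v, ξ) z := rfl
    simp only [C]
    linarith
  have h7 : IF (fld (Rη (b / 8)) (ℓD ℓ γ T) p L) ξ ≤ ∫ s in (0 : ℝ)..1,
      (8 * (2 * (Ff (V2 ℓ γ T a b b p L (s, ξ)) + Real.log Z)) + 8 * γ * C s) := by
    unfold IF
    apply intervalIntegral.integral_mono_on zero_le_one (hcD.intervalIntegrable _ _)
      (Continuous.intervalIntegrable (by fun_prop) _ _)
    intro s _
    exact hpt s
  rw [intervalIntegral.integral_add (Continuous.intervalIntegrable (by fun_prop) _ _)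
      (Continuous.intervalIntegrable (by fun_prop) _ _),
    intervalIntegral.integral_const_mul, intervalIntegral.integral_const_mul (8 * γ),
    geo_int_sigma hcV] at h7
  have h8 : ∫ s in (0 : ℝ)..1, C s ≤ 16 * s₁ + 2 * Real.log Z :=
    geo_int_conv hℓ hs hZ ha hb L hξ h₁
  have h9 := mul_le_mul_of_nonneg_left h8 (by positivity : 0 ≤ 8 * γ)
  unfold IF at h7 ⊢
  linarith

end Crest.Agent.R192
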