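import Crest.Agent.R192.LevD
import Crest.Agent.R192.Geo

/-! Row 192: construction of the connection. -/

set_option autoImplicit false
set_option linter.unusedSectionVars false
set_option linter.unusedVariables false

open scoped ContDiff Matrix Topology
open MeasureTheory

noncomputable section

namespace Crest.Agent.R192

variable {G : Type} [Group G] {p : ℕ} {ℓ : G → ℝ}

/-- if the first three energies are small then the last one is large -/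
theorem geo (hℓ : IsLen ℓ) {Z : ℝ} (hs : Summable fun x => Real.exp (-ℓ x / 2))
    (hZ : ∑' x, Real.exp (-ℓ x / 2) ≤ Z) {γ R θ θ₀ : ℝ} (hγ : 1 ≤ γ) (hR : 1 ≤ R)
    (hZR : Real.log Z ≤ R) (hθ : 0 < θ) (hθ₀ : 0 ≤ θ₀) {n t i j₁ M : ℕ} (hn : 1 ≤ n) (hti : t ≤ i)
    (hj : 4 * i ≤ j₁) (hM : 1 ≤ M) (h1 : 2 * M + 2 ≤ sc n j₁) (h2 : sc n j₁ ≤ 4 * M + 4)
    (hs₁ : 2 * (528 * (2 * (3 * θ₀ + 2 * θ * (4 * t + 3 : ℕ) + Real.log Z)) + 64 * Real.log Z) ≤ R)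
    (hs₂ : 34 + 256 * (2 * (3 * θ₀ + 2 * θ * (4 * i + 6 : ℕ) + Real.log Z)) ≤ γ * R / 2)
    (L : Loop G p) (hF : Far ℓ (64 * R) M L.g) (ht : tot ℓ L ≤ θ₀ * n) {ξ : Tm p} (hξ : Sx ξ)
    (e₁ : en (ΛA ℓ n θ (4 * t + 3) p L) ξ ≤ 2) (e₂ : en (ΛA ℓ n θ (4 * i + 6) p L) ξ ≤ 2)
    (e₃ : en (ΛB ℓ γ (64 * R) n (4 * t) (4 * i + 3) p L) ξ ≤ 2) :
    2 ≤ en (ΛD ℓ γ R n (4 * i) j₁ p L) ξ := by
  have hZ1 : (1 : ℝ) ≤ Z := (hℓ.one_le_tsum hs).trans hZ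
  have hz0 : 0 ≤ Real.log Z := Real.log_nonneg hZ1
  have hγ0 : 0 ≤ γ := by linarith
  have hT : (0 : ℝ) ≤ 64 * R := by linarith
  have a1 := IF_le_of_ΛA hℓ hs hn (a := 4 * t + 3) (by omega) hθ L ht hξ e₁
  have a2 := IF_le_of_ΛA hℓ hs hn (a := 4 * i + 6) (by omega) hθ L ht hξ e₂
  have hsa : sc n (4 * t + 3) = 8 * sc n (4 * t) := sc_add_three n _
  have hsb : sc n (4 * i + 6) = 8 * sc n (4 * i + 3) := sc_add_three n (4 * i + 3)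
  have hsc : sc n (4 * i + 3) / 8 = sc n (4 * i) := by rw [sc_add_three]; ring
  have hab : 8 * sc n (4 * t) ≤ sc n (4 * i + 3) := by
    rw [← hsa]; exact sc_mono n (by omega)
  rw [hsa] at a1
  rw [hsb] at a2
  set s₁ : ℝ := 2 * (3 * θ₀ + 2 * θ * (4 * t + 3 : ℕ) + Real.log Z) with hs₁d
  set s₂ : ℝ := 2 * (3 * θ₀ + 2 * θ * (4 * i + 6 : ℕ) + Real.log Z) with hs₂d
  have hs₁0 : 0 ≤ s₁ := by rw [hs₁d]; positivity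
  have b1 : 2 * (IF (fld (Rη (8 * sc n (4 * t))) ℓ p L) ξ + Real.log Z) ≤ s₁ := by
    rw [hs₁d]; linarith
  have b2 : 2 * (IF (fld (Rη (8 * sc n (4 * i + 3))) ℓ p L) ξ + Real.log Z) ≤ s₂ := by
    rw [hs₂d]; linarith
  have c1 := IF_V2_le hℓ hs hZ hγ0 hT (sc_pos hn (4 * t)) hab L hξ b1 b2
  have c2 := IF_ℓD_le hℓ hs hZ hγ0 hT (sc_pos hn (4 * t)) hab L hξ b1
  have c3 := en_ΛB_ge (γ := γ) (T := 64 * R) hℓ hs hγ0 hT hn (j := 4 * t) (J := 4 * i + 3)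
    (by omega) L ξ
  have c4 := en_ΛD_ge hℓ hs hZ hγ hR hZR hn hj hM h1 h2 L hF hξ
  rw [hsc] at c2
  have d1 : γ * (2 * (528 * s₁ + 64 * Real.log Z)) ≤ γ * R := mul_le_mul_of_nonneg_left hs₁ hγ0
  have d2 : s₁ ≤ γ * s₁ := le_mul_of_one_le_left hs₁0 hγ
  have d3 : Real.log Z ≤ γ * Real.log Z := le_mul_of_one_le_left hz0 hγ
  nlinarith

theorem en_pat4 {Λ₁ Λ₂ Λ₃ Λ₄ : Gen G} (h₁ : NatG Λ₁) (h₂ : NatG Λ₂) (h₃ : NatG Λ₃)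
    (h₄ : NatG Λ₄) (L : Loop G p) (ξ : Tm p)
    (h : en (Λ₁ p L) ξ ≤ 2 → en (Λ₂ p L) ξ ≤ 2 → en (Λ₃ p L) ξ ≤ 2 → 2 ≤ en (Λ₄ p L) ξ) :
    en (pat Λ₁ (pat Λ₂ (pat Λ₃ (pat Λ₄ 0))) p L) ξ = 1 := by
  have n4 := h₄.pat natG_zero
  have n3 := h₃.pat n4
  have n2 := h₂.pat n3
  rw [en_pat h₁ n2, en_pat h₂ n3, en_pat h₃ n4, en_pat h₄ natG_zero]
  by_cases c1 : en (Λ₁ p L) ξ ≤ 2
  · by_cases c2 : en (Λ₂ p L) ξ ≤ 2
    · by_cases c3 : en (Λ₃ p L) ξ ≤ 2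
      · rw [kχ_one (h c1 c2 c3)]; ring
      · rw [kχ_one (not_le.1 c3).le]; ring
    · rw [kχ_one (not_le.1 c2).le]; ring
  · rw [kχ_one (not_le.1 c1).le]; ring

theorem fine_pat4 {Λ₁ Λ₂ Λ₃ Λ₄ : Gen G} (h₁ : NatG Λ₁) (h₂ : NatG Λ₂) (h₃ : NatG Λ₃)
    (h₄ : NatG Λ₄) {L : Loop G p} {r ξ : Tm p} (hr : ∀ l, 1 ≤ r l) {ε : ℝ} (hε : 0 < ε) {n : ℕ}
    (hp : p ≤ 2 * n) (hn : 1 + 16 * (cs + 1) * (n : ℝ) ^ 5 / ε ≤ Real.exp n) (hn1 : 1 ≤ n)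
    (g₁ : Good ε n ((n : ℝ) ^ 2) (Λ₁ p L) r ξ) (g₂ : Good ε n ((n : ℝ) ^ 2) (Λ₂ p L) r ξ)
    (g₃ : Good ε n ((n : ℝ) ^ 2) (Λ₃ p L) r ξ) (g₄ : Good ε n ((n : ℝ) ^ 2) (Λ₄ p L) r ξ) :
    Fine ε (8 * n + 4 * ∑ l, Real.log (r l)) (4 * (n : ℝ) ^ 2)
      (pat Λ₁ (pat Λ₂ (pat Λ₃ (pat Λ₄ 0))) p L) r ξ := by
  have hr0 : ∀ l, 0 < r l := fun l => lt_of_lt_of_le one_pos (hr l)
  have n4 := h₄.pat natG_zero
  have n3 := h₃.pat n4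
  have n2 := h₂.pat n3
  have hn1' : (1 : ℝ) ≤ n := by exact_mod_cast hn1
  have hcs := one_le_cs
  have hP : 1 ≤ ∏ l, r l := Finset.one_le_prod fun l _ => hr l
  have hnr : nrm r ≤ 2 * n * ∏ l, r l := by
    refine (nrm_le_sqrt_mul_prod hr).trans (mul_le_mul_of_nonneg_right ?_ (by linarith))
    rw [Real.sqrt_le_iff]
    refine ⟨by positivity, ?_⟩
    have : ((p : ℝ)) ≤ 2 * n := by exact_mod_cast hp
    simp only [Fintype.card_fin]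
    push_cast
    nlinarith
  have key : ∀ B : ℝ, 0 ≤ B → B ≤ 4 * (n : ℝ) ^ 2 →
      Real.log (1 + 2 * (n : ℝ) ^ 2 * nrm r * ((cs + 1) * B) / ε) ≤ n + ∑ l, Real.log (r l) := by
    intro B hB0 hB
    have h0 := nrm_nonneg r
    rw [← Real.log_prod (fun l _ => (hr0 l).ne'), ← Real.log_exp (n : ℝ),
      ← Real.log_mul (Real.exp_pos _).ne' (by linarith)]
    simp only [Real.log_exp]
    refine Real.log_le_log (by positivity) ?_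
    have e1 : 2 * (n : ℝ) ^ 2 * nrm r * ((cs + 1) * B) / ε
        ≤ 16 * (cs + 1) * (n : ℝ) ^ 5 / ε * ∏ l, r l := by
      rw [div_mul_eq_mul_div]
      refine div_le_div_of_nonneg_right ?_ hε.le
      calc 2 * (n : ℝ) ^ 2 * nrm r * ((cs + 1) * B)
          ≤ 2 * (n : ℝ) ^ 2 * (2 * n * ∏ l, r l) * ((cs + 1) * (4 * (n : ℝ) ^ 2)) := by
            gcongr
        _ = 16 * (cs + 1) * (n : ℝ) ^ 5 * ∏ l, r l := by ring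
    calc 1 + 2 * (n : ℝ) ^ 2 * nrm r * ((cs + 1) * B) / ε
        ≤ (1 + 16 * (cs + 1) * (n : ℝ) ^ 5 / ε) * ∏ l, r l := by rw [add_mul (1 : ℝ)]; linarith
      _ ≤ Real.exp n * ∏ l, r l := mul_le_mul_of_nonneg_right hn (by linarith)
  have hsq : (0 : ℝ) ≤ (n : ℝ) ^ 2 := by positivity
  have f4 := Good.pat h₄ natG_zero hr0 hε g₄ (fine_zero ε r ξ)
  have f3 := Good.pat h₃ n4 hr0 hε g₃ f4
  have f2 := Good.pat h₂ n3 hr0 hε g₂ f3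
  have f1 := Good.pat h₁ n2 hr0 hε g₁ f2
  refine f1.mono ?_ (le_of_eq (by ring))
  have k4 := key ((n : ℝ) ^ 2 + 0) (by linarith) (by linarith)
  have k3 := key ((n : ℝ) ^ 2 + ((n : ℝ) ^ 2 + 0)) (by linarith) (by linarith)
  have k2 := key ((n : ℝ) ^ 2 + ((n : ℝ) ^ 2 + ((n : ℝ) ^ 2 + 0))) (by linarith) (by linarith)
  have k1 := key ((n : ℝ) ^ 2 + ((n : ℝ) ^ 2 + ((n : ℝ) ^ 2 + ((n : ℝ) ^ 2 + 0))))
    (by linarith) (by linarith)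
  linarith

theorem conn_ev_pow (C : ℝ) (d : ℕ) : ∀ᶠ t : ℕ in Filter.atTop, C * (t : ℝ) ^ d ≤ 2 ^ t := by
  have h := tendsto_pow_const_div_const_pow_of_one_lt d (r := (2 : ℝ)) (by norm_num)
  have h2 := h.const_mul |C|
  rw [mul_zero] at h2
  filter_upwards [h2.eventually (gt_mem_nhds one_pos)] with t ht
  have h3 : (0 : ℝ) < 2 ^ t := by positivity
  rw [← mul_div_assoc, div_lt_one h3] at ht
  exact (mul_le_mul_of_nonneg_right (le_abs_self C) (by positivity)).trans ht.le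

theorem conn_ev_exp (C : ℝ) (d : ℕ) :
    ∀ᶠ ν : ℕ in Filter.atTop, C * ((16 ^ ν : ℕ) : ℝ) ^ d ≤ Real.exp (16 ^ ν : ℕ) := by
  have h16 : Filter.Tendsto (fun ν : ℕ => 16 ^ ν) Filter.atTop Filter.atTop :=
    tendsto_pow_atTop_atTop_of_one_lt (by norm_num)
  filter_upwards [h16.eventually (conn_ev_pow C d)] with ν hν
  refine hν.trans ?_
  rw [← mul_one ((16 ^ ν : ℕ) : ℝ), Real.exp_nat_mul]
  exact pow_le_pow_left₀ (by norm_num) (by linarith [Real.add_one_le_exp (1 : ℝ)]) _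

theorem conn_ev_lin (C : ℝ) (c : ℕ) :
    ∀ᶠ ν : ℕ in Filter.atTop, (4 * (ν : ℝ) + c) * C ≤ 2 ^ ν := by
  filter_upwards [conn_ev_pow ((4 + c) * |C|) 1, Filter.eventually_ge_atTop 1] with ν h1 h2
  have h3 : (1 : ℝ) ≤ ν := by exact_mod_cast h2
  refine le_trans ?_ h1
  have h4 : (0 : ℝ) ≤ c := Nat.cast_nonneg c
  calc (4 * (ν : ℝ) + c) * C ≤ (4 * (ν : ℝ) + c) * |C| :=
        mul_le_mul_of_nonneg_left (le_abs_self C) (by positivity)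
    _ ≤ ((4 + c) * ν) * |C| := mul_le_mul_of_nonneg_right (by nlinarith) (abs_nonneg C)
    _ = (4 + c) * |C| * (ν : ℝ) ^ 1 := by ring

theorem conn (hℓ : IsLen ℓ) (hs : Summable fun x => Real.exp (-ℓ x / 2)) {ε θ₀ : ℝ} (hε : 0 < ε)
    (hθ₀ : 0 ≤ θ₀) : ∃ T : ℝ, 0 < T ∧ ∀ M : ℕ, 1 ≤ M → ∀ᶠ ν : ℕ in Filter.atTop,
      ∃ Λ : Gen G, NatG Λ ∧ ∀ p ≤ 2 * 16 ^ ν, ∀ (L : Loop G p) (ξ : Tm p), Sx ξ →
        Fine ε (8 * (16 ^ ν : ℕ) + 4 * ∑ l, Real.log (rr ℓ L l)) (4 * ((16 ^ ν : ℕ) : ℝ) ^ 2)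
          (Λ p L) (rr ℓ L) ξ ∧
        (Far ℓ T M L.g → tot ℓ L ≤ θ₀ * (16 ^ ν : ℕ) → en (Λ p L) ξ = 1) := by
  set Z : ℝ := ∑' x, Real.exp (-ℓ x / 2) with hZd
  have hZ : ∑' x, Real.exp (-ℓ x / 2) ≤ Z := le_rfl
  have hZ1 : (1 : ℝ) ≤ Z := hℓ.one_le_tsum hs
  have hz0 : 0 ≤ Real.log Z := Real.log_nonneg hZ1
  have hcs := one_le_cs
  obtain ⟨θ, hθd⟩ : ∃ θ : ℝ, θ = 336 / ε := ⟨_, rfl⟩
  have hθ : 0 < θ := by rw [hθd]; positivity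
  obtain ⟨β, hβd⟩ : ∃ β : ℝ, β = 6 * θ₀ + 40 * θ + 2 * Real.log Z + 1 := ⟨_, rfl⟩
  have hβ : 1 ≤ β := by rw [hβd]; linarith
  obtain ⟨ρ, hρd⟩ : ∃ ρ : ℝ, ρ = 2 * (528 * β + 64 * Real.log Z) + 1 := ⟨_, rfl⟩
  have hρ : 1 ≤ ρ := by rw [hρd]; linarith
  obtain ⟨c, hc⟩ : ∃ c : ℕ, 2 * Real.exp (28 * ρ) < 2 ^ c :=
    pow_unbounded_of_one_lt _ (by norm_num)
  have hc1 : 1 ≤ c := by
    rcases Nat.eq_zero_or_pos c with h | h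
    · rw [h, pow_zero] at hc
      have := Real.one_le_exp (x := 28 * ρ) (by linarith)
      linarith
    · exact h
  have hc1' : (1 : ℝ) ≤ c := by exact_mod_cast hc1
  obtain ⟨γ, hγd⟩ : ∃ γ : ℝ, γ = 68 + 512 * β * c := ⟨_, rfl⟩
  have hγ : 1 ≤ γ := by rw [hγd]; nlinarith only [hβ, hc1']
  have hγ0 : 0 ≤ γ := by linarith
  obtain ⟨K₀, hK₀d⟩ : ∃ K₀ : ℝ, K₀ = 180 * cs * (2 + cs) * (γ + 1) ^ 2 * Z / ε := ⟨_, rfl⟩
  have hK₀ : 0 ≤ K₀ := by rw [hK₀d]; positivity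
  obtain ⟨t, ht1, htB, htD⟩ : ∃ t : ℕ, 1 ≤ t ∧
      7 * c * (1 + 6 * 10 ^ 4 * (1 + γ * (64 * ρ)) ^ 2 / ε) * (t : ℝ) ^ 3 ≤ 2 ^ t ∧
      2 * (128 + 16 * K₀) * (t : ℝ) ^ 0 ≤ 2 ^ t :=
    ((Filter.eventually_ge_atTop 1).and ((conn_ev_pow _ 3).and (conn_ev_pow _ 0))).exists
  have ht1' : (1 : ℝ) ≤ t := by exact_mod_cast ht1
  obtain ⟨R, hRd⟩ : ∃ R : ℝ, R = ρ * t := ⟨_, rfl⟩
  have hρR : ρ ≤ R := by rw [hRd]; nlinarith only [hρ, ht1']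
  have hR : 1 ≤ R := hρ.trans hρR
  have hZR : Real.log Z ≤ R := by refine le_trans ?_ hρR; rw [hρd]; linarith
  have hT0 : (0 : ℝ) ≤ 64 * R := by linarith
  obtain ⟨i, hid⟩ : ∃ i : ℕ, i = c * t := ⟨_, rfl⟩
  have hti : t ≤ i := by rw [hid]; exact Nat.le_mul_of_pos_left t hc1
  have hi1' : (1 : ℝ) ≤ c * t := by nlinarith only [hc1', ht1']
  have hir : (i : ℝ) = c * t := by rw [hid]; push_cast; ring
  have hs₁ : 2 * (528 * (2 * (3 * θ₀ + 2 * θ * (4 * t + 3 : ℕ) + Real.log Z))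
      + 64 * Real.log Z) ≤ R := by
    have e1 : 2 * (3 * θ₀ + 2 * θ * (4 * t + 3 : ℕ) + Real.log Z) ≤ β * t := by
      rw [hβd]; push_cast
      nlinarith only [mul_nonneg hθ₀ (sub_nonneg.2 ht1'), mul_nonneg hθ.le (sub_nonneg.2 ht1'),
        mul_nonneg hz0 (sub_nonneg.2 ht1'), ht1', hθ]
    rw [hRd, hρd]
    nlinarith only [e1, mul_nonneg hz0 (sub_nonneg.2 ht1'), ht1']
  have hs₂ : 34 + 256 * (2 * (3 * θ₀ + 2 * θ * (4 * i + 6 : ℕ) + Real.log Z)) ≤ γ * R / 2 := by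
    have e1 : 2 * (3 * θ₀ + 2 * θ * (4 * i + 6 : ℕ) + Real.log Z) ≤ β * (c * t) := by
      rw [hβd]; push_cast; rw [hir]
      nlinarith only [mul_nonneg hθ₀ (sub_nonneg.2 hi1'), mul_nonneg hθ.le (sub_nonneg.2 hi1'),
        mul_nonneg hz0 (sub_nonneg.2 hi1'), hi1', hθ]
    have e2 : γ * t ≤ γ * R := mul_le_mul_of_nonneg_left
      (by rw [hRd]; nlinarith only [hρ, ht1']) hγ0
    have e3 : γ * t = 68 * t + 512 * (β * (c * t)) := by rw [hγd]; ring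
    linarith
  obtain ⟨K, hKd⟩ : ∃ K : ℝ,
    K = 180 * cs * (2 + cs) * (γ + 1) ^ 2 * Z * Real.exp (28 * R) / ε := ⟨_, rfl⟩
  have hKK : K = K₀ * Real.exp (28 * ρ) ^ t := by
    rw [hKd, hK₀d, ← Real.exp_nat_mul, hRd]
    have : (t : ℝ) * (28 * ρ) = 28 * (ρ * t) := by ring
    rw [this]; ring
  have hK : 0 ≤ K := by rw [hKK]; positivity
  have hD1 : (128 + 16 * K) / 2 ^ i ≤ 1 / 2 := by
    rw [div_le_div_iff₀ (by positivity) (by norm_num), hid, pow_mul, hKK]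
    have e0 : 1 ≤ Real.exp (28 * ρ) ^ t := one_le_pow₀ (Real.one_le_exp (by linarith))
    have e1 : (2 * Real.exp (28 * ρ)) ^ t ≤ ((2 : ℝ) ^ c) ^ t :=
      pow_le_pow_left₀ (by positivity) hc.le t
    rw [mul_pow] at e1
    rw [pow_zero, mul_one] at htD
    have e2 := mul_le_mul_of_nonneg_right htD (le_trans zero_le_one e0)
    nlinarith only [e0, e1, e2]
  have hB1 : ((4 * i + 3 : ℕ) : ℝ) * ((1 + 6 * 10 ^ 4 * (1 + γ * (64 * R)) ^ 2 / ε) / 2 ^ t)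
      ≤ 1 := by
    rw [← mul_div_assoc, div_le_one (by positivity)]
    refine le_trans ?_ htB
    have e1 : ((4 * i + 3 : ℕ) : ℝ) ≤ 7 * c * t := by push_cast; rw [hir]; linarith only [hi1']
    have e2 : 1 + γ * (64 * R) ≤ (1 + γ * (64 * ρ)) * t := by
      rw [hRd]; nlinarith only [ht1']
    have e3 : 1 + 6 * 10 ^ 4 * (1 + γ * (64 * R)) ^ 2 / ε
        ≤ (1 + 6 * 10 ^ 4 * (1 + γ * (64 * ρ)) ^ 2 / ε) * (t : ℝ) ^ 2 := by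
      have e4 : (1 + γ * (64 * R)) ^ 2 ≤ ((1 + γ * (64 * ρ)) * t) ^ 2 :=
        pow_le_pow_left₀ (by positivity) e2 2
      have e5 : 6 * 10 ^ 4 * (1 + γ * (64 * R)) ^ 2 / ε
          ≤ 6 * 10 ^ 4 * ((1 + γ * (64 * ρ)) * t) ^ 2 / ε := by gcongr
      have e6 : (1 : ℝ) ≤ (t : ℝ) ^ 2 := one_le_pow₀ ht1'
      have e7 : (1 + 6 * 10 ^ 4 * (1 + γ * (64 * ρ)) ^ 2 / ε) * (t : ℝ) ^ 2
          = (t : ℝ) ^ 2 + 6 * 10 ^ 4 * ((1 + γ * (64 * ρ)) * t) ^ 2 / ε := by ring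
      linarith
    calc ((4 * i + 3 : ℕ) : ℝ) * (1 + 6 * 10 ^ 4 * (1 + γ * (64 * R)) ^ 2 / ε)
        ≤ (7 * c * t) * ((1 + 6 * 10 ^ 4 * (1 + γ * (64 * ρ)) ^ 2 / ε) * (t : ℝ) ^ 2) :=
          mul_le_mul e1 e3 (by positivity) (by positivity)
      _ = _ := by ring
  refine ⟨64 * R, by linarith, fun M hM => ?_⟩
  obtain ⟨c', hc'1, hc'2⟩ : ∃ c' : ℕ, 2 * M + 2 ≤ 2 ^ c' ∧ 2 ^ c' ≤ 4 * M + 4 := by
    refine ⟨Nat.log 2 (2 * M + 2) + 1, (Nat.lt_pow_succ_log_self (by norm_num) _).le, ?_⟩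
    have := Nat.pow_log_le_self 2 (x := 2 * M + 2) (by omega)
    rw [pow_succ]; omega
  filter_upwards [Filter.eventually_ge_atTop (i + 2), conn_ev_lin (2 * (17 + K * (1 + 2 ^ c'))) c',
    conn_ev_pow ε 0, conn_ev_pow (((4 * i + 3 : ℕ) : ℝ) * (3 * 10 ^ 4 * (1 + γ * (64 * R)) ^ 2)) 0,
    conn_ev_lin ((2 + cs) * (84 * (γ + 1) ^ 2 * (1 + 2 ^ c'))) c',
    conn_ev_exp (1 + 16 * (cs + 1) / ε) 5] with ν hν1 hν2 hν3 hν4 hν5 hν6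
  rw [pow_zero, mul_one] at hν3 hν4
  have hn : 1 ≤ 16 ^ ν := Nat.one_le_pow _ _ (by norm_num)
  have hnr : ((16 ^ ν : ℕ) : ℝ) = 16 ^ ν := by push_cast; rfl
  have h216 : (2 : ℝ) ^ ν ≤ 16 ^ ν := pow_le_pow_left₀ (by norm_num) (by norm_num) ν
  have hn0 : (0 : ℝ) < 16 ^ ν := by positivity
  have hn1 : (1 : ℝ) ≤ 16 ^ ν := one_le_pow₀ (by norm_num)
  have h16 : 16 ^ ν = 2 ^ (4 * ν) := by rw [pow_mul]; norm_num
  have n1 := natG_ΛA hℓ hs hn θ (4 * t + 3)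
  have n2 := natG_ΛA hℓ hs hn θ (4 * i + 6)
  have n3 := natG_ΛB hℓ hs hγ0 hT0 hn (4 * t) (4 * i + 3)
  have n4 := natG_ΛD hℓ hs hγ0 (le_trans zero_le_one hR) hn (4 * i) (4 * ν + c')
  refine ⟨_, n1.pat (n2.pat (n3.pat (n4.pat natG_zero))), fun p hp L ξ hξ => ⟨?_, fun hF ht => ?_⟩⟩
  · have gA : ∀ a : ℕ, 1 ≤ a → a ≤ 4 * ν → Good ε (16 ^ ν : ℕ) (((16 ^ ν : ℕ) : ℝ) ^ 2)
        (ΛA ℓ (16 ^ ν) θ a p L) (rr ℓ L) ξ := by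
      intro a ha1 ha2
      rw [hθd]
      refine (good_ΛA hℓ hs hn ha1 ?_ hε hp L ξ).mono le_rfl ?_
      · rw [h16]; exact Nat.pow_le_pow_right (by norm_num) ha2
      · rw [hnr]; nlinarith only [hν3.trans h216, hn0]
    refine fine_pat4 n1 n2 n3 n4 (one_le_rr hℓ L) hε hp ?_ hn (gA _ (by omega) (by omega))
      (gA _ (by omega) (by omega)) ?_ ?_
    · refine le_trans ?_ hν6
      have e1 : (1 : ℝ) ≤ ((16 ^ ν : ℕ) : ℝ) ^ 5 := one_le_pow₀ (by rw [hnr]; exact hn1)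
      have e2 : (1 + 16 * (cs + 1) / ε) * ((16 ^ ν : ℕ) : ℝ) ^ 5
          = ((16 ^ ν : ℕ) : ℝ) ^ 5 + 16 * (cs + 1) * ((16 ^ ν : ℕ) : ℝ) ^ 5 / ε := by ring
      linarith
    · refine (good_ΛB hℓ hs hγ0 hT0 (J := 4 * i + 3) (by omega) hε hp L ξ).mono ?_ ?_
      · rw [hnr, mul_left_comm]
        exact mul_le_of_le_one_right hn0.le hB1
      · rw [hnr, ← mul_assoc, pow_two ((16 : ℝ) ^ ν)]
        exact mul_le_mul_of_nonneg_right (hν4.trans h216) hn0.le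
    · refine (good_ΛD hℓ hs hZ hγ hR hZR (i := i) (c := c') hε hp L hξ hKd).mono ?_ ?_
      · rw [hnr]
        refine mul_le_of_le_one_right hn0.le ?_
        have e1 : (4 * (ν : ℝ) + c') * (17 + K * (1 + 2 ^ c')) / 2 ^ ν ≤ 1 / 2 := by
          rw [div_le_div_iff₀ (by positivity) (by norm_num)]
          linarith
        linarith
      · rw [hnr, pow_two ((16 : ℝ) ^ ν)]
        have e1 := mul_le_mul_of_nonneg_right (hν5.trans h216) hn0.le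
        refine le_trans (le_of_eq ?_) e1
        ring
  · have hsc : sc (16 ^ ν) (4 * ν + c') = 2 ^ c' := by
      rw [sc, hnr, pow_add, pow_mul]
      norm_num
    refine en_pat4 n1 n2 n3 n4 L ξ fun e₁ e₂ e₃ => ?_
    refine geo hℓ hs hZ hγ hR hZR hθ hθ₀ hn hti (by omega) hM ?_ ?_ hs₁ hs₂ L hF ht hξ e₁ e₂ e₃
    · rw [hsc]; exact_mod_cast hc'1
    · rw [hsc]; exact_mod_cast hc'2

end Crest.Agent.R192
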