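import Crest.Agent.R192.Local
import Crest.Agent.R192.Conn

/-! Row 192: vanishing of the trace for weighted idempotents. -/

set_option autoImplicit false
set_option linter.unusedSectionVars false
set_option linter.unusedVariables false

open scoped ContDiff Matrix Topology
open MeasureTheory

noncomputable section

namespace Crest.Agent.R192

variable {G : Type} [Group G] {A : Type} [NormedRing A] [NormedAlgebra ℂ A] [CompleteSpace A]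
  {τ : A →L[ℂ] ℂ} {e : G → A} {ℓ : G → ℝ}

theorem core_wW_le (hℓ : IsLen ℓ) {κ : ℝ} (hκ : 0 < κ) :
    ∃ c : ℝ, 0 ≤ c ∧ ∀ x, wW ℓ (κ / 2) x ≤ c * Real.exp (κ * ℓ x) := by
  refine ⟨(6 : ℕ).factorial * (2 / κ) ^ 6 * Real.exp (κ / 2), by positivity, fun x => ?_⟩
  have h0 := hℓ.nonneg x
  have h1 := Real.pow_div_factorial_le_exp (κ / 2 * (1 + ℓ x)) (by positivity) 6
  rw [div_le_iff₀ (by positivity)] at h1
  have h2 : (1 + ℓ x) ^ 6 = (2 / κ) ^ 6 * (κ / 2 * (1 + ℓ x)) ^ 6 := by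
    rw [← mul_pow]; congr 1; field_simp
  have h3 : Real.exp (κ / 2) * Real.exp (κ * ℓ x)
      = Real.exp (κ / 2 * (1 + ℓ x)) * Real.exp (κ / 2 * ℓ x) := by
    rw [← Real.exp_add, ← Real.exp_add]; congr 1; ring
  unfold wW
  calc (1 + ℓ x) ^ 6 * Real.exp (κ / 2 * ℓ x)
      ≤ (2 / κ) ^ 6 * (Real.exp (κ / 2 * (1 + ℓ x)) * (6 : ℕ).factorial)
        * Real.exp (κ / 2 * ℓ x) := by
        rw [h2]; gcongr
    _ = (6 : ℕ).factorial * (2 / κ) ^ 6 * (Real.exp (κ / 2) * Real.exp (κ * ℓ x)) := by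
        rw [h3]; ring
    _ = _ := by ring

theorem core (hℓ : IsLen ℓ) (hZ : Summable fun x => Real.exp (-ℓ x / 2)) {κ : ℝ} (hκ : 0 < κ)
    (hs : Summable fun x => ‖e x‖ * Real.exp (κ * ℓ x)) (he : IsIdem e) (hτ : Tracial τ) :
    ∃ T : ℝ, 0 < T ∧ ∀ M : ℕ, 1 ≤ M → ∀ C : Set G, ConjInv C → (∀ g ∈ C, Far ℓ T M g) →
      ctr τ e C = 0 := by
  have hκ2 : 0 ≤ κ / 2 := by positivity
  obtain ⟨c, hc0, hc⟩ := core_wW_le hℓ hκ
  have hW0 : ∀ x, 0 ≤ wW ℓ (κ / 2) x := fun x => zero_le_one.trans (one_le_wW hℓ hκ2 x)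
  have hsW : Summable fun x => ‖e x‖ * wW ℓ (κ / 2) x := by
    refine Summable.of_nonneg_of_le (fun x => mul_nonneg (norm_nonneg _) (hW0 x)) (fun x => ?_)
      (hs.mul_left c)
    rw [mul_left_comm]
    exact mul_le_mul_of_nonneg_left (hc x) (norm_nonneg _)
  obtain ⟨M₀, hM₀, hM1⟩ : ∃ M₀ : ℝ, ∑' x, ‖e x‖ * wW ℓ (κ / 2) x ≤ M₀ ∧ 1 ≤ M₀ :=
    ⟨max _ 1, le_max_left _ _, le_max_right _ _⟩
  have hM0 : 0 < M₀ := by linarith
  obtain ⟨ε, hεd⟩ : ∃ ε : ℝ, ε = Real.exp (-9) / M₀ ^ 2 := ⟨_, rfl⟩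
  have hε : 0 < ε := by rw [hεd]; positivity
  have hεM : ε * M₀ ^ 2 = Real.exp (-9) := by rw [hεd]; field_simp
  obtain ⟨T, hT, hconn⟩ := conn hℓ hZ hε (θ₀ := 20 / κ) (by positivity)
  refine ⟨T, hT, fun M hM C hC hF => ?_⟩
  have hbound : ∀ᶠ ν : ℕ in Filter.atTop,
      ‖ctr τ e C‖ ≤ ‖τ‖ * (M₀ + 1) * Real.exp (-((16 ^ ν : ℕ) : ℝ)) := by
    filter_upwards [hconn M hM, conn_ev_exp (180 * M₀ ^ 2) 5] with ν hν hν2
    obtain ⟨Λ, hΛ, h⟩ := hν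
    obtain ⟨n, hn⟩ : ∃ n : ℕ, n = 16 ^ ν := ⟨_, rfl⟩
    have hn1 : 1 ≤ n := hn ▸ Nat.one_le_pow _ _ (by norm_num)
    rw [← hn] at h hν2 ⊢
    have hn1' : (1 : ℝ) ≤ n := by exact_mod_cast hn1
    have hl := local_bound (τ := τ) (C := C) (n := n) (c := 8 * n) (B := 4 * (n : ℝ) ^ 2)
      (t := 20 / κ * n) hℓ hκ2 hsW hM₀ hM1 he hτ hC hΛ hε
      (by rw [hεM]; exact Real.exp_le_one_iff.2 (by norm_num)) (by nlinarith)
      (fun p hp L ξ hξ => (h p hp L ξ hξ).1)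
      (fun p hp L ξ hξ hL ht => (h p hp L ξ hξ).2 (hF _ hL) ht)
    refine hl.trans ?_
    rw [hεM, mul_assoc ‖τ‖, mul_assoc ‖τ‖]
    refine mul_le_mul_of_nonneg_left ?_ (norm_nonneg τ)
    have e1 : Real.exp (8 * n) * Real.exp (-9) ^ n = Real.exp (-(n : ℝ)) := by
      rw [← Real.exp_nat_mul, ← Real.exp_add]; congr 1; ring
    have e2 : Real.exp (8 * n) * Real.exp (-(κ / 2 * (20 / κ * n))) * Real.exp n
        = Real.exp (-(n : ℝ)) := by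
      rw [← Real.exp_add, ← Real.exp_add]; congr 1; field_simp; ring
    have e3 : 5 * n * (2 * n + 1) ^ 2 * (4 * (n : ℝ) ^ 2) * M₀ ^ 2 ≤ Real.exp n := by
      refine le_trans ?_ hν2
      have a1 : (2 * n + 1 : ℝ) ^ 2 ≤ (3 * n) ^ 2 := pow_le_pow_left₀ (by positivity) (by linarith) 2
      calc 5 * n * (2 * n + 1) ^ 2 * (4 * (n : ℝ) ^ 2) * M₀ ^ 2
          ≤ 5 * n * (3 * n) ^ 2 * (4 * (n : ℝ) ^ 2) * M₀ ^ 2 := by gcongr
        _ = _ := by ring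
    have e4 := mul_le_mul_of_nonneg_left e3
      (show 0 ≤ Real.exp (8 * n) * Real.exp (-(κ / 2 * (20 / κ * n))) by positivity)
    rw [e2] at e4
    calc Real.exp (8 * n) * (Real.exp (-9) ^ n * M₀ + 5 * n * (2 * n + 1) ^ 2 * (4 * (n : ℝ) ^ 2)
          * M₀ ^ 2 * Real.exp (-(κ / 2 * (20 / κ * n))))
        = Real.exp (8 * n) * Real.exp (-9) ^ n * M₀
          + Real.exp (8 * n) * Real.exp (-(κ / 2 * (20 / κ * n)))
            * (5 * n * (2 * n + 1) ^ 2 * (4 * (n : ℝ) ^ 2) * M₀ ^ 2) := by ring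
      _ ≤ Real.exp (-(n : ℝ)) * M₀ + Real.exp (-(n : ℝ)) := by rw [e1]; linarith
      _ = _ := by ring
  have h16 : Filter.Tendsto (fun ν : ℕ => ((16 ^ ν : ℕ) : ℝ)) Filter.atTop Filter.atTop :=
    tendsto_natCast_atTop_atTop.comp (tendsto_pow_atTop_atTop_of_one_lt (by norm_num))
  have hlim := (Real.tendsto_exp_neg_atTop_nhds_zero.comp h16).const_mul (‖τ‖ * (M₀ + 1))
  rw [mul_zero] at hlim
  exact norm_le_zero_iff.1 (ge_of_tendsto hlim hbound)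

end Crest.Agent.R192
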