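import Mathlib

/-! Row 192 (Bass trace theorem for the weighted group Banach algebra): all definitions.

Overview.  For an idempotent `e` of `ℓ¹(G, A)` the class trace is written as an integral over
"twisted step loops" `(g; x₀,…,x_p; times ξ₀ ≤ … ≤ ξ_p ≤ ξ₀+1)` of the power `(dα)^n` of a natural
one-form `α` (file `Local`).  The form is built from Gibbs measures of window averages of the
distance to the loop at dyadic scales (files `Lev`, `Two`, `LevD`, `Geo`, `Conn`). -/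

set_option autoImplicit false

open scoped ContDiff Matrix
open MeasureTheory

noncomputable section

namespace Crest.Agent.R192

/-! ## Kernels on the line -/

/-- smooth step: `0` for `u ≤ -1/4`, `1` for `u ≥ 1/4`, `kS (-u) = 1 - kS u` -/
def kS (u : ℝ) : ℝ := Real.smoothTransition (2 * u + 1 / 2)
/-- plateau bump: `1` on `|u| ≤ 1/4`, `0` on `|u| ≥ 3/4`, integral `1` -/
def kρ (u : ℝ) : ℝ := kS (u + 1 / 2) - kS (u - 1 / 2)
/-- the primitive of `kρ` vanishing at `-∞` -/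
def kR (u : ℝ) : ℝ := ∫ t in (u - 1 / 2)..(u + 1 / 2), kS t
/-- an odd function supported in `|u| ≤ 3/2` -/
def kK (u : ℝ) : ℝ := kR (u / 2) - kR u
/-- the compactly supported primitive of `kK` -/
def kL (u : ℝ) : ℝ := ∫ t in (-2 : ℝ)..u, kK t

def Rη (η u : ℝ) : ℝ := kR (u / η)
def ρη (η u : ℝ) : ℝ := kρ (u / η) / η
def Kη (η u : ℝ) : ℝ := kK (u / η)
def Lη (η u : ℝ) : ℝ := η * kL (u / η)
def ψη (η u : ℝ) : ℝ := deriv kS (u / η) / η

/-- a bound (at least `1`) for the derivative of the smooth transition function -/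
def cs : ℝ := 1 + ⨆ x : ℝ, |deriv Real.smoothTransition x|

/-- `1`-periodic majorant of the indicator of `[-w, w] + ℤ` (counted with multiplicity) -/
def maj (w u : ℝ) : ℝ := ∑' m : ℤ, kρ ((u - m) / (4 * w))

/-- `Q` is bounded by `h` and supported in `[-w, w]` -/
def KB (Q : ℝ → ℝ) (h w : ℝ) : Prop := (∀ u, |Q u| ≤ h) ∧ ∀ u, w < |u| → Q u = 0
/-- `Q` is a distribution function of a compactly supported probability measure -/
def RK (Q : ℝ → ℝ) : Prop :=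
  Monotone Q ∧ ∃ w : ℝ, (∀ u, w ≤ u → Q u = 1) ∧ ∀ u, u ≤ -w → Q u = 0
/-- `Q` is constant near `+∞` and near `-∞` -/
def EvC (Q : ℝ → ℝ) : Prop :=
  ∃ w a b : ℝ, (∀ u, w ≤ u → Q u = a) ∧ ∀ u, u ≤ -w → Q u = b
def kconv (Q₁ Q₂ : ℝ → ℝ) (u : ℝ) : ℝ := ∫ v, Q₁ v * Q₂ (u - v)

/-- cutoff: `0` on `x ≤ 1`, `1` on `x ≥ 2` -/
def kχ (x : ℝ) : ℝ := Real.smoothTransition (x - 1)
def ku (x : ℝ) : ℝ := kχ x / x
/-- antitone cutoff: `1` on `x ≤ y`, `0` on `x ≥ 2 y` -/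
def kφ (y x : ℝ) : ℝ := Real.smoothTransition (2 - x / y)

/-! ## Expectations and Gibbs measures on a discrete set -/

section Gibbs
variable {G : Type}

def Prob (μ : G → ℝ) : Prop := (∀ z, 0 ≤ μ z) ∧ HasSum μ 1
def Ex (μ f : G → ℝ) : ℝ := ∑' z, μ z * f z
def Bdd (f : G → ℝ) : Prop := ∃ C : ℝ, ∀ z, |f z| ≤ C
def Zf (V : G → ℝ) : ℝ := ∑' z, Real.exp (-V z)
/-- free energy -/
def Ff (V : G → ℝ) : ℝ := -Real.log (Zf V)
def gibbs (V : G → ℝ) (z : G) : ℝ := Real.exp (-V z) / Zf V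
def Ef (V f : G → ℝ) : ℝ := Ex (gibbs V) f
/-- covariance -/
def Cv (V f k : G → ℝ) : ℝ := Ef V (fun z => f z * k z) - Ef V f * Ef V k
/-- admissible potential -/
def Adm (Z : ℝ) (V : G → ℝ) : Prop :=
  (∀ z, 0 ≤ V z) ∧ Summable (fun z => Real.exp (-V z / 2)) ∧ ∑' z, Real.exp (-V z / 2) ≤ Z

/-- `G` with the discrete topology -/
def Dc (G : Type) : Type := G
instance : TopologicalSpace (Dc G) := ⊥
instance : DiscreteTopology (Dc G) := ⟨rfl⟩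
/-- the Banach algebra of bounded functions on `G` -/
abbrev Bd (G : Type) : Type := BoundedContinuousFunction (Dc G) ℝ

variable {E : Type} [NormedAddCommGroup E] [NormedSpace ℝ E]
/-- a family of bounded functions on `G` depending smoothly (in sup norm) on a parameter -/
def SmF (f : E → G → ℝ) : Prop :=
  ∃ F : E → Bd G, ContDiff ℝ ∞ F ∧ ∀ x (z : G), F x z = f x z
/-- a smooth family of potentials: a fixed potential plus a smooth bounded family -/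
def SmP (V : E → G → ℝ) : Prop :=
  ∃ b : G → ℝ, Summable (fun z => Real.exp (-b z)) ∧ SmF (fun x z => V x z - b z)

end Gibbs

/-! ## Finite dimensional linear algebra -/

section Lin
variable {ι : Type} [Fintype ι]

/-- Euclidean norm -/
def nrm (v : ι → ℝ) : ℝ := √(∑ i, v i ^ 2)
/-- Bessel family -/
def Bes {κ : Type} [Fintype κ] (u : κ → ι → ℝ) : Prop :=
  ∀ c : ι → ℝ, ∑ q, (u q ⬝ᵥ c) ^ 2 ≤ c ⬝ᵥ c
/-- nuclear norm at most `ν` -/
def NucLe (M : Matrix ι ι ℝ) (ν : ℝ) : Prop :=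
  ∀ (κ : Type) [Fintype κ] (u v : κ → ι → ℝ), Bes u → Bes v → ∑ q, u q ⬝ᵥ M *ᵥ v q ≤ ν
/-- `M` is a finite sum of rank one matrices of total logarithmic cost at most `c` -/
def CostLe (ε : ℝ) (M : Matrix ι ι ℝ) (c : ℝ) : Prop :=
  ∃ (κ : Type) (_ : Fintype κ) (b a : κ → ι → ℝ), M = ∑ q, Matrix.vecMulVec (b q) (a q) ∧
    ∑ q, Real.log (1 + nrm (b q) * nrm (a q) / ε) ≤ c
/-- the vector field `X` has a continuous periodic norm bound with square integral `≤ A` -/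
def VB {G : Type} (A : ℝ) (X : ℝ → G → ι → ℝ) : Prop :=
  ∃ x : ℝ → ℝ, Continuous x ∧ Function.Periodic x 1 ∧ (∀ s z, nrm (X s z) ≤ x s) ∧
    ∫ s in (0 : ℝ)..1, x s ^ 2 ≤ A
/-- `∫ E[X Yᵀ]` over the interval from `a` to `b` -/
def mom {G : Type} (a b : ℝ) (μ : ℝ → G → ℝ) (X Y : ℝ → G → ι → ℝ) : Matrix ι ι ℝ :=
  Matrix.of fun i l => ∫ s in a..b, Ex (μ s) fun z => X s z i * Y s z l
/-- the entries of `E[X Yᵀ]` are continuous in time -/
def CtM {G : Type} (μ : ℝ → G → ℝ) (X Y : ℝ → G → ι → ℝ) : Prop :=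
  ∀ i l, Continuous fun s => Ex (μ s) fun z => X s z i * Y s z l
/-- low rank structure of `X` at time `s`, relative to the positive matrix `Γ` -/
def Dom {G : Type} (μ : G → ℝ) (X : G → ι → ℝ) (Γ : Matrix ι ι ℝ) (κ : ℝ) : Prop :=
  ∃ k : G → ℝ, (∀ z, 0 ≤ k z) ∧ Summable (fun z => μ z * k z) ∧ Ex μ k ≤ κ ∧
    ∀ z c, (c ⬝ᵥ X z) ^ 2 ≤ k z * (c ⬝ᵥ Γ *ᵥ c)
/-- the vector appearing in the mixed derivative of `gen` -/
def tl {G : Type} (φ : ℝ → ℝ) (V : G → ℝ) (Y : G → ι → ℝ) (z : G) (l : ι) : ℝ :=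
  φ (Ff V) * (Y z l - Ef V fun y => Y y l) - deriv φ (Ff V) * Ef V fun y => Y y l

end Lin

/-! ## Times, loops, fields -/

abbrev Tm (p : ℕ) : Type := Fin (p + 1) → ℝ

section Times
variable {p : ℕ}
/-- `(ξ₀, …, ξ_p, ξ₀ + 1)` -/
def extT (ξ : Tm p) : Fin (p + 2) → ℝ := Fin.snoc (α := fun _ => ℝ) ξ (ξ 0 + 1)
/-- `(ξ₁, …, ξ_p, ξ₀ + 1)` -/
def nxt (ξ : Tm p) : Tm p := fun l => extT ξ l.succ
/-- insert at position `i` a time equal to the following time -/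
def faceT (i : Fin (p + 2)) (ξ : Tm p) : Tm (p + 1) :=
  Fin.insertNth (α := fun _ => ℝ) i (extT ξ i) ξ
/-- cyclically ordered times -/
def Sx (ξ : Tm p) : Prop := ∀ l, ξ l ≤ nxt ξ l
/-- componentwise bound by the majorant centred at the times `ξ` -/
def LocB {G : Type} (ξ : Tm p) (h w : ℝ) (X : ℝ → G → Tm p) : Prop :=
  ∀ s z l, |X s z l| ≤ h * maj w (s - ξ l)
/-- weight of the time interval `[ξ l + m, nxt ξ l + m]` seen from time `q.1` -/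
def wt (Q : ℝ → ℝ) (q : ℝ × Tm p) (l : Fin (p + 1)) (m : ℤ) : ℝ :=
  Q (q.1 - q.2 l - m) - Q (q.1 - nxt q.2 l - m)
end Times

structure IsLen {G : Type} [Group G] (ℓ : G → ℝ) : Prop where
  one : ℓ 1 = 0
  inv : ∀ x, ℓ x⁻¹ = ℓ x
  mul : ∀ x y, ℓ (x * y) ≤ ℓ x + ℓ y

/-- a twisted loop: at time `ξ l + m` the path jumps to `g ^ m * x l` -/
@[ext] structure Loop (G : Type) (p : ℕ) where
  g : G
  x : Fin (p + 1) → G

abbrev Fam (G : Type) : Type := (p : ℕ) → Loop G p → ℝ × Tm p → G → ℝ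
abbrev Gen (G : Type) : Type := (p : ℕ) → Loop G p → Tm p × Tm p → ℝ

section Loops
variable {G : Type} [Group G] {p : ℕ}

def Loop.rot (L : Loop G p) : Loop G p :=
  ⟨L.g, fun l => Fin.snoc (α := fun _ => G) L.x (L.g * L.x 0) l.succ⟩
/-- the position before the jump at time `ξ l` -/
def Loop.prv (L : Loop G p) : Fin (p + 1) → G :=
  fun l => Fin.cons (α := fun _ => G) (L.g⁻¹ * L.x (Fin.last p)) L.x l.castSucc
def Loop.jump (L : Loop G p) (l : Fin (p + 1)) : G := (L.prv l)⁻¹ * L.x l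
def Loop.face (i : Fin (p + 2)) (L : Loop G (p + 1)) : Loop G p :=
  ⟨L.g, fun l => L.x (i.succAbove l)⟩
def Loop.smul (h : G) (L : Loop G p) : Loop G p := ⟨h * L.g * h⁻¹, fun l => h * L.x l⟩
def rr (ℓ : G → ℝ) (L : Loop G p) : Tm p := fun l => 1 + ℓ (L.jump l)
def tot (ℓ : G → ℝ) (L : Loop G p) : ℝ := ∑ l, ℓ (L.jump l)

/-- `∫ Q'(s - t) f(γ t) dt` for the step path `γ` -/
def avg (Q : ℝ → ℝ) (L : Loop G p) (q : ℝ × Tm p) (f : G → ℝ) : ℝ :=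
  ∑ l, ∑' m : ℤ, wt Q q l m * f (L.g ^ m * L.x l)
def fld (Q : ℝ → ℝ) (ℓ : G → ℝ) : Fam G := fun _ L q z => avg Q L q fun y => ℓ (y⁻¹ * z)
/-- weighted sum of the jumps of `t ↦ ℓ ((γ t)⁻¹ z)` -/
def jmp (Q : ℝ → ℝ) (ℓ : G → ℝ) (L : Loop G p) (q : ℝ × Tm p) (c : Tm p) (z : G) : ℝ :=
  ∑ l, c l * ∑' m : ℤ, Q (q.1 - q.2 l - m) *
    (ℓ ((L.g ^ m * L.x l)⁻¹ * z) - ℓ ((L.g ^ m * L.prv l)⁻¹ * z))
/-- convolution in time -/
def cv (Q : ℝ → ℝ) (V : Fam G) : Fam G :=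
  fun p L q z => ∫ v, Q v * V p L (q.1 - v, q.2) z
/-- Gibbs average of the kernel `k (y⁻¹ z)` -/
def gav (V : Fam G) (k : G → ℝ) : Fam G :=
  fun p L q z => Ef (V p L q) fun y => k (y⁻¹ * z)

/-- equivariance of a field family -/
structure Eqv (V : Fam G) : Prop where
  face : ∀ (p : ℕ) (L : Loop G (p + 1)) (i : Fin (p + 2)) (s : ℝ) (ξ : Tm p) (z : G),
    V (p + 1) L (s, faceT i ξ) z = V p (L.face i) (s, ξ) z
  rot : ∀ (p : ℕ) (L : Loop G p) (s : ℝ) (ξ : Tm p) (z : G),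
    V p L.rot (s, nxt ξ) z = V p L (s, ξ) z
  smul : ∀ (p : ℕ) (L : Loop G p) (h : G) (q : ℝ × Tm p) (z : G),
    V p (L.smul h) q (h * z) = V p L q z
  shift : ∀ (p : ℕ) (L : Loop G p) (s : ℝ) (ξ : Tm p) (t : ℝ) (z : G),
    V p L (s + t, fun l => ξ l + t) z = V p L (s, ξ) z
  per : ∀ (p : ℕ) (L : Loop G p) (s : ℝ) (ξ : Tm p) (z : G),
    V p L (s + 1, ξ) (L.g * z) = V p L (s, ξ) z

/-- natural smooth generating family -/
structure NatG (Λ : Gen G) : Prop where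
  smooth : ∀ (p : ℕ) (L : Loop G p), ContDiff ℝ ∞ (Λ p L)
  face : ∀ (p : ℕ) (L : Loop G (p + 1)) (i : Fin (p + 2)) (ξ ζ : Tm p),
    Λ (p + 1) L (faceT i ξ, faceT i ζ) = Λ p (L.face i) (ξ, ζ)
  rot : ∀ (p : ℕ) (L : Loop G p) (ξ ζ : Tm p), Λ p L.rot (nxt ξ, nxt ζ) = Λ p L (ξ, ζ)
  smul : ∀ (p : ℕ) (L : Loop G p) (h : G), Λ p (L.smul h) = Λ p L
  shift : ∀ (p : ℕ) (L : Loop G p) (ξ ζ : Tm p) (t : ℝ),
    Λ p L (fun l => ξ l + t, fun l => ζ l + t) = Λ p L (ξ, ζ)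

open Classical in
/-- at most half of `M` consecutive points of a `g`-orbit are `T`-close to a given point -/
def Far (ℓ : G → ℝ) (T : ℝ) (M : ℕ) (g : G) : Prop :=
  ∀ x z : G, 2 * ((Finset.range M).filter fun m => ℓ ((g ^ m * x)⁻¹ * z) < T).card ≤ M

end Loops

section Derivs
variable {G : Type} {p : ℕ}

/-- derivative in the times -/
def dF (f : ℝ × Tm p → G → ℝ) (q : ℝ × Tm p) (c : Tm p) (z : G) : ℝ :=
  fderiv ℝ (fun ξ => f (q.1, ξ) z) q.2 c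
/-- normalised gradient in the times -/
def dv (f : ℝ × Tm p → G → ℝ) (r ξ : Tm p) : ℝ → G → Tm p :=
  fun s z l => dF f (s, ξ) (Pi.single l 1) z / r l
/-- integrated free energy -/
def IF (f : ℝ × Tm p → G → ℝ) (ξ : Tm p) : ℝ := ∫ s in (0 : ℝ)..1, Ff (f (s, ξ))
/-- generating function of the one-form attached to a potential `V` and an observable `U` -/
def gen (φ : ℝ → ℝ) (V U : Fam G) : Gen G := fun p L w =>
  -∫ s in (0 : ℝ)..1, φ (Ff (V p L (s, w.1))) * Ef (V p L (s, w.1)) (U p L (s, w.2))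

/-- the one-form of a generating function -/
def cov (Λ : Tm p × Tm p → ℝ) (ξ : Tm p) : Tm p →L[ℝ] ℝ := fderiv ℝ (fun ζ => Λ (ξ, ζ)) ξ
/-- energy: the sum of the coefficients of the one-form -/
def en (Λ : Tm p × Tm p → ℝ) (ξ : Tm p) : ℝ := cov Λ ξ fun _ => 1
def mixF (Λ : Tm p × Tm p → ℝ) (ξ c c' : Tm p) : ℝ :=
  fderiv ℝ (fun ξ' => fderiv ℝ (fun ζ => Λ (ξ', ζ)) ξ c') ξ c
/-- normalised mixed second derivative -/
def mix (Λ : Tm p × Tm p → ℝ) (r ξ : Tm p) : Matrix (Fin (p + 1)) (Fin (p + 1)) ℝ :=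
  Matrix.of fun i l => mixF Λ ξ (Pi.single i 1) (Pi.single l 1) / (r i * r l)
def covv (Λ : Tm p × Tm p → ℝ) (r ξ : Tm p) : Tm p := fun l => cov Λ ξ (Pi.single l 1) / r l

structure Fine (ε c B : ℝ) (Λ : Tm p × Tm p → ℝ) (r ξ : Tm p) : Prop where
  cost : CostLe ε (mix Λ r ξ) c
  cov : nrm (covv Λ r ξ) ≤ B
structure Good (ε c B : ℝ) (Λ : Tm p × Tm p → ℝ) (r ξ : Tm p) : Prop
    extends Fine ε c B Λ r ξ where
  nuc : NucLe (mix Λ r ξ) B

/-- use `Λ₁`, normalised, where its energy is at least `2`; use `Λ₂` where it is at most `1` -/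
def pat (Λ₁ Λ₂ : Gen G) : Gen G := fun p L w =>
  ku (en (Λ₁ p L) w.1) * Λ₁ p L w + (1 - kχ (en (Λ₁ p L) w.1)) * Λ₂ p L w

end Derivs

/-! ## The forms at the dyadic scales -/

section Scales
variable {G : Type} [Group G]

def lev (φ : ℝ → ℝ) (ℓ : G → ℝ) (η : ℝ) : Gen G := gen φ (fld (Rη η) ℓ) (fld (Lη η) ℓ)
def trc (ℓ : G → ℝ) (γ T : ℝ) : G → ℝ := fun x => γ * min (ℓ x) T
def ℓD (ℓ : G → ℝ) (γ T : ℝ) : G → ℝ := fun x => trc ℓ γ T x + ℓ x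
def DD (ℓ : G → ℝ) (γ T a : ℝ) : Fam G := gav (fld (Rη a) ℓ) (trc ℓ γ T)
def V2 (ℓ : G → ℝ) (γ T a b η : ℝ) : Fam G := fld (Rη b) ℓ + cv (ρη η) (DD ℓ γ T a)
def two (ℓ : G → ℝ) (γ T a b η : ℝ) : Gen G :=
  gen (fun _ => 1) (V2 ℓ γ T a b η) (cv (Kη η) (DD ℓ γ T a))
/-- the `j`-th dyadic scale -/
def sc (n j : ℕ) : ℝ := 2 ^ j / n
def ΛA (ℓ : G → ℝ) (n : ℕ) (θ : ℝ) (a : ℕ) : Gen G :=
  (θ * a)⁻¹ • ∑ j ∈ Finset.range a, lev (fun _ => 1) ℓ (sc n j)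
def ΛB (ℓ : G → ℝ) (γ T : ℝ) (n a J : ℕ) : Gen G :=
  ∑ j ∈ Finset.Ico a J, two ℓ γ T (sc n a) (sc n J) (sc n j)
def ΛD (ℓ : G → ℝ) (γ R : ℝ) (n j₀ j₁ : ℕ) : Gen G :=
  ∑ j ∈ Finset.Ico j₀ j₁, lev (kφ (γ * R)) (ℓD ℓ γ (64 * R)) (sc n j)

end Scales

/-! ## Differential forms on the ordered simplex -/

abbrev Fm (E : Type) [NormedAddCommGroup E] [NormedSpace ℝ E] (n : ℕ) : Type :=
  E [⋀^Fin n]→L[ℝ] ℝ

section Forms
variable {E E' : Type} [NormedAddCommGroup E] [NormedSpace ℝ E] [NormedAddCommGroup E']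
  [NormedSpace ℝ E']

/-- wedge product with a covector -/
def wg {n : ℕ} (a : E →L[ℝ] ℝ) (η : Fm E n) : Fm E (n + 1) :=
  ContinuousAlternatingMap.alternatizeUncurryFin (a.smulRight η)
/-- `dg k = 2 k` -/
def dg : ℕ → ℕ
  | 0 => 0
  | k + 1 => dg k + 1 + 1
/-- `(dA)^k` -/
def om (A : E → E →L[ℝ] ℝ) : (k : ℕ) → E → Fm E (dg k)
  | 0 => fun _ => ContinuousAlternatingMap.constOfIsEmpty ℝ E (Fin 0) (1 : ℝ)
  | k + 1 => extDeriv fun u => wg (A u) (om A k u)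
/-- `A ∧ (dA)^k` -/
def th (A : E → E →L[ℝ] ℝ) (k : ℕ) (u : E) : Fm E (dg k + 1) := wg (A u) (om A k u)
/-- pullback -/
def pb {n : ℕ} (f : E → E') (η : E' → Fm E' n) (u : E) : Fm E n :=
  (η (f u)).compContinuousLinearMap (fderiv ℝ f u)

variable {p : ℕ}
/-- gauge `ξ₀ = 0` -/
def gz (u : Fin p → ℝ) : Tm p := Fin.cons (α := fun _ => ℝ) 0 u
/-- the open simplex `0 < u₁ < … < u_p < 1` -/
def So (p : ℕ) : Set (Fin p → ℝ) := {u | ∀ l, gz u l < nxt (gz u) l}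
/-- integral of a top degree form over the simplex -/
def Ip (η : (Fin p → ℝ) → Fm (Fin p → ℝ) p) : ℝ := ∫ u in So p, η u fun j => Pi.single j 1
/-- the face maps of the simplex -/
def δm (i : Fin (p + 2)) (u : Fin p → ℝ) : Fin (p + 1) → ℝ := fun j => faceT i (gz u) j.succ
def gap (i : Fin (p + 1)) (u : Fin p → ℝ) : ℝ := nxt (gz u) i - gz u i
/-- the rotation of the simplex -/
def ρm (u : Fin p → ℝ) : Fin p → ℝ := fun j => nxt (gz u) j.succ - nxt (gz u) 0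
/-- the one-form of `Λ` in the gauge `ξ₀ = 0` -/
def gA (Λ : Tm p × Tm p → ℝ) (u : Fin p → ℝ) : (Fin p → ℝ) →L[ℝ] ℝ :=
  fderiv ℝ (fun u' => Λ (gz u, gz u')) u

variable {G : Type}
def pw (Λ : Gen G) (k : ℕ) (L : Loop G (dg k)) : ℝ := Ip (om (gA (Λ _ L)) k)
def jw (Λ : Gen G) (k : ℕ) (L : Loop G (dg k + 1)) : ℝ := Ip (th (gA (Λ _ L)) k)
def kw (Λ : Gen G) (k : ℕ) (L : Loop G (dg k + 1)) : ℝ :=
  Ip fun u => wg (ContinuousLinearMap.proj (R := ℝ) (φ := fun _ : Fin (dg k + 1) => ℝ) 0)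
    (om (gA (Λ _ L)) k u)
def tw (Λ : Gen G) (k : ℕ) (i : Fin (dg k + 1)) (L : Loop G (dg k)) : ℝ :=
  Ip fun u => gap i u • om (gA (Λ _ L)) k u

end Forms

/-! ## The pairing with an idempotent -/

section Pair
variable {G : Type} [Group G] {A : Type} [NormedRing A] [NormedAlgebra ℂ A]

def IsIdem (e : G → A) : Prop := ∀ x, ∑' y, e y * e (y⁻¹ * x) = e x
def ConjInv (C : Set G) : Prop := ∀ g h : G, g ∈ C → h * g * h⁻¹ ∈ C
def Tracial (τ : A →L[ℂ] ℂ) : Prop := ∀ a b, τ (a * b) = τ (b * a)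
/-- the trace of `e` along `C` -/
def ctr (τ : A →L[ℂ] ℂ) (e : G → A) (C : Set G) : ℂ := ∑' x, C.indicator (fun y => τ (e y)) x
/-- the loop with jumps `h` -/
def loopOf {p : ℕ} (h : Fin (p + 1) → G) : Loop G p :=
  ⟨(List.ofFn h).prod, fun l => Fin.partialProd h l.succ⟩
def pair (τ : A →L[ℂ] ℂ) (e : G → A) (C : Set G) {p : ℕ} (φ : Loop G p → ℝ) : ℂ :=
  ∑' h : Fin (p + 1) → G, τ (List.ofFn fun l => e (h l)).prod *
    (C.indicator (fun _ => φ (loopOf h)) (List.ofFn h).prod : ℝ)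
/-- `φ` is bounded by a multiple of the product of the weights of the jumps -/
def WB (W : G → ℝ) {p : ℕ} (φ : Loop G p → ℝ) : Prop :=
  ∃ c : ℝ, ∀ L : Loop G p, |φ L| ≤ c * ∏ l, W (L.jump l)
/-- the weight used in the localisation formula -/
def wW (ℓ : G → ℝ) (κ : ℝ) (x : G) : ℝ := (1 + ℓ x) ^ 6 * Real.exp (κ * ℓ x)

end Pair

end Crest.Agent.R192
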