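import Crest.Agent.R192.Defs

/-! Row 192: expectations, Gibbs measures, lengths. -/

set_option autoImplicit false
set_option linter.unusedSectionVars false
set_option linter.unusedVariables false

open scoped ContDiff Matrix Topology
open MeasureTheory

noncomputable section

namespace Crest.Agent.R192

variable {G : Type}

section Ex
variable {μ f k : G → ℝ}

theorem Bdd.const (c : ℝ) : Bdd fun _ : G => c := by
  exact ⟨|c|, fun _ => le_rfl⟩

theorem Bdd.add (hf : Bdd f) (hk : Bdd k) : Bdd fun z => f z + k z := by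
  obtain ⟨C, hC⟩ := hf
  obtain ⟨D, hD⟩ := hk
  exact ⟨C + D, fun z => (abs_add_le _ _).trans (add_le_add (hC z) (hD z))⟩

theorem Bdd.sub (hf : Bdd f) (hk : Bdd k) : Bdd fun z => f z - k z := by
  obtain ⟨C, hC⟩ := hf
  obtain ⟨D, hD⟩ := hk
  exact ⟨C + D, fun z => (abs_sub _ _).trans (add_le_add (hC z) (hD z))⟩

theorem Bdd.mul (hf : Bdd f) (hk : Bdd k) : Bdd fun z => f z * k z := by
  obtain ⟨C, hC⟩ := hf
  obtain ⟨D, hD⟩ := hk
  refine ⟨C * D, fun z => ?_⟩
  rw [abs_mul]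
  exact mul_le_mul (hC z) (hD z) (abs_nonneg _) ((abs_nonneg _).trans (hC z))

theorem Bdd.neg (hf : Bdd f) : Bdd fun z => -f z := by
  obtain ⟨C, hC⟩ := hf
  exact ⟨C, fun z => by rw [abs_neg]; exact hC z⟩

theorem Bdd.sum {ι : Type} (s : Finset ι) {f : ι → G → ℝ} (hf : ∀ i ∈ s, Bdd (f i)) :
    Bdd fun z => ∑ i ∈ s, f i z := by
  classical
  induction s using Finset.induction_on with
  | empty => simpa using Bdd.const (G := G) 0
  | insert a s ha ih =>
    simp only [Finset.sum_insert ha]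
    exact Bdd.add (hf a (Finset.mem_insert_self _ _))
      (ih fun i hi => hf i (Finset.mem_insert_of_mem hi))

theorem Prob.summable_mul (hμ : Prob μ) (hf : Bdd f) : Summable fun z => μ z * f z := by
  obtain ⟨C, hC⟩ := hf
  refine Summable.of_norm_bounded (hμ.2.summable.mul_right C) fun z => ?_
  rw [Real.norm_eq_abs, abs_mul, abs_of_nonneg (hμ.1 z)]
  exact mul_le_mul_of_nonneg_left (hC z) (hμ.1 z)

theorem Prob.ex_const (hμ : Prob μ) (c : ℝ) : Ex μ (fun _ => c) = c := by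
  unfold Ex
  rw [tsum_mul_right, hμ.2.tsum_eq, one_mul]

theorem ex_add (hf : Summable fun z => μ z * f z) (hk : Summable fun z => μ z * k z) :
    Ex μ (fun z => f z + k z) = Ex μ f + Ex μ k := by
  unfold Ex
  simp only [mul_add]
  exact hf.tsum_add hk

theorem ex_sub (hf : Summable fun z => μ z * f z) (hk : Summable fun z => μ z * k z) :
    Ex μ (fun z => f z - k z) = Ex μ f - Ex μ k := by
  unfold Ex
  simp only [mul_sub]
  exact hf.tsum_sub hk

theorem ex_const_mul (c : ℝ) : Ex μ (fun z => c * f z) = c * Ex μ f := by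
  unfold Ex
  rw [← tsum_mul_left]
  exact tsum_congr fun z => by ring

theorem ex_neg : Ex μ (fun z => -f z) = -Ex μ f := by
  unfold Ex
  rw [← tsum_neg]
  exact tsum_congr fun z => by ring

theorem ex_sum {ι : Type} (s : Finset ι) {f : ι → G → ℝ}
    (hf : ∀ i ∈ s, Summable fun z => μ z * f i z) :
    Ex μ (fun z => ∑ i ∈ s, f i z) = ∑ i ∈ s, Ex μ (f i) := by
  unfold Ex
  simp only [Finset.mul_sum]
  exact Summable.tsum_finsetSum hf

theorem Prob.ex_mono (hμ : Prob μ) (hf : Summable fun z => μ z * f z)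
    (hk : Summable fun z => μ z * k z) (h : ∀ z, f z ≤ k z) : Ex μ f ≤ Ex μ k := by
  exact hf.tsum_le_tsum (fun z => mul_le_mul_of_nonneg_left (h z) (hμ.1 z)) hk

theorem Prob.ex_nonneg (hμ : Prob μ) (h : ∀ z, 0 ≤ f z) : 0 ≤ Ex μ f := by
  exact tsum_nonneg fun z => mul_nonneg (hμ.1 z) (h z)

theorem Prob.abs_ex_le (hμ : Prob μ) {C : ℝ} (h : ∀ z, |f z| ≤ C) : |Ex μ f| ≤ C := by
  have hf : Summable fun z => μ z * f z := hμ.summable_mul ⟨C, h⟩
  have h1 := hμ.ex_mono hf (hμ.summable_mul (Bdd.const C)) fun z => (abs_le.mp (h z)).2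
  have h2 := hμ.ex_mono (hμ.summable_mul (Bdd.const (-C))) hf fun z => (abs_le.mp (h z)).1
  rw [hμ.ex_const] at h1 h2
  exact abs_le.mpr ⟨h2, h1⟩

/-- Cauchy-Schwarz -/
theorem Prob.ex_mul_sq_le (hμ : Prob μ) (hf : Bdd f) (hk : Bdd k) :
    Ex μ (fun z => f z * k z) ^ 2 ≤ Ex μ (fun z => f z ^ 2) * Ex μ fun z => k z ^ 2 := by
  have hff : Bdd fun z => f z ^ 2 := by simpa only [sq] using hf.mul hf
  have hkk : Bdd fun z => k z ^ 2 := by simpa only [sq] using hk.mul hk
  have hfk : Bdd fun z => f z * k z := hf.mul hk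
  have key : ∀ t : ℝ, 0 ≤ Ex μ (fun z => f z ^ 2) * (t * t)
      + (2 * Ex μ (fun z => f z * k z)) * t + Ex μ fun z => k z ^ 2 := by
    intro t
    have h0 : 0 ≤ Ex μ fun z => (t * f z + k z) ^ 2 := hμ.ex_nonneg fun z => sq_nonneg _
    have h1 : (fun z => (t * f z + k z) ^ 2)
        = fun z => ((t * t) * f z ^ 2 + (2 * t) * (f z * k z)) + k z ^ 2 := by
      funext z; ring
    have b1 := (Bdd.const (G := G) (t * t)).mul hff
    have b2 := (Bdd.const (G := G) (2 * t)).mul hfk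
    rw [h1, ex_add (hμ.summable_mul (b1.add b2)) (hμ.summable_mul hkk),
      ex_add (hμ.summable_mul b1) (hμ.summable_mul b2), ex_const_mul, ex_const_mul] at h0
    linarith
  have := discrim_le_zero key
  unfold discrim at this
  nlinarith

/-- Jensen for the square root: `√t ≤ (t / a + a) / 2` for all `a > 0` -/
theorem Prob.ex_sqrt_le (hμ : Prob μ) (h0 : ∀ z, 0 ≤ k z) (hk : Summable fun z => μ z * k z) :
    (Summable fun z => μ z * √(k z)) ∧ Ex μ (fun z => √(k z)) ≤ √(Ex μ k) := by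
  have hb : ∀ a : ℝ, 0 < a → ∀ t : ℝ, 0 ≤ t → √t ≤ (2 * a)⁻¹ * t + a / 2 := by
    intro a ha t ht
    obtain ⟨s, hs, rfl⟩ : ∃ s : ℝ, 0 ≤ s ∧ t = s ^ 2 :=
      ⟨√t, Real.sqrt_nonneg t, (Real.sq_sqrt ht).symm⟩
    rw [Real.sqrt_sq hs]
    have h1 : (2 * a)⁻¹ * s ^ 2 + a / 2 - s = (s - a) ^ 2 / (2 * a) := by field_simp; ring
    have h2 : 0 ≤ (s - a) ^ 2 / (2 * a) := by positivity
    linarith
  have hs1 : ∀ c : ℝ, Summable fun z => μ z * (c * k z) := fun c =>
    (hk.mul_left c).congr fun z => by ring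
  have hs2 : ∀ c d : ℝ, Summable fun z => μ z * (c * k z + d) := fun c d =>
    ((hs1 c).add (hμ.summable_mul (Bdd.const d))).congr fun z => by ring
  have hsum : Summable fun z => μ z * √(k z) := by
    refine Summable.of_nonneg_of_le (fun z => mul_nonneg (hμ.1 z) (Real.sqrt_nonneg _))
      (fun z => mul_le_mul_of_nonneg_left (hb 1 one_pos _ (h0 z)) (hμ.1 z)) (hs2 _ _)
  refine ⟨hsum, ?_⟩
  have hE : 0 ≤ Ex μ k := hμ.ex_nonneg h0
  have key : ∀ a : ℝ, 0 < a → Ex μ (fun z => √(k z)) ≤ (2 * a)⁻¹ * Ex μ k + a / 2 := by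
    intro a ha
    have := hμ.ex_mono hsum (hs2 (2 * a)⁻¹ (a / 2)) fun z => hb a ha _ (h0 z)
    rwa [ex_add (hs1 _) (hμ.summable_mul (Bdd.const _)), ex_const_mul, hμ.ex_const] at this
  rcases hE.eq_or_lt with h | h
  · rw [← h, Real.sqrt_zero]
    refine le_of_forall_pos_le_add fun ε hε => ?_
    have := key ε hε
    rw [← h] at this
    linarith
  · have hs : 0 < √(Ex μ k) := Real.sqrt_pos.mpr h
    have := key _ hs
    have h2 : (2 * √(Ex μ k))⁻¹ * Ex μ k = √(Ex μ k) / 2 := by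
      have h3 := Real.mul_self_sqrt hE
      field_simp
      nlinarith
    linarith

theorem Prob.exists_le_ex (hμ : Prob μ) (hf : Summable fun z => μ z * f z) :
    ∃ z, f z ≤ Ex μ f := by
  by_contra hcon
  push Not at hcon
  have hne : ∃ z, 0 < μ z := by
    by_contra h
    push Not at h
    have h1 : μ = fun _ => 0 := funext fun z => le_antisymm (h z) (hμ.1 z)
    have h2 := hμ.2
    rw [h1] at h2
    exact zero_ne_one (hasSum_zero.unique h2)
  obtain ⟨z, hz⟩ := hne
  have h1 : Ex μ (fun _ => Ex μ f) < Ex μ f :=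
    Summable.tsum_lt_tsum (i := z) (fun y => mul_le_mul_of_nonneg_left (hcon y).le (hμ.1 y))
      (mul_lt_mul_of_pos_left (hcon z) hz) (hμ.summable_mul (Bdd.const _)) hf
  rw [hμ.ex_const] at h1
  exact lt_irrefl _ h1

end Ex

end Crest.Agent.R192
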