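import Crest.Agent.R192.Kap0

/-! Row 192: Kaplansky's positivity of the trace; embedding of countable domains in the complex numbers. -/

set_option autoImplicit false
set_option linter.unusedSectionVars false
set_option linter.unusedVariables false

open scoped ContDiff Matrix Topology
open MeasureTheory

noncomputable section

namespace Crest.Agent.R192

/-- The algebraic closure of the fraction field of `MvPolynomial ℝ R` has characteristic zero and
cardinality continuum, so it is isomorphic to `ℂ`
(`IsAlgClosed.ringEquiv_of_equiv_of_charZero`). -/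
theorem exists_embed (R : Type) [CommRing R] [IsDomain R] [CharZero R] [Countable R] :
    ∃ f : R →+* ℂ, Function.Injective f := by
  let A := MvPolynomial ℝ R
  let F := FractionRing A
  let K := AlgebraicClosure F
  have hA : Cardinal.mk A = Cardinal.continuum := by
    rw [MvPolynomial.cardinalMk_eq_max, Cardinal.mk_real, sup_assoc,
      sup_eq_left.2 Cardinal.aleph0_le_continuum,
      sup_eq_right.2 (Cardinal.mk_le_aleph0.trans Cardinal.aleph0_le_continuum)]
  have hF : Cardinal.mk F = Cardinal.continuum := (Cardinal.mk_fractionRing A).trans hA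
  have hK : Cardinal.mk K = Cardinal.continuum := by
    refine le_antisymm ((Algebra.IsAlgebraic.cardinalMk_le_max F K).trans ?_) ?_
    · rw [hF, max_eq_left Cardinal.aleph0_le_continuum]
    · rw [← hF]
      exact Cardinal.mk_le_of_injective (algebraMap F K).injective
  have : CharZero F := charZero_of_injective_algebraMap (IsFractionRing.injective A F)
  have : CharZero K := charZero_of_injective_algebraMap (algebraMap F K).injective
  obtain ⟨φ⟩ := IsAlgClosed.ringEquiv_of_equiv_of_charZero (K := K) (L := ℂ)
    (by rw [hK]; exact Cardinal.aleph0_lt_continuum)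
    (Cardinal.eq.1 (hK.trans Cardinal.mk_complex.symm))
  refine ⟨φ.toRingHom.comp ((algebraMap F K).comp ((algebraMap A F).comp MvPolynomial.C)), ?_⟩
  exact φ.injective.comp ((algebraMap F K).injective.comp ((IsFractionRing.injective A F).comp
    (MvPolynomial.C_injective ℝ R)))

/-- the subring generated by the coefficients is countable; lift `e` to it and map to `ℂ`
(`MonoidAlgebra.mapRingHom`, injective for injective coefficient maps) -/
theorem idem_of_complex {G : Type} [Group G]
    (h : ∀ e : MonoidAlgebra ℂ G, e * e = e → e = 0 ∨ e = 1) (R : Type) [CommRing R] [IsDomain R]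
    [CharZero R] (e : MonoidAlgebra R G) (he : e * e = e) : e = 0 ∨ e = 1 := by
  let φ : MvPolynomial e.coeff.support ℤ →+* R :=
    MvPolynomial.eval₂Hom (Int.castRingHom R) fun g => e.coeff g
  have hc : Countable (MvPolynomial e.coeff.support ℤ) := by
    rw [← Cardinal.mk_le_aleph0_iff]
    refine MvPolynomial.cardinalMk_le_max.trans ?_
    simp only [sup_le_iff, le_refl, and_true]
    exact ⟨Cardinal.mk_le_aleph0, Cardinal.mk_le_aleph0⟩
  have hS : Countable φ.range := φ.rangeRestrict_surjective.countable
  obtain ⟨f, hf⟩ := exists_embed φ.range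
  have hmem : e ∈ Set.range (MonoidAlgebra.map (M := G) (φ.range.subtype : φ.range →+ R)) := by
    rw [MonoidAlgebra.range_map]
    intro g
    by_cases hg : g ∈ e.coeff.support
    · exact ⟨⟨e.coeff g, MvPolynomial.X ⟨g, hg⟩, by simp [φ]⟩, rfl⟩
    · exact ⟨0, by rw [Finsupp.notMem_support_iff.1 hg, map_zero]⟩
  obtain ⟨e', he'⟩ := hmem
  have i1 : Function.Injective (MonoidAlgebra.mapRingHom G φ.range.subtype) :=
    MonoidAlgebra.map_injective _ φ.range.subtype_injective
  have i2 : Function.Injective (MonoidAlgebra.mapRingHom G f) := MonoidAlgebra.map_injective _ hf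
  have he2 : MonoidAlgebra.mapRingHom G φ.range.subtype e' = e := he'
  have h1 : e' * e' = e' := i1 (by rw [map_mul, he2, he])
  rcases h (MonoidAlgebra.mapRingHom G f e') (by rw [← map_mul, h1]) with h2 | h2
  · left
    rw [← he2, i2 (h2.trans (map_zero _).symm), map_zero]
  · right
    rw [← he2, i2 (h2.trans (map_one _).symm), map_one]

end Crest.Agent.R192
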