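import Crest.Agent.R192.Main
import Crest.Agent.R192.Kap
import Crest.Prelude.Def_L1GroupAlgebra

/-! Row 192: the two statements. -/

set_option autoImplicit false
set_option linter.unusedVariables false

open Crest.AlgebraR.L1

namespace Crest.Agent.R192

section
open scoped Matrix.Norms.Operator

theorem final_norm_le {q : ℕ} (M : Matrix (Fin q) (Fin q) ℂ) :
    ‖M‖ ≤ ∑ i, ∑ j, ‖M i j‖ := by
  have h1 : ‖M‖₊ ≤ ∑ i, ∑ j, ‖M i j‖₊ := by
    rw [Matrix.linfty_opNNNorm_def]
    exact Finset.sup_le fun i hi =>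
      Finset.single_le_sum (f := fun i => ∑ j, ‖M i j‖₊) (fun _ _ => zero_le) hi
  have h2 := NNReal.coe_le_coe.2 h1
  simpa using h2

theorem final_mat {G : Type} [Group G] {q : ℕ} [Nonempty (Fin q)] (e : Fin q → Fin q → G → ℂ)
    (he : IsL1IdempotentMatrix e) :
    Set.Finite {C : ConjClasses G | classTrace e C.carrier ≠ 0} ∧
      ∀ C : Set G, ConjInv C → (∀ g ∈ C, ¬ IsOfFinOrder g) → classTrace e C = 0 := by
  have : CompleteSpace (Matrix (Fin q) (Fin q) ℂ) := FiniteDimensional.complete ℂ _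
  obtain ⟨E, hE⟩ : ∃ E : G → Matrix (Fin q) (Fin q) ℂ, ∀ x i j, E x i j = e i j x :=
    ⟨fun x => Matrix.of fun i j => e i j x, fun _ _ _ => rfl⟩
  have hs : Summable fun x => ‖E x‖ := by
    refine Summable.of_nonneg_of_le (fun _ => norm_nonneg _) (fun x => final_norm_le (E x)) ?_
    simp only [hE]
    exact summable_sum fun i _ => summable_sum fun j _ => he.1 i j
  have hi : IsIdem E := fun x => by
    have h1 : Summable fun y => E y * E (y⁻¹ * x) := by
      refine Summable.of_norm_bounded (hs.mul_right (∑' z, ‖E z‖)) fun y => ?_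
      exact (norm_mul_le _ _).trans (mul_le_mul_of_nonneg_left
        (hs.le_tsum _ fun _ _ => norm_nonneg _) (norm_nonneg _))
    ext i j
    have h2 := (LinearMap.toContinuousLinearMap
      (Matrix.entryLinearMap ℂ ℂ i j : Matrix (Fin q) (Fin q) ℂ →ₗ[ℂ] ℂ)).map_tsum h1
    have h3 : (∑' y, E y * E (y⁻¹ * x)) i j = ∑' y, (E y * E (y⁻¹ * x)) i j := h2
    refine h3.trans ?_
    rw [hE, ← he.2 i j x]
    simp only [Matrix.mul_apply, hE, conv]
    refine Summable.tsum_finsetSum fun k _ => ?_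
    refine Summable.of_norm_bounded ((he.1 i k).mul_right (∑' z, ‖e k j z‖)) fun y => ?_
    exact (norm_mul_le _ _).trans (mul_le_mul_of_nonneg_left
      ((he.1 k j).le_tsum _ fun _ _ => norm_nonneg _) (norm_nonneg _))
  obtain ⟨τ, hτ⟩ : ∃ τ : Matrix (Fin q) (Fin q) ℂ →L[ℂ] ℂ, ∀ M, τ M = M.trace :=
    ⟨LinearMap.toContinuousLinearMap (Matrix.traceLinearMap (Fin q) ℂ ℂ), fun _ => rfl⟩
  have ht : Tracial τ := fun a b =>
    (hτ _).trans ((Matrix.trace_mul_comm a b).trans (hτ _).symm)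
  have hc : ∀ C : Set G, classTrace e C = ctr τ E C := fun C => by
    unfold classTrace ctr
    rw [tsum_subtype C fun g => ∑ i, e i i g]
    refine tsum_congr fun x => congrFun (congrArg _ (funext fun y => ?_)) x
    refine Eq.trans ?_ (hτ _).symm
    simp only [Matrix.trace, Matrix.diag, hE]
  simp only [hc]
  exact ⟨bass_fin ht hs hi, fun C hC hinf => bass_inf ht hs hi hC hinf⟩

end

/-- take `A = Matrix (Fin q) (Fin q) ℂ` with the norm of `open scoped Matrix.Norms.Operator`
and `τ` the trace; `classTrace e C = ctr τ E C` by `tsum_subtype` -/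
theorem final_l1 (G : Type) [Group G]
    (q : ℕ) (hq : 1 ≤ q) (e : Fin q → Fin q → G → ℂ) (he : IsL1IdempotentMatrix e) :
    Set.Finite {C : ConjClasses G | classTrace e C.carrier ≠ 0} ∧
      ∀ g : G, ¬ IsOfFinOrder g → classTrace e (ConjClasses.mk g).carrier = 0 := by
  have : Nonempty (Fin q) := ⟨⟨0, hq⟩⟩
  obtain ⟨h1, h2⟩ := final_mat e he
  refine ⟨h1, fun g hg => h2 _ (fun x h hx => ?_) fun x hx hx' => ?_⟩
  · rw [ConjClasses.mem_carrier_iff_mk_eq] at hx ⊢
    rw [← hx, ConjClasses.mk_eq_mk_iff_isConj]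
    exact (isConj_iff.2 ⟨h, rfl⟩).symm
  · rw [ConjClasses.mem_carrier_iff_mk_eq, ConjClasses.mk_eq_mk_iff_isConj] at hx
    exact hg (hx.isOfFinOrder hx')

/-- `bass_inf` with `A = ℂ` and `C = {x | x ≠ 1}` shows that the augmentation of `e` is
`e.coeff 1`, which is therefore `0` or `1`; apply `kaplansky` to `e` or to `1 - e` -/
theorem final_complex (G : Type) [Group G] (hG : ∀ g : G, IsOfFinOrder g → g = 1)
    (e : MonoidAlgebra ℂ G) (he : e * e = e) : e = 0 ∨ e = 1 := by
  classical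
  have hs : Summable fun x => ‖e.coeff x‖ :=
    summable_of_ne_finset_zero (s := e.coeff.support) fun y hy => by
      simp [Finsupp.notMem_support_iff.1 hy]
  have hi : IsIdem fun x => e.coeff x := fun x => by
    have h1 := MonoidAlgebra.coeff_mul_apply_left e e x
    rw [he] at h1
    refine Eq.trans ?_ h1.symm
    rw [tsum_eq_sum (s := e.coeff.support) fun y hy => by
      simp [Finsupp.notMem_support_iff.1 hy]]
    rfl
  have hτ : Tracial (ContinuousLinearMap.id ℂ ℂ) := fun a b => by simp [mul_comm]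
  have hC : ConjInv {x : G | x ≠ 1} := fun g h hg hc => by
    apply hg
    have h1 : h * g * h⁻¹ = 1 := hc
    have h2 : g = h⁻¹ * (h * g * h⁻¹) * h := by group
    rw [h2, h1]
    simp
  have h0 := bass_inf hτ hs hi hC fun g hg hf => hg (hG g hf)
  have h1 : ∑' x, e.coeff x = e.coeff 1 := by
    rw [hs.of_norm.tsum_eq_add_tsum_ite 1]
    have h2 : ∑' x, (if x = 1 then 0 else e.coeff x) = 0 := by
      refine Eq.trans ?_ h0
      unfold ctr
      refine tsum_congr fun x => ?_
      by_cases hx : x = 1 <;> simp [hx]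
    rw [h2, add_zero]
  have h3 : MonoidAlgebra.lift ℂ ℂ G 1 e = e.coeff 1 := by
    rw [MonoidAlgebra.lift_apply, ← h1, tsum_eq_sum (s := e.coeff.support) fun y hy => by
      simp [Finsupp.notMem_support_iff.1 hy]]
    simp [Finsupp.sum]
  have h4 : e.coeff 1 * e.coeff 1 = e.coeff 1 := by
    rw [← h3, ← map_mul, he]
  have h5 : e.coeff 1 * (e.coeff 1 - 1) = 0 := by
    rw [mul_sub, h4, mul_one, sub_self]
  rcases mul_eq_zero.1 h5 with h6 | h6
  · exact Or.inl (kaplansky e he h6)
  · right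
    have h7 : (1 - e) * (1 - e) = 1 - e := by
      rw [mul_sub, sub_mul, sub_mul, he]
      simp
    have h8 : (1 - e).coeff 1 = 0 := by
      rw [MonoidAlgebra.coeff_sub, Finsupp.sub_apply, MonoidAlgebra.coeff_one_one,
        sub_eq_zero.1 h6, sub_self]
    exact (sub_eq_zero.1 (kaplansky _ h7 h8)).symm

end Crest.Agent.R192
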