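import Crest.Agent.R192.SmInt0

/-! Row 192: time integrals of smooth families; convolution and Gibbs averages of fields. -/

set_option autoImplicit false
set_option linter.unusedSectionVars false
set_option linter.unusedVariables false

open scoped ContDiff Matrix Topology
open MeasureTheory

noncomputable section

namespace Crest.Agent.R192

variable {G : Type} {p : ℕ} [Group G] {V : Fam G} {L : Loop G p} {Q : ℝ → ℝ} {h w : ℝ}

theorem SmP.gav (hV : SmP (V p L)) {k : G → ℝ} (hk : Bdd k) : SmF (gav V k p L) := by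
  obtain ⟨C, hC⟩ := hk
  exact hV.smF_ker (k := fun y z => k (y⁻¹ * z)) ⟨C, fun y z => hC _⟩

theorem dF_gav (hV : SmP (V p L)) {k : G → ℝ} (hk : Bdd k) (q : ℝ × Tm p) (c : Tm p) (z : G) :
    dF (gav V k p L) q c z = -Cv (V p L q) (dF (V p L) q c) fun y => k (y⁻¹ * z) := by
  obtain ⟨C, hC⟩ := hk
  have h1 : SmP fun ξ : Tm p => V p L (q.1, ξ) := hV.comp (contDiff_const.prodMk contDiff_id)
  have h2 := h1.fderiv_Ef (SmF.const (b := fun y => k (y⁻¹ * z)) ⟨C, fun y => hC _⟩) q.2 c
  have h3 : Ef (V p L (q.1, q.2)) (fun _ => 0) = 0 := by simp [Ef, Ex]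
  simp only [fderiv_fun_const, Pi.zero_apply, zero_apply, h3, zero_sub] at h2
  exact h2

theorem SmP.continuous_Ff (hV : SmP (V p L)) (ξ : Tm p) :
    Continuous fun s => Ff (V p L (s, ξ)) := by
  exact (hV.comp (contDiff_id.prodMk contDiff_const)).contDiff_Ff.continuous

theorem Eqv.periodic_Ff (hE : Eqv V) (L : Loop G p) (ξ : Tm p) :
    Function.Periodic (fun s => Ff (V p L (s, ξ))) 1 := by
  intro s
  have h1 := Ff_equiv (Equiv.mulLeft L.g) (V p L (s + 1, ξ))
  simp only [Equiv.coe_mulLeft, hE.per] at h1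
  exact h1.symm

theorem Eqv.add {W : Fam G} (hV : Eqv V) (hW : Eqv W) : Eqv (V + W) := by
  exact ⟨fun p L i s ξ z => by simp only [Pi.add_apply, hV.face, hW.face],
    fun p L s ξ z => by simp only [Pi.add_apply, hV.rot, hW.rot],
    fun p L h q z => by simp only [Pi.add_apply, hV.smul, hW.smul],
    fun p L s ξ t z => by simp only [Pi.add_apply, hV.shift, hW.shift],
    fun p L s ξ z => by simp only [Pi.add_apply, hV.per, hW.per]⟩

theorem Eqv.cv (hV : Eqv V) (Q : ℝ → ℝ) : Eqv (cv Q V) := by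
  exact ⟨fun p L i s ξ z => by simp only [R192.cv, hV.face],
    fun p L s ξ z => by simp only [R192.cv, hV.rot],
    fun p L h q z => by simp only [R192.cv, hV.smul],
    fun p L s ξ t z => by simp only [R192.cv, add_sub_right_comm, hV.shift],
    fun p L s ξ z => by simp only [R192.cv, add_sub_right_comm, hV.per]⟩

/-- `smul` and `per` use `Ef_equiv` with `Equiv.mulLeft` -/
theorem Eqv.gav (hV : Eqv V) (k : G → ℝ) : Eqv (gav V k) := by
  refine ⟨fun p L i s ξ z => ?_, fun p L s ξ z => ?_, fun p L h q z => ?_,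
    fun p L s ξ t z => ?_, fun p L s ξ z => ?_⟩
  · simp only [R192.gav, funext (hV.face p L i s ξ)]
  · simp only [R192.gav, funext (hV.rot p L s ξ)]
  · have h1 := Ef_equiv (Equiv.mulLeft h) (V p (L.smul h) q) fun y => k (y⁻¹ * (h * z))
    simp only [Equiv.coe_mulLeft, hV.smul, mul_inv_rev, mul_assoc, inv_mul_cancel_left] at h1
    exact h1.symm
  · simp only [R192.gav, funext (hV.shift p L s ξ t)]
  · have h1 := Ef_equiv (Equiv.mulLeft L.g) (V p L (s + 1, ξ)) fun y => k (y⁻¹ * (L.g * z))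
    simp only [Equiv.coe_mulLeft, hV.per, mul_inv_rev, mul_assoc, inv_mul_cancel_left] at h1
    exact h1.symm

/-- bound for the gradient of a convolution (`dF_cv`, `conv_maj`) -/
theorem locB_cv (hV : SmF (V p L)) (hQ : KB Q h w) (hc : Continuous Q) (hw : 0 ≤ w)
    {r ξ : Tm p} {h' w' : ℝ} (hh' : 0 ≤ h') (hw' : 0 < w') (hX : LocB ξ h' w' (dv (V p L) r ξ)) :
    LocB ξ (h' * (h * (4 * w'))) (w + 3 * w') (dv (cv Q V p L) r ξ) := by
  intro s z l
  have e : dv (cv Q V p L) r ξ s z l = ∫ v, Q v * dv (V p L) r ξ (s - v) z l := by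
    simp only [dv, dF_cv hV hQ hc, ← integral_div, mul_div_assoc]
  have hi : Integrable fun v => h' * (|Q v| * maj w' (s - ξ l - v)) := by
    refine Integrable.const_mul (Continuous.integrable_of_hasCompactSupport
      (hc.abs.mul ((continuous_maj hw').comp (continuous_const.sub continuous_id))) ?_) _
    exact (smint0_kb_hcs hQ).abs.mul_right
  rw [e]
  calc _ ≤ ∫ v, h' * (|Q v| * maj w' (s - ξ l - v)) := by
        rw [← Real.norm_eq_abs]
        refine norm_integral_le_of_norm_le hi (Filter.Eventually.of_forall fun v => ?_)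
        rw [Real.norm_eq_abs, abs_mul, mul_left_comm, sub_right_comm]
        exact mul_le_mul_of_nonneg_left (hX _ _ _) (abs_nonneg _)
    _ ≤ h' * (h * (4 * w') * maj (w + 3 * w') (s - ξ l)) := by
        rw [integral_const_mul]
        exact mul_le_mul_of_nonneg_left (conv_maj hQ hc hw hw' _) hh'
    _ = _ := by ring

/-- bound for the gradient of a Gibbs average (`dF_gav`, `abs_Cv_le`) -/
theorem locB_gav (hV : SmP (V p L)) {k : G → ℝ} {Γ : ℝ} (h0 : ∀ x, 0 ≤ k x) (h1 : ∀ x, k x ≤ Γ)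
    {r ξ : Tm p} {h' w' : ℝ} (hX : LocB ξ h' w' (dv (V p L) r ξ)) :
    LocB ξ (Γ * h') w' (dv (gav V k p L) r ξ) := by
  intro s z l
  have hk : Bdd k := ⟨Γ, fun x => by rw [abs_of_nonneg (h0 x)]; exact h1 x⟩
  have e : dv (gav V k p L) r ξ s z l =
      -Cv (V p L (s, ξ)) (fun y => dv (V p L) r ξ s y l) fun y => k (y⁻¹ * z) := by
    simp only [dv, dF_gav hV hk, Cv, Ef, div_eq_inv_mul, mul_assoc, ex_const_mul]
    ring
  rw [e, abs_neg, mul_assoc]
  exact abs_Cv_le (hV.summable _) (fun y => hX s y l) (fun y => h0 _) fun y => h1 _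

end Crest.Agent.R192
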