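import Crest.Agent.R192.Avg
import Crest.Agent.R192.SmInt

/-! Row 192: smoothness and derivatives of the window averages. -/

set_option autoImplicit false
set_option linter.unusedSectionVars false
set_option linter.unusedVariables false

open scoped ContDiff Matrix Topology
open MeasureTheory

noncomputable section

namespace Crest.Agent.R192

variable {G : Type} [Group G] {p : ℕ} {Q : ℝ → ℝ} {ℓ : G → ℝ}

lemma fld_contDiff_arg (l : Fin (p + 1)) (m : ℤ) :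
    ContDiff ℝ ∞ fun q : ℝ × Tm p => q.1 - q.2 l - m := by
  fun_prop

lemma fld_contDiff_wt (hc : ContDiff ℝ ∞ Q) (l : Fin (p + 1)) (m : ℤ) :
    ContDiff ℝ ∞ fun q : ℝ × Tm p => wt Q q l m := by
  have h1 : ContDiff ℝ ∞ fun q : ℝ × Tm p => nxt q.2 l :=
    (contDiff_apply ℝ ℝ l).comp (contDiff_nxt.comp contDiff_snd)
  exact (hc.comp (fld_contDiff_arg l m)).sub (hc.comp ((contDiff_fst.sub h1).sub contDiff_const))

lemma fld_ev_norm {E : Type} [NormedAddCommGroup E] (x : E) : ∀ᶠ y in 𝓝 x, ‖y‖ ≤ ‖x‖ + 1 :=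
  (continuous_norm.tendsto x).eventually (eventually_le_nhds (lt_add_one _))

lemma fld_smF_avg (hQ : EvC Q) (hc : ContDiff ℝ ∞ Q) (L : Loop G p) {b : G → G → ℝ}
    (hb : ∀ y, Bdd (b y)) : SmF fun q z => avg Q L q fun y => b y z := by
  unfold avg
  refine SmF.sum Finset.univ (f := fun l q z => ∑' m : ℤ, wt Q q l m * b (L.g ^ m * L.x l) z)
    fun l _ => ?_
  refine SmF.tsum_loc (a := fun m q => wt Q q l m) (b := fun m => b (L.g ^ m * L.x l))
    (fun m => fld_contDiff_wt hc l m) (fun m => hb _) fun x => ?_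
  obtain ⟨S, hS⟩ := hQ.exists_finset (p := p) (‖x‖ + 1)
  exact ⟨S, (fld_ev_norm x).mono fun y hy m hm => hS y hy l m hm⟩

lemma fld_bdd_sub (hℓ : IsLen ℓ) (a b : G) : Bdd fun z => ℓ (a⁻¹ * z) - ℓ (b⁻¹ * z) :=
  ⟨_, fun z => hℓ.abs_sub_le a b z⟩

lemma fld_eq_add (hQ : EvC Q) (L : Loop G p) (q : ℝ × Tm p) (z : G) :
    fld Q ℓ p L q z = avg Q L q (fun y => ℓ (y⁻¹ * z) - ℓ (1⁻¹ * z)) +
      avg Q L q fun _ => ℓ z := by
  rw [← avg_add hQ]
  simp [fld]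

/-- a finite set of `m` carrying a compactly supported kernel on a bounded interval -/
lemma fld_exists_finset {w : ℝ} (hQ : ∀ u, w < |u| → Q u = 0) (b : ℝ) :
    ∃ S : Finset ℤ, ∀ u, |u| ≤ b → ∀ m ∉ S, Q (u - m) = 0 := by
  refine ⟨Finset.Icc (-⌈b + w⌉) ⌈b + w⌉, fun u hu m hm => hQ _ ?_⟩
  have h1 : ⌈b + w⌉ < |m| := by
    rw [Finset.mem_Icc, ← abs_le] at hm
    exact not_le.1 hm
  have h2 : b + w < |(m : ℝ)| := by
    have : ((⌈b + w⌉ : ℤ) : ℝ) < ((|m| : ℤ) : ℝ) := by exact_mod_cast h1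
    rw [Int.cast_abs] at this
    exact (Int.le_ceil _).trans_lt this
  have h3 : |(m : ℝ)| ≤ |u| + |u - m| := by
    have := abs_sub u (u - m)
    simpa using this
  linarith

lemma fld_deriv_supp (hQ : EvC Q) : ∃ w : ℝ, ∀ u, w < |u| → deriv Q u = 0 := by
  obtain ⟨w, a, b, ha, hb⟩ := hQ
  refine ⟨w, fun u hu => ?_⟩
  rcases lt_abs.1 hu with h | h
  · have : Q =ᶠ[𝓝 u] fun _ => a := (eventually_gt_nhds h).mono fun v hv => ha v hv.le
    rw [this.deriv_eq, deriv_const]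
  · have : Q =ᶠ[𝓝 u] fun _ => b :=
      (eventually_lt_nhds (show u < -w by linarith)).mono fun v hv => hb v hv.le
    rw [this.deriv_eq, deriv_const]

lemma fld_summable {w : ℝ} (hQ : ∀ u, w < |u| → Q u = 0) (u : ℝ) (f : ℤ → ℝ) :
    Summable fun m : ℤ => Q (u - m) * f m := by
  obtain ⟨S, hS⟩ := fld_exists_finset hQ |u|
  exact summable_of_ne_finset_zero (s := S) fun m hm => by rw [hS u le_rfl m hm, zero_mul]

lemma fld_nxt_eq (ξ : Tm p) (l : Fin (p + 1)) :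
    nxt ξ l = ξ (l + 1) + if l = Fin.last p then 1 else 0 := by
  induction l using Fin.lastCases with
  | last => simp
  | cast j => simp [Fin.coeSucc_eq_succ, (Fin.castSucc_lt_last j).ne]

lemma fld_hasFDerivAt (hc : ContDiff ℝ ∞ Q) (s e t : ℝ) (k : Fin (p + 1)) (ξ : Tm p) :
    HasFDerivAt (fun ξ : Tm p => Q (s - (ξ k + e) - t))
      (deriv Q (s - (ξ k + e) - t) •
        -(ContinuousLinearMap.proj (R := ℝ) (φ := fun _ : Fin (p + 1) => ℝ) k)) ξ := by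
  have h1 : HasFDerivAt (fun ξ : Tm p => s - (ξ k + e) - t)
      (-(ContinuousLinearMap.proj (R := ℝ) (φ := fun _ : Fin (p + 1) => ℝ) k)) ξ :=
    (((hasFDerivAt_apply (𝕜 := ℝ) k ξ).add_const e).const_sub s).sub_const t
  have h2 : HasDerivAt Q (deriv Q (s - (ξ k + e) - t)) (s - (ξ k + e) - t) :=
    (hc.differentiable (by simp) _).hasDerivAt
  exact h2.comp_hasFDerivAt ξ h1

lemma fld_fderiv_wt (hc : ContDiff ℝ ∞ Q) (s : ℝ) (ξ c : Tm p) (l : Fin (p + 1)) (m : ℤ) :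
    fderiv ℝ (fun ξ => wt Q (s, ξ) l m) ξ c =
      -(deriv Q (s - ξ l - m) * c l) + deriv Q (s - nxt ξ l - m) * c (l + 1) := by
  have h := (fld_hasFDerivAt hc s 0 m l ξ).sub
    (fld_hasFDerivAt hc s (if l = Fin.last p then 1 else 0) m (l + 1) ξ)
  have h2 : (fun ξ => wt Q (s, ξ) l m) = (fun ξ : Tm p => Q (s - (ξ l + 0) - m)) -
      fun ξ : Tm p => Q (s - (ξ (l + 1) + if l = Fin.last p then 1 else 0) - m) := by
    funext ξ
    simp only [wt, fld_nxt_eq, add_zero, Pi.sub_apply]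
  rw [h2, h.fderiv, fld_nxt_eq]
  simp

/-- `fld Q ℓ z - ℓ z = avg Q (fun y => ℓ (y⁻¹ z) - ℓ z)`; use `SmF.sum`, `SmF.tsum_loc` and
`EvC.exists_finset` -/
theorem smP_fld (hQ : RK Q) (hc : ContDiff ℝ ∞ Q) (hℓ : IsLen ℓ)
    (hs : Summable fun x => Real.exp (-ℓ x / 2)) (L : Loop G p) : SmP (fld Q ℓ p L) := by
  refine ⟨ℓ, hs.of_nonneg_of_le (fun x => (Real.exp_pos _).le) fun x =>
    Real.exp_le_exp.2 (by linarith [hℓ.nonneg x]), ?_⟩
  have h := fld_smF_avg hQ.evC hc L (b := fun y z => ℓ (y⁻¹ * z) - ℓ (1⁻¹ * z))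
    fun y => fld_bdd_sub hℓ y 1
  convert h using 3 with q z
  rw [fld_eq_add hQ.evC, hQ.avg_const, add_sub_cancel_right]

theorem smF_fld {h w : ℝ} (hQ : KB Q h w) (hc : ContDiff ℝ ∞ Q) (hℓ : IsLen ℓ) (L : Loop G p) :
    SmF (fld Q ℓ p L) := by
  have h := fld_smF_avg hQ.evC hc L (b := fun y z => ℓ (y⁻¹ * z) - ℓ (1⁻¹ * z))
    fun y => fld_bdd_sub hℓ y 1
  convert h using 3 with q z
  rw [fld_eq_add hQ.evC, hQ.avg_const, add_zero]

theorem smF_jmp {h w : ℝ} (hQ : KB Q h w) (hc : ContDiff ℝ ∞ Q) (hℓ : IsLen ℓ) (L : Loop G p)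
    (c : Tm p) : SmF fun q => jmp Q ℓ L q c := by
  unfold jmp
  refine SmF.sum Finset.univ (f := fun l (q : ℝ × Tm p) z => c l * ∑' m : ℤ,
    Q (q.1 - q.2 l - m) * (ℓ ((L.g ^ m * L.x l)⁻¹ * z) - ℓ ((L.g ^ m * L.prv l)⁻¹ * z)))
    fun l _ => ?_
  refine (SmF.scalar (contDiff_const (c := c l))).mul ?_
  refine SmF.tsum_loc (a := fun (m : ℤ) (q : ℝ × Tm p) => Q (q.1 - q.2 l - m))
    (b := fun m z => ℓ ((L.g ^ m * L.x l)⁻¹ * z) - ℓ ((L.g ^ m * L.prv l)⁻¹ * z))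
    (fun m => hc.comp (fld_contDiff_arg l m)) (fun m => fld_bdd_sub hℓ _ _) fun x => ?_
  obtain ⟨S, hS⟩ := fld_exists_finset hQ.2 (‖x.1 - x.2 l‖ + 1)
  have hcont : Continuous fun q : ℝ × Tm p => q.1 - q.2 l := by fun_prop
  exact ⟨S, ((hcont.tendsto x).eventually (fld_ev_norm _)).mono fun y hy m hm => hS _ hy m hm⟩

/-- locally the sums over `m` are finite; differentiate termwise, then reindex: the time
`nxt ξ l` is `ξ (l + 1)` (or `ξ 0 + 1`, shifting `m`) -/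
theorem dF_fld (hQ : EvC Q) (hc : ContDiff ℝ ∞ Q) (L : Loop G p) (q : ℝ × Tm p) (c : Tm p)
    (z : G) : dF (fld Q ℓ p L) q c z = -jmp (deriv Q) ℓ L q c z := by
  obtain ⟨s, ξ⟩ := q
  obtain ⟨S, hS⟩ := hQ.exists_finset (p := p) (‖(s, ξ)‖ + 1)
  obtain ⟨w, hw⟩ := fld_deriv_supp hQ
  have hcont : Continuous fun ξ' : Tm p => (s, ξ') := by fun_prop
  have hev : ∀ᶠ ξ' in 𝓝 ξ, ∀ l, ∀ m ∉ S, wt Q (s, ξ') l m = 0 :=
    ((hcont.tendsto ξ).eventually (fld_ev_norm _)).mono fun y hy => hS _ hy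
  set f : G → ℝ := fun y => ℓ (y⁻¹ * z) with hf
  have h1 : (fun ξ' => fld Q ℓ p L (s, ξ') z) =ᶠ[𝓝 ξ]
      fun ξ' => ∑ l, ∑ m ∈ S, wt Q (s, ξ') l m * f (L.g ^ m * L.x l) := by
    refine hev.mono fun ξ' h => ?_
    simp only [fld, avg]
    refine Finset.sum_congr rfl fun l _ => ?_
    exact tsum_eq_sum fun m hm => by rw [h l m hm, zero_mul]
  have hd : ∀ l m, DifferentiableAt ℝ (fun ξ' => wt Q (s, ξ') l m) ξ := fun l m =>
    (((fld_contDiff_wt hc l m).comp (contDiff_const.prodMk contDiff_id)).differentiable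
      (by simp)) ξ
  have h2 : HasFDerivAt (fun ξ' => ∑ l, ∑ m ∈ S, wt Q (s, ξ') l m * f (L.g ^ m * L.x l))
      (∑ l, ∑ m ∈ S, f (L.g ^ m * L.x l) • fderiv ℝ (fun ξ' => wt Q (s, ξ') l m) ξ) ξ :=
    HasFDerivAt.fun_sum fun l _ => HasFDerivAt.fun_sum fun m _ =>
      (hd l m).hasFDerivAt.mul_const _
  have h3 : dF (fld Q ℓ p L) (s, ξ) c z = ∑ l, ∑' m : ℤ,
      fderiv ℝ (fun ξ' => wt Q (s, ξ') l m) ξ c * f (L.g ^ m * L.x l) := by
    show fderiv ℝ (fun ξ' => fld Q ℓ p L (s, ξ') z) ξ c = _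
    rw [h1.fderiv_eq, h2.fderiv, sum_apply]
    refine Finset.sum_congr rfl fun l _ => ?_
    rw [sum_apply, tsum_eq_sum (s := S)]
    · exact Finset.sum_congr rfl fun m _ => by
        rw [smul_apply, smul_eq_mul, mul_comm]
    · intro m hm
      have : (fun ξ' => wt Q (s, ξ') l m) =ᶠ[𝓝 ξ] fun _ => 0 := hev.mono fun _ h => h l m hm
      rw [this.fderiv_eq]
      simp
  have h4 : ∀ l, ∑' m : ℤ, fderiv ℝ (fun ξ' => wt Q (s, ξ') l m) ξ c * f (L.g ^ m * L.x l) =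
      -(c l * ∑' m : ℤ, deriv Q (s - ξ l - m) * f (L.g ^ m * L.x l)) +
        c (l + 1) * ∑' m : ℤ, deriv Q (s - nxt ξ l - m) * f (L.g ^ m * L.x l) := by
    intro l
    rw [← tsum_mul_left, ← tsum_mul_left, ← tsum_neg, ← Summable.tsum_add
      ((fld_summable hw _ _).mul_left _).neg ((fld_summable hw _ _).mul_left _)]
    refine tsum_congr fun m => ?_
    rw [fld_fderiv_wt hc]
    ring
  have h5 : ∑ l, c (l + 1) * ∑' m : ℤ, deriv Q (s - nxt ξ l - m) * f (L.g ^ m * L.x l) =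
      ∑ l, c l * ∑' m : ℤ, deriv Q (s - ξ l - m) * f (L.g ^ m * L.prv l) := by
    rw [Fin.sum_univ_castSucc, Fin.sum_univ_succ (n := p), add_comm]
    congr 1
    · rw [Fin.last_add_one, nxt_last, Loop.prv_zero,
        ← (Equiv.addRight (1 : ℤ)).tsum_eq fun m : ℤ =>
          deriv Q (s - ξ 0 - m) * f (L.g ^ m * (L.g⁻¹ * L.x (Fin.last p)))]
      congr 1
      refine tsum_congr fun m => ?_
      rw [Equiv.coe_addRight]
      congr 2
      · push_cast; ring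
      · rw [zpow_add_one, mul_assoc, mul_inv_cancel_left]
    · refine Finset.sum_congr rfl fun j _ => ?_
      rw [Fin.coeSucc_eq_succ, nxt_castSucc, Loop.prv_succ]
  rw [h3, Finset.sum_congr rfl fun l _ => h4 l, Finset.sum_add_distrib, h5,
    ← Finset.sum_add_distrib, jmp, ← Finset.sum_neg_distrib]
  refine Finset.sum_congr rfl fun l _ => ?_
  have h6 : ∑' m : ℤ, deriv Q (s - ξ l - m) * (f (L.g ^ m * L.x l) - f (L.g ^ m * L.prv l)) =
      ∑' m : ℤ, deriv Q (s - ξ l - m) * f (L.g ^ m * L.x l) -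
        ∑' m : ℤ, deriv Q (s - ξ l - m) * f (L.g ^ m * L.prv l) := by
    rw [← Summable.tsum_sub (fld_summable hw _ _) (fld_summable hw _ _)]
    exact tsum_congr fun m => mul_sub _ _ _
  show _ = -(c l * ∑' m : ℤ, deriv Q (s - ξ l - m) *
    (f (L.g ^ m * L.x l) - f (L.g ^ m * L.prv l)))
  rw [h6]
  ring

theorem locB_dv_R {η lip : ℝ} (hη : 0 < η) (hℓ : IsLen ℓ) (L : Loop G p) {r : Tm p}
    (hr : ∀ l, 0 < r l) (hl : ∀ l, ℓ (L.jump l) ≤ lip * r l) (ξ : Tm p) :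
    LocB ξ (lip * (1 / η)) (3 * η / 4) (dv (fld (Rη η) ℓ p L) r ξ) := by
  intro s z l
  have h := locB_jmp (kb_ρη hη) (by positivity) hℓ hr hl ξ s z l
  rw [dv, dF_fld (rk_Rη hη).evC (contDiff_Rη η), deriv_Rη, neg_div, abs_neg]
  exact h

theorem locB_dv_L {η lip : ℝ} (hη : 0 < η) (hℓ : IsLen ℓ) (L : Loop G p) {r : Tm p}
    (hr : ∀ l, 0 < r l) (hl : ∀ l, ℓ (L.jump l) ≤ lip * r l) (ξ : Tm p) :
    LocB ξ (lip * 1) (3 * η / 2) (dv (fld (Lη η) ℓ p L) r ξ) := by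
  intro s z l
  obtain ⟨h', hL⟩ := kb_Lη hη
  have h := locB_jmp (kb_Kη hη) (by positivity) hℓ hr hl ξ s z l
  rw [dv, dF_fld hL.evC (contDiff_Lη η), deriv_Lη hη, neg_div, abs_neg]
  exact h

/-- `dF_fld`, `deriv_Lη`, `fld_eq_jmp`, `Kη_eq`, `avg_sub_ker` -/
theorem dF_fld_L_one {η : ℝ} (hη : 0 < η) (L : Loop G p) (q : ℝ × Tm p) (z : G) :
    dF (fld (Lη η) ℓ p L) q (fun _ => 1) z
      = fld (Rη η) ℓ p L q z - fld (Rη (2 * η)) ℓ p L q z := by
  obtain ⟨h', hL⟩ := kb_Lη hη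
  rw [dF_fld hL.evC (contDiff_Lη η), deriv_Lη hη, ← fld_eq_jmp (kb_Kη hη), Kη_eq]
  simp only [fld]
  rw [avg_sub_ker (rk_Rη (by positivity)).evC (rk_Rη hη).evC]
  ring

/-- `ρη_eq_int` and exchange of the integral with a finite sum -/
theorem jmp_ρ_eq {η : ℝ} (hη : 0 < η) (L : Loop G p) (s : ℝ) (ξ c : Tm p) (z : G) :
    jmp (ρη η) ℓ L (s, ξ) c z
      = (1 / η) * ∫ u in (s - η / 2)..(s + η / 2), jmp (ψη η) ℓ L (u, ξ) c z := by
  obtain ⟨S, hS⟩ := fld_exists_finset (kb_ψη hη).2 (|s| + η / 2 + ‖ξ‖)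
  set d : Fin (p + 1) → ℤ → ℝ := fun l m =>
    ℓ ((L.g ^ m * L.x l)⁻¹ * z) - ℓ ((L.g ^ m * L.prv l)⁻¹ * z) with hd
  have h0 : ∀ u ∈ Set.uIcc (s - η / 2) (s + η / 2), ∀ l, ∀ m ∉ S, ψη η (u - ξ l - m) = 0 := by
    intro u hu l m hm
    rw [Set.uIcc_of_le (by linarith)] at hu
    refine hS _ ?_ m hm
    have h1 : |ξ l| ≤ ‖ξ‖ := norm_le_pi_norm ξ l
    have h2 : |u| ≤ |s| + η / 2 :=
      abs_le.2 ⟨by linarith [hu.1, neg_abs_le s], by linarith [hu.2, le_abs_self s]⟩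
    linarith [abs_sub u (ξ l)]
  have h1 : ∀ l (m : ℤ), ρη η (s - ξ l - m) =
      (1 / η) * ∫ u in (s - η / 2)..(s + η / 2), ψη η (u - ξ l - m) := by
    intro l m
    rw [ρη_eq_int hη]
    have := intervalIntegral.integral_comp_sub_right (a := s - η / 2) (b := s + η / 2) (ψη η)
      (ξ l + m)
    simp only [← sub_sub] at this
    rw [this]
    congr 2 <;> ring
  have hi : ∀ l (m : ℤ), Continuous fun u => c l * (ψη η (u - ξ l - m) * d l m) := fun l m =>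
    continuous_const.mul (((contDiff_ψη η).continuous.comp (by fun_prop)).mul continuous_const)
  have h2 : ∫ u in (s - η / 2)..(s + η / 2), jmp (ψη η) ℓ L (u, ξ) c z =
      ∫ u in (s - η / 2)..(s + η / 2), ∑ l, ∑ m ∈ S, c l * (ψη η (u - ξ l - m) * d l m) := by
    refine intervalIntegral.integral_congr fun u hu => Finset.sum_congr rfl fun l _ => ?_
    rw [← Finset.mul_sum, tsum_eq_sum (s := S)]
    intro m hm
    show ψη η (u - ξ l - m) * _ = 0
    rw [h0 u hu l m hm, zero_mul]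
  rw [h2, intervalIntegral.integral_finsetSum fun l _ =>
    (continuous_finsetSum _ fun m _ => hi l m).intervalIntegrable _ _, Finset.mul_sum]
  refine Finset.sum_congr rfl fun l _ => ?_
  rw [intervalIntegral.integral_finsetSum fun m _ => (hi l m).intervalIntegrable _ _,
    tsum_eq_sum (s := S), Finset.mul_sum, Finset.mul_sum]
  · refine Finset.sum_congr rfl fun m _ => ?_
    show c l * (ρη η (s - ξ l - m) * d l m) = _
    rw [intervalIntegral.integral_const_mul, intervalIntegral.integral_mul_const, h1]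
    ring
  · intro m hm
    show ρη η (s - ξ l - m) * _ = 0
    rw [h1, intervalIntegral.integral_congr (g := fun _ => 0) fun u hu => h0 u hu l m hm]
    simp

/-- `Ff V ≤ V z` at the current position `z` of the loop (`exists_fld_heaviside`), where
`V z = jmp (R - H) 1 z ≤ ∑ l, ℓ (jump l) * maj (3η/4) (s - ξ l)`; integrate (`integral_maj`) -/
theorem IF_fld_le {η : ℝ} (hη : 0 < η) (hℓ : IsLen ℓ)
    (hs : Summable fun x => Real.exp (-ℓ x / 2)) (L : Loop G p) {ξ : Tm p} (hξ : Sx ξ) :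
    IF (fld (Rη η) ℓ p L) ξ ≤ 3 * η * tot ℓ L := by
  have hP := smP_fld (rk_Rη hη) (contDiff_Rη η) hℓ hs L
  have hw : 0 < 3 * η / 4 := by positivity
  have h1 : ∀ s, Ff (fld (Rη η) ℓ p L (s, ξ)) ≤
      ∑ l, ℓ (L.jump l) * maj (3 * η / 4) (s - ξ l) := by
    intro s
    obtain ⟨z, hz⟩ := exists_fld_heaviside (L := L) hℓ.one s hξ
    refine (Ff_le (hP.summable _) z).trans ?_
    have h2 := abs_jmp_le (L := L) (kb_Rη_sub_heaviside hη) hw hℓ (s, ξ) (fun _ => 1) z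
    rw [← fld_eq_jmp (kb_Rη_sub_heaviside hη)] at h2
    simp only [fld] at h2 hz ⊢
    rw [avg_sub_ker (rk_Rη hη).evC rk_heaviside.evC, hz, sub_zero] at h2
    simpa using (le_abs_self _).trans h2
  have hi : ∀ l, Continuous fun s => ℓ (L.jump l) * maj (3 * η / 4) (s - ξ l) := fun l =>
    continuous_const.mul ((continuous_maj hw).comp (by fun_prop))
  refine (intervalIntegral.integral_mono_on zero_le_one
    ((SmP.continuous_Ff (V := fld (Rη η) ℓ) hP ξ).intervalIntegrable _ _)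
    ((continuous_finsetSum _ fun l _ => hi l).intervalIntegrable _ _) fun s _ => h1 s).trans ?_
  rw [intervalIntegral.integral_finsetSum fun l _ => (hi l).intervalIntegrable _ _, tot,
    Finset.mul_sum]
  refine le_of_eq (Finset.sum_congr rfl fun l _ => ?_)
  rw [intervalIntegral.integral_const_mul, integral_maj hw]
  ring

end Crest.Agent.R192
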