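import Crest.Agent.R192.FormB0

/-! Row 192: the bound for `(dA)^k` in terms of the logarithmic cost. -/

set_option autoImplicit false
set_option linter.unusedSectionVars false
set_option linter.unusedVariables false

open scoped ContDiff Matrix Topology
open MeasureTheory

noncomputable section

namespace Crest.Agent.R192

section
variable {E : Type} [NormedAddCommGroup E] [NormedSpace ℝ E]

/-- iterated wedge product `b (q 0) ∧ a (q 0) ∧ b (q 1) ∧ a (q 1) ∧ …` -/
def wl {κ : Type} (b a : κ → E →L[ℝ] ℝ) : (k : ℕ) → (Fin k → κ) → Fm E (dg k)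
  | 0 => fun _ => ContinuousAlternatingMap.constOfIsEmpty ℝ E (Fin 0) (1 : ℝ)
  | k + 1 => fun q => wg (b (q 0)) (wg (a (q 0)) (wl b a k (Fin.tail q)))

/-- the covectors of `wl` in order -/
def wrow {κ : Type} (b a : κ → E →L[ℝ] ℝ) : (k : ℕ) → (Fin k → κ) → Fin (dg k) → E →L[ℝ] ℝ
  | 0 => fun _ => Fin.elim0
  | k + 1 => fun q => Fin.cons (α := fun _ => E →L[ℝ] ℝ) (b (q 0))
      (Fin.cons (α := fun _ => E →L[ℝ] ℝ) (a (q 0)) (wrow b a k (Fin.tail q)))

/-- `extDeriv_wg`, `extDeriv_om`, `Fin.consEquiv` -/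
theorem om_eq_sum {A : E → E →L[ℝ] ℝ} (hA : ContDiff ℝ ∞ A) {u : E} {κ : Type} [Fintype κ]
    (b a : κ → E →L[ℝ] ℝ)
    (h : ∀ v w, fderiv ℝ A u v w - fderiv ℝ A u w v = ∑ q, (b q v * a q w - b q w * a q v))
    (k : ℕ) : om A k u = ∑ q : Fin k → κ, wl b a k q := by
  induction k with
  | zero =>
    rw [Fintype.sum_unique]
    rfl
  | succ k ih =>
    have h1 : om A (k + 1) u = ∑ q, wg (b q) (wg (a q) (om A k u)) :=
      extDeriv_wg (hA.differentiable (by simp) u)
        ((contDiff_om hA k).differentiable (by simp) u) (extDeriv_om hA k u) b a h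
    rw [h1, ih, ← (Fin.consEquiv (fun _ : Fin (k + 1) => κ)).sum_comp, Fintype.sum_prod_type]
    refine Finset.sum_congr rfl fun q _ => ?_
    rw [wg_sum_right, wg_sum_right]
    refine Finset.sum_congr rfl fun q' _ => ?_
    rfl

theorem formb_wg_det {n : ℕ} (c : E →L[ℝ] ℝ) (η : Fm E n) (ρ : Fin n → E →L[ℝ] ℝ)
    (hη : ∀ v, η v = (Matrix.of fun i j => ρ i (v j)).det) (v : Fin (n + 1) → E) :
    wg c η v = (Matrix.of fun i j =>
      (Fin.cons (α := fun _ => E →L[ℝ] ℝ) c ρ) i (v j)).det := by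
  rw [wg_apply, Matrix.det_succ_row_zero]
  refine Finset.sum_congr rfl fun i _ => ?_
  rw [hη, mul_assoc]
  rfl

/-- `Matrix.det_succ_row_zero` twice -/
theorem wl_apply {κ : Type} (b a : κ → E →L[ℝ] ℝ) (k : ℕ) (q : Fin k → κ) (v : Fin (dg k) → E) :
    wl b a k q v = (Matrix.of fun i j => wrow b a k q i (v j)).det := by
  induction k with
  | zero =>
    have : IsEmpty (Fin (dg 0)) := inferInstanceAs (IsEmpty (Fin 0))
    rw [Matrix.det_isEmpty]
    rfl
  | succ k ih =>
    exact formb_wg_det (b (q 0)) _ _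
      (formb_wg_det (a (q 0)) _ _ (fun v => ih (Fin.tail q) v)) v

/-- the position of the row `b (q i)` -/
def formbIdx : (k : ℕ) → Fin k → Fin (dg k)
  | 0 => Fin.elim0
  | k + 1 => Fin.cons (α := fun _ => Fin (dg k + 1 + 1)) 0
      (fun i => (formbIdx k i).succ.succ)

theorem formbIdx_injective (k : ℕ) : Function.Injective (formbIdx k) := by
  induction k with
  | zero => intro i; exact i.elim0
  | succ k ih =>
    refine Fin.cons_injective_iff.2 ⟨?_, ?_⟩
    · rintro ⟨i, hi⟩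
      exact Fin.succ_ne_zero _ hi
    · intro i j hij
      exact ih (Fin.succ_injective _ (Fin.succ_injective _ hij))

theorem formb_wrow_idx {κ : Type} (b a : κ → E →L[ℝ] ℝ) (k : ℕ) (q : Fin k → κ) (i : Fin k) :
    wrow b a k q (formbIdx k i) = b (q i) := by
  induction k with
  | zero => exact i.elim0
  | succ k ih =>
    refine Fin.cases ?_ (fun i => ?_) i
    · rfl
    · exact ih (Fin.tail q) i

theorem formb_prod_wrow {κ : Type} (b a : κ → E →L[ℝ] ℝ) (N : (E →L[ℝ] ℝ) → ℝ) (k : ℕ)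
    (q : Fin k → κ) :
    ∏ i, N (wrow b a k q i) = ∏ j, N (b (q j)) * N (a (q j)) := by
  induction k with
  | zero =>
    have : IsEmpty (Fin (dg 0)) := inferInstanceAs (IsEmpty (Fin 0))
    rw [Fintype.prod_empty, Fintype.prod_empty]
  | succ k ih =>
    have h1 : ∏ i, N (wrow b a (k + 1) q i)
        = N (b (q 0)) * (N (a (q 0)) * ∏ i, N (wrow b a k (Fin.tail q) i)) := by
      have := Fin.prod_univ_succ (n := dg k + 1) (fun i => N (wrow b a (k + 1) q i))
      refine this.trans ?_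
      rw [Fin.prod_univ_succ]
      rfl
    rw [h1, ih, Fin.prod_univ_succ, mul_assoc]
    rfl

/-- two equal rows -/
theorem wl_eq_zero {κ : Type} (b a : κ → E →L[ℝ] ℝ) (k : ℕ) {q : Fin k → κ}
    (hq : ¬Function.Injective q) : wl b a k q = 0 := by
  obtain ⟨i, j, hij, hne⟩ := Function.not_injective_iff.1 hq
  ext v
  rw [wl_apply]
  refine Matrix.det_zero_of_row_eq (i := formbIdx k i) (j := formbIdx k j)
    (fun h => hne (formbIdx_injective k h)) ?_
  funext l
  simp only [Matrix.of_apply, formb_wrow_idx, hij]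

end

/-- the covector `v ↦ ∑ i, c i * v i` -/
def formbCov {p : ℕ} (c : Fin p → ℝ) : (Fin p → ℝ) →L[ℝ] ℝ :=
  ∑ i, c i • ContinuousLinearMap.proj (R := ℝ) (φ := fun _ : Fin p => ℝ) i

theorem formbCov_single {p : ℕ} (c : Fin p → ℝ) (l : Fin p) :
    formbCov c (Pi.single l 1) = c l := by
  simp [formbCov, Pi.single_apply]

theorem formb_bilin_ext {p : ℕ} {D D' : (Fin p → ℝ) →L[ℝ] (Fin p → ℝ) →L[ℝ] ℝ}
    (h : ∀ i l, D (Pi.single i 1) (Pi.single l 1) = D' (Pi.single i 1) (Pi.single l 1))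
    (v w : Fin p → ℝ) : D v w = D' v w := by
  have hv : v = ∑ i, v i • (Pi.single i 1 : Fin p → ℝ) := by
    funext j; simp [Pi.single_apply]
  have hw : w = ∑ i, w i • (Pi.single i 1 : Fin p → ℝ) := by
    funext j; simp [Pi.single_apply]
  rw [hv, hw]
  simp only [map_sum, map_smul, ContinuousLinearMap.sum_apply, ContinuousLinearMap.smul_apply, h]

theorem formb_nrm_comp_le {m p : ℕ} (c : Fin p → ℝ) {σ : Fin m → Fin p}
    (hσ : Function.Injective σ) : nrm (fun j => c (σ j)) ≤ nrm c := by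
  unfold nrm
  refine Real.sqrt_le_sqrt ?_
  have h1 : ∑ j, c (σ j) ^ 2 = ∑ i ∈ Finset.univ.map ⟨σ, hσ⟩, c i ^ 2 := by
    rw [Finset.sum_map]; rfl
  rw [h1]
  exact Finset.sum_le_sum_of_subset_of_nonneg (Finset.subset_univ _) fun i _ _ => sq_nonneg _

theorem formb_prod_comp_le {m p : ℕ} {r : Fin p → ℝ} (hr : ∀ i, 1 ≤ r i) {σ : Fin m → Fin p}
    (hσ : Function.Injective σ) : ∏ j, r (σ j) ≤ ∏ i, r i := by
  have h1 : ∏ j, r (σ j) = ∏ i ∈ Finset.univ.map ⟨σ, hσ⟩, r i := by
    rw [Finset.prod_map]; rfl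
  rw [h1]
  exact Finset.prod_le_prod_of_subset_of_one_le (Finset.subset_univ _)
    (fun i _ => zero_le_one.trans (hr i)) fun i _ _ => hr i

theorem formb_abs_wl_le {p : ℕ} {κ : Type} (b a : κ → Fin p → ℝ) {r : Fin p → ℝ}
    (hr : ∀ i, 1 ≤ r i) (k : ℕ) {σ : Fin (dg k) → Fin p} (hσ : Function.Injective σ)
    (q : Fin k → κ) :
    |wl (fun q => formbCov fun i => r i * b q i) (fun q => formbCov fun i => r i * a q i) k q
        fun j => Pi.single (σ j) 1|
      ≤ (∏ i, r i) * ∏ j, nrm (b (q j)) * nrm (a (q j)) := by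
  set B : κ → (Fin p → ℝ) →L[ℝ] ℝ := fun q => formbCov fun i => r i * b q i with hB
  set A : κ → (Fin p → ℝ) →L[ℝ] ℝ := fun q => formbCov fun i => r i * a q i with hA
  have hr0 : ∀ i, r i ≠ 0 := fun i => (zero_lt_one.trans_le (hr i)).ne'
  let N : ((Fin p → ℝ) →L[ℝ] ℝ) → ℝ := fun φ =>
    nrm fun j => φ (Pi.single (σ j) 1) / r (σ j)
  have hN : ∀ c : Fin p → ℝ, N (formbCov fun i => r i * c i) ≤ nrm c := by
    intro c
    have : (fun j => formbCov (fun i => r i * c i) (Pi.single (σ j) 1) / r (σ j))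
        = fun j => c (σ j) := by
      funext j
      rw [formbCov_single, mul_div_cancel_left₀ _ (hr0 _)]
    show nrm _ ≤ _
    rw [this]
    exact formb_nrm_comp_le c hσ
  have hN0 : ∀ φ, 0 ≤ N φ := fun φ => nrm_nonneg _
  rw [wl_apply]
  have h1 : (Matrix.of fun i j => wrow B A k q i (Pi.single (σ j) 1))
      = Matrix.of fun i j => r (σ j) *
        (Matrix.of fun i j => wrow B A k q i (Pi.single (σ j) 1) / r (σ j)) i j := by
    ext i j
    simp only [Matrix.of_apply]
    rw [mul_div_cancel₀ _ (hr0 _)]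
  rw [h1, Matrix.det_mul_row, abs_mul,
    abs_of_nonneg (Finset.prod_nonneg fun j _ => zero_le_one.trans (hr _))]
  refine mul_le_mul (formb_prod_comp_le hr hσ) ?_ (abs_nonneg _)
    (Finset.prod_nonneg fun j _ => zero_le_one.trans (hr _))
  refine (abs_det_le_prod_nrm _).trans ?_
  have h2 := formb_prod_wrow B A N k q
  refine (le_of_eq h2).trans ?_
  exact Finset.prod_le_prod (fun j _ => mul_nonneg (hN0 _) (hN0 _))
    fun j _ => mul_le_mul (hN _) (hN _) (hN0 _) (nrm_nonneg _)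

/-- Let `M = ∑ q, vecMulVec (b q) (a q)` and define the covectors `v ↦ ∑ i, r i * b q i * v i`
etc.  Then `om_eq_sum` applies; for injective `q`, `wl_apply`, factoring `r (σ j)` out of column
`j`, and Hadamard give `|wl q (e ∘ σ)| ≤ ∏ r * ∏ j, nrm (b (q j)) * nrm (a (q j))`. -/
theorem abs_om_le {p : ℕ} {A : (Fin p → ℝ) → (Fin p → ℝ) →L[ℝ] ℝ} (hA : ContDiff ℝ ∞ A)
    {u r : Fin p → ℝ} (hr : ∀ i, 1 ≤ r i) {M : Matrix (Fin p) (Fin p) ℝ} {ε c : ℝ} (hε : 0 < ε)
    (hM : CostLe ε M c)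
    (h : ∀ i l, fderiv ℝ A u (Pi.single i 1) (Pi.single l 1)
      - fderiv ℝ A u (Pi.single l 1) (Pi.single i 1) = r i * r l * (M i l - M l i))
    (k : ℕ) {σ : Fin (dg k) → Fin p} (hσ : Function.Injective σ) :
    |om A k u fun j => Pi.single (σ j) 1| ≤ k.factorial * ε ^ k * Real.exp c * ∏ i, r i := by
  classical
  obtain ⟨κ, _, b, a, hMe, hc⟩ := hM
  set B : κ → (Fin p → ℝ) →L[ℝ] ℝ := fun q => formbCov fun i => r i * b q i with hB
  set A' : κ → (Fin p → ℝ) →L[ℝ] ℝ := fun q => formbCov fun i => r i * a q i with hA'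
  have hd : ∀ v w, fderiv ℝ A u v w - fderiv ℝ A u w v
      = ∑ q, (B q v * A' q w - B q w * A' q v) := by
    intro v w
    have := formb_bilin_ext (D := fderiv ℝ A u - (fderiv ℝ A u).flip)
      (D' := ∑ q, ((B q).smulRight (A' q) - (A' q).smulRight (B q))) ?_ v w
    · simp only [ContinuousLinearMap.sub_apply, ContinuousLinearMap.flip_apply,
        ContinuousLinearMap.sum_apply, ContinuousLinearMap.smulRight_apply,
        ContinuousLinearMap.smul_apply, smul_eq_mul] at this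
      rw [this]
      exact Finset.sum_congr rfl fun q _ => by ring
    · intro i l
      simp only [ContinuousLinearMap.sub_apply, ContinuousLinearMap.flip_apply,
        ContinuousLinearMap.sum_apply, ContinuousLinearMap.smulRight_apply,
        ContinuousLinearMap.smul_apply, smul_eq_mul, hB, hA', formbCov_single]
      rw [h, hMe]
      simp only [Matrix.sum_apply, Matrix.vecMulVec_apply]
      rw [← Finset.sum_sub_distrib, Finset.mul_sum]
      exact Finset.sum_congr rfl fun q _ => by ring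
  rw [om_eq_sum hA B A' hd k, ContinuousAlternatingMap.sum_apply]
  set w : κ → ℝ := fun q => nrm (b q) * nrm (a q) / ε with hw
  have hw0 : ∀ q, 0 ≤ w q := fun q => div_nonneg (mul_nonneg (nrm_nonneg _) (nrm_nonneg _)) hε.le
  have hR : 0 ≤ ∏ i, r i := Finset.prod_nonneg fun j _ => zero_le_one.trans (hr _)
  have h1 : ∑ q : Fin k → κ, (wl B A' k q fun j => Pi.single (σ j) 1)
      = ∑ q ∈ Finset.univ.filter fun q : Fin k → κ => Function.Injective q,
          (wl B A' k q fun j => Pi.single (σ j) 1) := by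
    rw [Finset.sum_filter]
    refine Finset.sum_congr rfl fun q _ => ?_
    split_ifs with hq
    · rfl
    · rw [wl_eq_zero B A' k hq]; rfl
  have h2 : ∀ q : Fin k → κ, |wl B A' k q fun j => Pi.single (σ j) 1|
      ≤ (ε ^ k * ∏ i, r i) * ∏ j, w (q j) := by
    intro q
    refine (formb_abs_wl_le b a hr k hσ q).trans (le_of_eq ?_)
    have : ∏ j, nrm (b (q j)) * nrm (a (q j)) = ∏ j : Fin k, (ε * w (q j)) :=
      Finset.prod_congr rfl fun j _ => by rw [hw]; field_simp
    rw [this, Finset.prod_mul_distrib, Finset.prod_const, Finset.card_univ, Fintype.card_fin]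
    ring
  have h3 : ∏ q, (1 + w q) ≤ Real.exp c := by
    have : ∏ q, (1 + w q) = Real.exp (∑ q, Real.log (1 + w q)) := by
      rw [Real.exp_sum]
      exact Finset.prod_congr rfl fun q _ => (Real.exp_log (by linarith [hw0 q])).symm
    rw [this]
    exact Real.exp_le_exp.2 hc
  have h4 := sum_inj_le hw0 k
  rw [h1]
  refine (Finset.abs_sum_le_sum_abs _ _).trans ?_
  refine (Finset.sum_le_sum fun q _ => h2 q).trans ?_
  rw [← Finset.mul_sum]
  have h5 : 0 ≤ ε ^ k * ∏ i, r i := mul_nonneg (pow_nonneg hε.le _) hR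
  calc _ ≤ (ε ^ k * ∏ i, r i) * (k.factorial * Real.exp c) := by
        refine mul_le_mul_of_nonneg_left ?_ h5
        refine le_trans (le_of_eq ?_) (h4.trans (mul_le_mul_of_nonneg_left h3 (by positivity)))
        congr
    _ = _ := by ring

end Crest.Agent.R192
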