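import Crest.Agent.R192.Defs

/-! Row 192: nuclear norm and logarithmic cost of real matrices. -/

set_option autoImplicit false
set_option linter.unusedSectionVars false
set_option linter.unusedVariables false

open scoped ContDiff Matrix Topology
open MeasureTheory

noncomputable section

namespace Crest.Agent.R192

variable {ι : Type} [Fintype ι] [DecidableEq ι]

theorem lin_nrm_eq {ι : Type} [Fintype ι] (v : ι → ℝ) :
    nrm v = ‖(WithLp.toLp 2 v : EuclideanSpace ℝ ι)‖ := by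
  rw [EuclideanSpace.norm_eq]
  simp [nrm]

theorem lin_nrm_comp {ι ι' : Type} [Fintype ι] [Fintype ι'] {f : ι' → ι}
    (hf : Function.Injective f) (v : ι → ℝ) : nrm (v ∘ f) ≤ nrm v := by
  classical
  unfold nrm
  apply Real.sqrt_le_sqrt
  have : ∑ i, (v ∘ f) i ^ 2 = ∑ j ∈ Finset.univ.image f, v j ^ 2 := by
    rw [Finset.sum_image fun x _ y _ h => hf h]
    rfl
  rw [this]
  exact Finset.sum_le_sum_of_subset_of_nonneg (Finset.subset_univ _) fun i _ _ => sq_nonneg _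

theorem lin_log_mono {ι ι' : Type} [Fintype ι] [Fintype ι'] {ε x y : ℝ} (hε : 0 < ε) {b : ι → ℝ}
    {a : ι' → ℝ} (hb : nrm b ≤ x) (ha : nrm a ≤ y) :
    Real.log (1 + nrm b * nrm a / ε) ≤ Real.log (1 + x * y / ε) := by
  have h1 : 0 ≤ nrm b := Real.sqrt_nonneg _
  have h2 : 0 ≤ nrm a := Real.sqrt_nonneg _
  apply Real.log_le_log (by positivity)
  gcongr
  exact h1.trans hb

theorem nrm_nonneg (v : ι → ℝ) : 0 ≤ nrm v :=
  Real.sqrt_nonneg _

theorem nrm_sq (v : ι → ℝ) : nrm v ^ 2 = v ⬝ᵥ v := by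
  unfold nrm
  rw [Real.sq_sqrt (Finset.sum_nonneg fun i _ => sq_nonneg _)]
  simp [dotProduct, sq]

theorem nrm_add_le (v w : ι → ℝ) : nrm (v + w) ≤ nrm v + nrm w := by
  rw [lin_nrm_eq, lin_nrm_eq, lin_nrm_eq, WithLp.toLp_add]
  exact norm_add_le _ _

theorem nrm_smul (c : ℝ) (v : ι → ℝ) : nrm (c • v) = |c| * nrm v := by
  rw [lin_nrm_eq, lin_nrm_eq, WithLp.toLp_smul, norm_smul, Real.norm_eq_abs]

theorem nrm_neg (v : ι → ℝ) : nrm (-v) = nrm v := by
  simp [nrm]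

theorem nrm_sum_le {κ : Type} (s : Finset κ) (v : κ → ι → ℝ) :
    nrm (∑ q ∈ s, v q) ≤ ∑ q ∈ s, nrm (v q) := by
  classical
  induction s using Finset.induction_on with
  | empty => simp [nrm]
  | insert a s ha ih =>
    rw [Finset.sum_insert ha, Finset.sum_insert ha]
    exact (nrm_add_le _ _).trans (by linarith)

theorem abs_le_nrm (v : ι → ℝ) (i : ι) : |v i| ≤ nrm v := by
  unfold nrm
  apply Real.abs_le_sqrt
  exact Finset.single_le_sum (f := fun i => v i ^ 2) (fun i _ => sq_nonneg _) (Finset.mem_univ i)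

theorem abs_dotProduct_le (v w : ι → ℝ) : |v ⬝ᵥ w| ≤ nrm v * nrm w := by
  have h := Finset.sum_mul_sq_le_sq_mul_sq Finset.univ v w
  unfold nrm
  rw [← Real.sqrt_mul (Finset.sum_nonneg fun i _ => sq_nonneg _)]
  exact Real.abs_le_sqrt h

theorem nrm_mono {v w : ι → ℝ} (h : ∀ i, |v i| ≤ w i) : nrm v ≤ nrm w := by
  unfold nrm
  apply Real.sqrt_le_sqrt
  refine Finset.sum_le_sum fun i _ => ?_
  rw [← sq_abs (v i)]
  exact pow_le_pow_left₀ (abs_nonneg _) (h i) 2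

theorem nrm_le_of_dot {v : ι → ℝ} {B : ℝ} (hB : 0 ≤ B) (h : ∀ c, c ⬝ᵥ v ≤ B * nrm c) :
    nrm v ≤ B := by
  have h1 := h v
  rw [← nrm_sq] at h1
  have h0 := nrm_nonneg v
  rcases h0.eq_or_lt with h2 | h2
  · rw [← h2]; exact hB
  · nlinarith

theorem continuous_nrm : Continuous (nrm : (ι → ℝ) → ℝ) := by
  unfold nrm
  fun_prop

theorem nrm_le_sqrt_mul_prod {r : ι → ℝ} (hr : ∀ i, 1 ≤ r i) :
    nrm r ≤ √(Fintype.card ι) * ∏ i, r i := by
  have hP : ∀ i, r i ≤ ∏ j, r j := fun i => by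
    rw [← Finset.mul_prod_erase Finset.univ r (Finset.mem_univ i)]
    have : 1 ≤ ∏ j ∈ Finset.univ.erase i, r j := Finset.one_le_prod fun j _ => hr j
    nlinarith [hr i]
  have hP0 : 0 ≤ ∏ j, r j := Finset.prod_nonneg fun j _ => zero_le_one.trans (hr j)
  have h1 : nrm r ≤ nrm (fun _ : ι => ∏ j, r j) :=
    nrm_mono fun i => by rw [abs_of_nonneg (zero_le_one.trans (hr i))]; exact hP i
  refine h1.trans (le_of_eq ?_)
  unfold nrm
  rw [Finset.sum_const, Finset.card_univ, nsmul_eq_mul, Real.sqrt_mul (Nat.cast_nonneg _),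
    Real.sqrt_sq hP0]

theorem lin_eq_zero {v : ι → ℝ} (h : nrm v = 0) : v = 0 := by
  funext i
  have := abs_le_nrm v i
  rw [h] at this
  exact abs_nonpos_iff.mp this

theorem lin_bes_zero {κ : Type} [Fintype κ] : Bes (fun _ : κ => (0 : ι → ℝ)) := by
  intro c
  rw [← nrm_sq]
  simp [sq_nonneg]

theorem lin_bes_unit (v : ι → ℝ) : Bes (fun _ : Unit => (nrm v)⁻¹ • v) := by
  intro c
  simp only [Finset.univ_unique, Finset.sum_singleton]
  have h := abs_dotProduct_le ((nrm v)⁻¹ • v) c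
  have h1 : nrm ((nrm v)⁻¹ • v) ≤ 1 := by
    rw [nrm_smul, abs_of_nonneg (inv_nonneg.mpr (nrm_nonneg v))]
    exact inv_mul_le_one
  rw [← nrm_sq, ← sq_abs]
  refine pow_le_pow_left₀ (abs_nonneg _) (h.trans ?_) 2
  nlinarith [nrm_nonneg c]

theorem NucLe.nonneg {M : Matrix ι ι ℝ} {ν : ℝ} (h : NucLe M ν) : 0 ≤ ν := by
  have := h Empty (fun _ => 0) (fun _ => 0) lin_bes_zero lin_bes_zero
  simpa using this

theorem NucLe.mono {M : Matrix ι ι ℝ} {ν ν' : ℝ} (h : NucLe M ν) (hν : ν ≤ ν') : NucLe M ν' :=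
  fun κ _ u v hu hv => (h κ u v hu hv).trans hν

theorem nucLe_zero : NucLe (0 : Matrix ι ι ℝ) 0 := by
  intro κ _ u v hu hv
  simp

theorem NucLe.add {M M' : Matrix ι ι ℝ} {ν ν' : ℝ} (h : NucLe M ν) (h' : NucLe M' ν') :
    NucLe (M + M') (ν + ν') := by
  intro κ _ u v hu hv
  simp only [Matrix.add_mulVec, dotProduct_add, Finset.sum_add_distrib]
  exact add_le_add (h κ u v hu hv) (h' κ u v hu hv)

theorem NucLe.sum {κ : Type} (s : Finset κ) {M : κ → Matrix ι ι ℝ} {ν : κ → ℝ}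
    (h : ∀ q ∈ s, NucLe (M q) (ν q)) : NucLe (∑ q ∈ s, M q) (∑ q ∈ s, ν q) := by
  classical
  induction s using Finset.induction_on with
  | empty => simpa using nucLe_zero
  | insert a s ha ih =>
    rw [Finset.sum_insert ha, Finset.sum_insert ha]
    exact (h a (Finset.mem_insert_self _ _)).add
      (ih fun q hq => h q (Finset.mem_insert_of_mem hq))

theorem NucLe.smul {M : Matrix ι ι ℝ} {ν c : ℝ} (h : NucLe M ν) (hc : 0 ≤ c) :
    NucLe (c • M) (c * ν) := by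
  intro κ _ u v hu hv
  simp only [Matrix.smul_mulVec, dotProduct_smul, smul_eq_mul, ← Finset.mul_sum]
  exact mul_le_mul_of_nonneg_left (h κ u v hu hv) hc

theorem NucLe.transpose {M : Matrix ι ι ℝ} {ν : ℝ} (h : NucLe M ν) : NucLe Mᵀ ν := by
  intro κ _ u v hu hv
  have : ∀ q, u q ⬝ᵥ Mᵀ *ᵥ v q = v q ⬝ᵥ M *ᵥ u q := fun q => by
    rw [Matrix.mulVec_transpose, dotProduct_comm, Matrix.dotProduct_mulVec]
  simp only [this]
  exact h κ v u hv hu

/-- operator norm bound: test with one-element families -/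
theorem NucLe.nrm_mulVec_le {M : Matrix ι ι ℝ} {ν : ℝ} (h : NucLe M ν) (v : ι → ℝ) :
    nrm (M *ᵥ v) ≤ ν * nrm v := by
  have hν := h.nonneg
  refine nrm_le_of_dot (mul_nonneg hν (nrm_nonneg v)) fun c => ?_
  have key := h Unit (fun _ => (nrm c)⁻¹ • c) (fun _ => (nrm v)⁻¹ • v) (lin_bes_unit c)
    (lin_bes_unit v)
  simp only [Finset.univ_unique, Finset.sum_singleton, Matrix.mulVec_smul, dotProduct_smul,
    smul_dotProduct, smul_eq_mul] at key
  rcases (nrm_nonneg c).eq_or_lt with hc | hc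
  · have : c = 0 := lin_eq_zero hc.symm
    subst this
    simp [← hc]
  rcases (nrm_nonneg v).eq_or_lt with hv | hv
  · have : v = 0 := lin_eq_zero hv.symm
    subst this
    simp [← hv]
  have e : c ⬝ᵥ M *ᵥ v = nrm v * nrm c * ((nrm v)⁻¹ * ((nrm c)⁻¹ * (c ⬝ᵥ M *ᵥ v))) := by
    field_simp
  rw [e]
  calc _ ≤ nrm v * nrm c * ν := mul_le_mul_of_nonneg_left key (by positivity)
    _ = _ := by ring

theorem CostLe.mono {ε c c' : ℝ} {M : Matrix ι ι ℝ} (h : CostLe ε M c) (hc : c ≤ c') :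
    CostLe ε M c' := by
  obtain ⟨κ, hκ, b, a, h1, h2⟩ := h
  exact ⟨κ, hκ, b, a, h1, h2.trans hc⟩

theorem costLe_zero (ε : ℝ) : CostLe ε (0 : Matrix ι ι ℝ) 0 :=
  ⟨Empty, inferInstance, fun _ => 0, fun _ => 0, by simp, by simp⟩

theorem CostLe.add {ε c c' : ℝ} {M M' : Matrix ι ι ℝ} (h : CostLe ε M c) (h' : CostLe ε M' c') :
    CostLe ε (M + M') (c + c') := by
  obtain ⟨κ, hκ, b, a, h1, h2⟩ := h
  obtain ⟨κ', hκ', b', a', h1', h2'⟩ := h'
  refine ⟨κ ⊕ κ', inferInstance, Sum.elim b b', Sum.elim a a', ?_, ?_⟩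
  · rw [Fintype.sum_sum_type, h1, h1']
    simp
  · rw [Fintype.sum_sum_type]
    simpa using add_le_add h2 h2'

theorem CostLe.sum {κ : Type} (s : Finset κ) {ε : ℝ} {M : κ → Matrix ι ι ℝ} {c : κ → ℝ}
    (h : ∀ q ∈ s, CostLe ε (M q) (c q)) : CostLe ε (∑ q ∈ s, M q) (∑ q ∈ s, c q) := by
  classical
  induction s using Finset.induction_on with
  | empty => simpa using costLe_zero ε
  | insert a s ha ih =>
    rw [Finset.sum_insert ha, Finset.sum_insert ha]
    exact (h a (Finset.mem_insert_self _ _)).add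
      (ih fun q hq => h q (Finset.mem_insert_of_mem hq))

theorem CostLe.smul {ε c t : ℝ} {M : Matrix ι ι ℝ} (hε : 0 < ε) (h : CostLe ε M c)
    (ht : |t| ≤ 1) : CostLe ε (t • M) c := by
  obtain ⟨κ, hκ, b, a, h1, h2⟩ := h
  refine ⟨κ, hκ, fun q => t • b q, a, ?_, le_trans (Finset.sum_le_sum fun q _ => ?_) h2⟩
  · rw [h1, Finset.smul_sum]
    refine Finset.sum_congr rfl fun q _ => ?_
    ext i j
    simp [Matrix.vecMulVec_apply, mul_assoc]
  · refine lin_log_mono hε ?_ le_rfl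
    rw [nrm_smul]
    nlinarith [nrm_nonneg (b q)]

theorem CostLe.transpose {ε c : ℝ} {M : Matrix ι ι ℝ} (h : CostLe ε M c) : CostLe ε Mᵀ c := by
  obtain ⟨κ, hκ, b, a, h1, h2⟩ := h
  refine ⟨κ, hκ, a, b, ?_, ?_⟩
  · rw [h1, Matrix.transpose_sum]
    simp
  · simpa [mul_comm] using h2

theorem costLe_vecMulVec {ε x y : ℝ} (hε : 0 < ε) {b a : ι → ℝ} (hb : nrm b ≤ x)
    (ha : nrm a ≤ y) : CostLe ε (Matrix.vecMulVec b a) (Real.log (1 + x * y / ε)) :=
  ⟨Unit, inferInstance, fun _ => b, fun _ => a, by simp, by simpa using lin_log_mono hε hb ha⟩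

theorem CostLe.submatrix {ι' : Type} [Fintype ι'] {ε c : ℝ} {M : Matrix ι ι ℝ} (hε : 0 < ε)
    (h : CostLe ε M c) {f : ι' → ι} (hf : Function.Injective f) :
    CostLe ε (M.submatrix f f) c := by
  obtain ⟨κ, hκ, b, a, h1, h2⟩ := h
  refine ⟨κ, hκ, fun q => b q ∘ f, fun q => a q ∘ f, ?_,
    le_trans (Finset.sum_le_sum fun q _ => ?_) h2⟩
  · rw [h1]
    ext i j
    simp [Matrix.sum_apply, Matrix.vecMulVec_apply]
  · exact lin_log_mono hε (lin_nrm_comp hf _) (lin_nrm_comp hf _)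

end Crest.Agent.R192
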