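import Crest.Agent.R192.Forms
import Crest.Agent.R192.Lin

/-! Row 192: the bound for `(dA)^k` in terms of the logarithmic cost. -/

set_option autoImplicit false
set_option linter.unusedSectionVars false
set_option linter.unusedVariables false

open scoped ContDiff Matrix Topology
open MeasureTheory

noncomputable section

namespace Crest.Agent.R192

/-- Hadamard's inequality (`Orientation.abs_volumeForm_apply_le` in `EuclideanSpace`; see
`geo1_hadamard` in `R236/Geo1.lean`) -/
theorem abs_det_le_prod_nrm {m : ℕ} (M : Matrix (Fin m) (Fin m) ℝ) :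
    |M.det| ≤ ∏ i, nrm (M i) := by
  have : Fact (Module.finrank ℝ (EuclideanSpace ℝ (Fin m)) = m) := ⟨by simp⟩
  let b := EuclideanSpace.basisFun (Fin m) ℝ
  let v : Fin m → EuclideanSpace ℝ (Fin m) := fun i => WithLp.toLp 2 (M i)
  have h1 := b.toBasis.orientation.abs_volumeForm_apply_le v
  rw [b.toBasis.orientation.volumeForm_robust' b v, Module.Basis.det_apply] at h1
  have h2 : b.toBasis.toMatrix v = Mᵀ := by
    ext i j
    simp [Module.Basis.toMatrix_apply, b, v]
  rw [h2, Matrix.det_transpose] at h1
  refine h1.trans_eq (Finset.prod_congr rfl fun i _ => ?_)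
  simp [EuclideanSpace.norm_eq, v, nrm]

open Classical in
/-- each `k`-element subset is the image of `k!` injections, and the sum over all subsets of
`∏ w` is `∏ (1 + w)` (`Finset.prod_one_add`) -/
theorem sum_inj_le {κ : Type} [Fintype κ] {w : κ → ℝ} (hw : ∀ q, 0 ≤ w q) (k : ℕ) :
    ∑ q ∈ Finset.univ.filter fun q : Fin k → κ => Function.Injective q, ∏ j, w (q j)
      ≤ k.factorial * ∏ q, (1 + w q) := by
  rw [Finset.prod_one_add, Finset.mul_sum,
    ← Finset.sum_fiberwise_of_maps_to (t := (Finset.univ : Finset κ).powerset)
      (g := fun q : Fin k → κ => Finset.univ.image q)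
      (fun q _ => Finset.mem_powerset.2 (Finset.subset_univ _))]
  refine Finset.sum_le_sum fun t _ => ?_
  set F := (Finset.univ.filter fun q : Fin k → κ => Function.Injective q).filter
    fun q => Finset.univ.image q = t with hF
  have hmem : ∀ q ∈ F, Function.Injective q ∧ Finset.univ.image q = t := fun q hq => by
    simpa [hF] using hq
  have h1 : ∑ q ∈ F, ∏ j, w (q j) = F.card * ∏ i ∈ t, w i := by
    rw [← nsmul_eq_mul, ← Finset.sum_const]
    refine Finset.sum_congr rfl fun q hq => ?_
    rw [← (hmem q hq).2, Finset.prod_image fun a _ b _ h => (hmem q hq).1 h]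
  have h2 : F.card ≤ k.factorial := by
    rcases F.eq_empty_or_nonempty with h | ⟨q₀, hq₀⟩
    · rw [h]; simp
    · have hc : t.card = k := by
        rw [← (hmem q₀ hq₀).2, Finset.card_image_of_injective _ (hmem q₀ hq₀).1]; simp
      let e : F → (Fin k ↪ t) := fun q =>
        ⟨fun j => ⟨q.1 j, by
            rw [← (hmem q.1 q.2).2]; exact Finset.mem_image_of_mem _ (Finset.mem_univ j)⟩,
          fun a b h => (hmem q.1 q.2).1 (congrArg Subtype.val h)⟩
      have he : Function.Injective e := fun q q' h => by
        apply Subtype.ext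
        funext j
        exact congrArg (fun f : Fin k ↪ t => (f j : κ)) h
      have := Fintype.card_le_of_injective e he
      rwa [Fintype.card_embedding_eq, Fintype.card_coe, Fintype.card_coe, hc, Fintype.card_fin,
        Nat.descFactorial_self] at this
  rw [h1]
  exact mul_le_mul_of_nonneg_right (by exact_mod_cast h2) (Finset.prod_nonneg fun i _ => hw i)

end Crest.Agent.R192
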