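import Crest.Agent.R192.Forms0

/-! Row 192: algebra and calculus of the forms `om` and `th`. -/

set_option autoImplicit false
set_option linter.unusedSectionVars false
set_option linter.unusedVariables false
set_option maxSynthPendingDepth 3

open scoped ContDiff Matrix Topology
open MeasureTheory

noncomputable section

namespace Crest.Agent.R192

variable {E E' : Type} [NormedAddCommGroup E] [NormedSpace ℝ E] [NormedAddCommGroup E']
  [NormedSpace ℝ E']

open ContinuousAlternatingMap in
/-- double alternatisation -/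
def formsDbl {n : ℕ} (f : E →L[ℝ] E →L[ℝ] Fm E n) : Fm E (n + 1 + 1) :=
  alternatizeUncurryFinCLM ℝ E ℝ (alternatizeUncurryFinCLM ℝ E ℝ ∘L f)

theorem formsDbl_add {n : ℕ} (f g : E →L[ℝ] E →L[ℝ] Fm E n) :
    formsDbl (f + g) = formsDbl f + formsDbl g := by
  unfold formsDbl
  rw [ContinuousLinearMap.comp_add, map_add]

theorem formsDbl_sub {n : ℕ} (f g : E →L[ℝ] E →L[ℝ] Fm E n) :
    formsDbl (f - g) = formsDbl f - formsDbl g := by
  unfold formsDbl
  rw [ContinuousLinearMap.comp_sub, map_sub]

theorem formsDbl_sum {n : ℕ} {κ : Type} (s : Finset κ) (f : κ → E →L[ℝ] E →L[ℝ] Fm E n) :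
    formsDbl (∑ q ∈ s, f q) = ∑ q ∈ s, formsDbl (f q) := by
  unfold formsDbl
  rw [ContinuousLinearMap.comp_finsetSum, map_sum]

theorem formsDbl_smulRight {n : ℕ} (b : E →L[ℝ] ℝ) (g : E →L[ℝ] Fm E n) :
    formsDbl (b.smulRight g) = wg b (ContinuousAlternatingMap.alternatizeUncurryFin g) := by
  unfold formsDbl wg
  rw [ContinuousAlternatingMap.alternatizeUncurryFinCLM_apply]
  congr 1
  refine ContinuousLinearMap.ext fun v => ?_
  simp

theorem formsDbl_symm {n : ℕ} {f : E →L[ℝ] E →L[ℝ] Fm E n} (hf : ∀ x y, f x y = f y x) :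
    formsDbl f = 0 :=
  ContinuousAlternatingMap.alternatizeUncurryFin_alternatizeUncurryFinCLM_comp_of_symmetric hf

theorem forms_wg_zero {n : ℕ} (a : E →L[ℝ] ℝ) : wg a (0 : Fm E n) = 0 := by
  have := wg_sum_right (n := n) (∅ : Finset Unit) a fun _ => 0
  simpa using this

theorem forms_hasFDerivAt_smulRight {n : ℕ} {A : E → E →L[ℝ] ℝ} {η : E → Fm E n} {u : E}
    (hA : DifferentiableAt ℝ A u) (hη : DifferentiableAt ℝ η u) :
    ∃ G' : E →L[ℝ] E →L[ℝ] Fm E n, HasFDerivAt (fun x => (A x).smulRight (η x)) G' u ∧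
      ∀ v w, G' v w = A u w • fderiv ℝ η u v + fderiv ℝ A u v w • η u := by
  refine ⟨_, (ContinuousLinearMap.smulRightL ℝ E (Fm E n)).hasFDerivAt_of_bilinear
    hA.hasFDerivAt hη.hasFDerivAt, fun v w => ?_⟩
  simp

theorem forms_differentiableAt_wg {n : ℕ} {A : E → E →L[ℝ] ℝ} {η : E → Fm E n} {u : E}
    (hA : DifferentiableAt ℝ A u) (hη : DifferentiableAt ℝ η u) :
    DifferentiableAt ℝ (fun x => wg (A x) (η x)) u := by
  obtain ⟨G', hG, -⟩ := forms_hasFDerivAt_smulRight hA hη
  exact ((ContinuousAlternatingMap.alternatizeUncurryFinCLM ℝ E ℝ).hasFDerivAt.comp u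
    hG).differentiableAt

/-- Leibniz rule for a function times a form -/
theorem extDeriv_fun_smul_form {n : ℕ} {f : E → ℝ} {η : E → Fm E n} {u : E}
    (hf : DifferentiableAt ℝ f u) (hη : DifferentiableAt ℝ η u) :
    extDeriv (fun u => f u • η u) u = wg (fderiv ℝ f u) (η u) + f u • extDeriv η u := by
  unfold extDeriv wg
  rw [fderiv_fun_smul hf hη, ContinuousAlternatingMap.alternatizeUncurryFin_add,
    ContinuousAlternatingMap.alternatizeUncurryFin_smul]
  exact add_comm _ _

/-- Leibniz rule `d (A ∧ η) = dA ∧ η - A ∧ dη` for closed `η`, when the antisymmetric part of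
the derivative of `A` is that of `∑ q, b q ⊗ a q`.
Write `U = alternatizeUncurryFin`.  `fderiv (wg A η) u v = wg (DA v) (η u) + wg (A u) (Dη v)`.
The bilinear maps `(v, w) ↦ (DA v w - ∑ q, b q v * a q w) • η u` and
`(v, w) ↦ A u w • Dη v + A u v • Dη w` are symmetric, so they are killed by the double
alternatisation (`alternatizeUncurryFin_alternatizeUncurryFinCLM_comp_of_symmetric`), and the
double alternatisation of `(v, w) ↦ A u v • Dη w` is `wg (A u) (extDeriv η u) = 0`. -/
theorem extDeriv_wg {n : ℕ} {A : E → E →L[ℝ] ℝ} {η : E → Fm E n} {u : E}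
    (hA : DifferentiableAt ℝ A u) (hη : DifferentiableAt ℝ η u) (hd : extDeriv η u = 0)
    {κ : Type} [Fintype κ] (b a : κ → E →L[ℝ] ℝ)
    (h : ∀ v w, fderiv ℝ A u v w - fderiv ℝ A u w v = ∑ q, (b q v * a q w - b q w * a q v)) :
    extDeriv (fun u => wg (A u) (η u)) u = ∑ q, wg (b q) (wg (a q) (η u)) := by
  obtain ⟨G', hG, hG'⟩ := forms_hasFDerivAt_smulRight hA hη
  have h1 : extDeriv (fun u => wg (A u) (η u)) u = formsDbl G' := by
    have h2 : HasFDerivAt (fun u => wg (A u) (η u))
        (ContinuousAlternatingMap.alternatizeUncurryFinCLM ℝ E ℝ ∘L G') u :=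
      (ContinuousAlternatingMap.alternatizeUncurryFinCLM ℝ E ℝ).hasFDerivAt.comp u hG
    unfold extDeriv
    rw [h2.fderiv]
    rfl
  have h3 : formsDbl ((A u).smulRight (fderiv ℝ η u)) = 0 := by
    rw [formsDbl_smulRight]
    have : ContinuousAlternatingMap.alternatizeUncurryFin (fderiv ℝ η u) = 0 := hd
    rw [this, forms_wg_zero]
  have h4 : formsDbl (∑ q, (b q).smulRight ((a q).smulRight (η u))) =
      ∑ q, wg (b q) (wg (a q) (η u)) := by
    rw [formsDbl_sum]
    exact Finset.sum_congr rfl fun q _ => formsDbl_smulRight _ _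
  have h5 : formsDbl (G' + (A u).smulRight (fderiv ℝ η u) -
      ∑ q, (b q).smulRight ((a q).smulRight (η u))) = 0 := by
    refine formsDbl_symm fun v w => ?_
    have e : ∀ v w, (G' + (A u).smulRight (fderiv ℝ η u) -
        ∑ q, (b q).smulRight ((a q).smulRight (η u))) v w =
        A u w • fderiv ℝ η u v + A u v • fderiv ℝ η u w +
          (fderiv ℝ A u v w - ∑ q, b q v * a q w) • η u := by
      intro v w
      simp only [ContinuousLinearMap.sub_apply, ContinuousLinearMap.add_apply, hG',
        ContinuousLinearMap.smulRight_apply, ContinuousLinearMap.smul_apply,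
        ContinuousLinearMap.sum_apply, sub_smul, Finset.sum_smul, mul_smul]
      abel
    have e2 : fderiv ℝ A u v w - ∑ q, b q v * a q w = fderiv ℝ A u w v - ∑ q, b q w * a q v := by
      have := h v w
      rw [Finset.sum_sub_distrib] at this
      linarith
    rw [e, e, e2, add_comm (A u w • fderiv ℝ η u v)]
  rw [formsDbl_sub, formsDbl_add, h3, h4, add_zero, sub_eq_zero] at h5
  rw [h1, h5]

/-- `extDeriv_pullback`, `wg_comp`, induction -/
theorem om_pb {A : E' → E' →L[ℝ] ℝ} (hA : ContDiff ℝ ∞ A) {f : E → E'} (hf : ContDiff ℝ ∞ f)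
    (k : ℕ) : om (fun u => (A (f u)).comp (fderiv ℝ f u)) k = pb f (om A k) := by
  induction k with
  | zero =>
    funext u
    ext v
    rfl
  | succ k ih =>
    funext u
    have h1 : (fun u => wg ((A (f u)).comp (fderiv ℝ f u))
        (om (fun u => (A (f u)).comp (fderiv ℝ f u)) k u)) =
        fun u => (th A k (f u)).compContinuousLinearMap (fderiv ℝ f u) := by
      funext x
      rw [ih]
      unfold th pb
      rw [wg_comp]
    show extDeriv (fun u => wg ((A (f u)).comp (fderiv ℝ f u))
        (om (fun u => (A (f u)).comp (fderiv ℝ f u)) k u)) u = _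
    rw [h1, extDeriv_pullback (r := ∞)
      ((contDiff_th hA k).differentiable (by simp)).differentiableAt hf.contDiffAt
      (by simp; exact WithTop.coe_le_coe.2 (le_top : (2 : ℕ∞) ≤ ⊤))]
    rfl

theorem th_pb {A : E' → E' →L[ℝ] ℝ} (hA : ContDiff ℝ ∞ A) {f : E → E'} (hf : ContDiff ℝ ∞ f)
    (k : ℕ) : th (fun u => (A (f u)).comp (fderiv ℝ f u)) k = pb f (th A k) := by
  funext u
  unfold th
  rw [om_pb hA hf]
  unfold pb
  rw [wg_comp]

theorem om_congr {A A' : E → E →L[ℝ] ℝ} {u : E} (h : A =ᶠ[𝓝 u] A') (k : ℕ) :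
    om A k =ᶠ[𝓝 u] om A' k := by
  induction k with
  | zero => exact Filter.EventuallyEq.rfl
  | succ k ih =>
    have h1 : (fun u => wg (A u) (om A k u)) =ᶠ[𝓝 u] fun u => wg (A' u) (om A' k u) := by
      filter_upwards [h, ih] with x h1 h2
      rw [h1, h2]
    exact h1.extDeriv

/-- `d (lam ∧ om) = 0` by `extDeriv_wg` with an empty family -/
theorem om_sub_const {A : E → E →L[ℝ] ℝ} (hA : ContDiff ℝ ∞ A) (lam : E →L[ℝ] ℝ) (k : ℕ) :
    om (fun u => A u - lam) k = om A k := by
  induction k with
  | zero => rfl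
  | succ k ih =>
    funext u
    have hA' : DifferentiableAt ℝ A u := (hA.differentiable (by simp)).differentiableAt
    have ho : DifferentiableAt ℝ (om A k) u :=
      ((contDiff_om hA k).differentiable (by simp)).differentiableAt
    have h1 : extDeriv (fun u => wg ((fun _ => -lam) u) (om A k u)) u = 0 := by
      have := extDeriv_wg (A := fun _ => -lam) (differentiableAt_const _) ho (extDeriv_om hA k u)
        (κ := Empty) (fun q => q.elim) (fun q => q.elim) (by intro v w; simp)
      simpa using this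
    have h2 : (fun u => wg (A u - lam) (om (fun u => A u - lam) k u)) =
        fun u => wg (A u) (om A k u) + wg ((fun _ => -lam) u) (om A k u) := by
      funext x
      rw [ih, sub_eq_add_neg, wg_add_left]
    show extDeriv (fun u => wg (A u - lam) (om (fun u => A u - lam) k u)) u = _
    rw [h2, extDeriv_fun_add (forms_differentiableAt_wg hA' ho)
      (forms_differentiableAt_wg (differentiableAt_const _) ho), h1, add_zero]
    rfl

theorem pb_fun_smul {n : ℕ} (f : E → E') (c : E' → ℝ) (η : E' → Fm E' n) (u : E) :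
    pb f (fun x => c x • η x) u = c (f u) • pb f η u := by
  unfold pb
  ext v
  simp

end Crest.Agent.R192
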