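import Crest.Agent.R192.Defs

/-! Row 192: algebra and calculus of the forms `om` and `th`. -/

set_option autoImplicit false
set_option linter.unusedSectionVars false
set_option linter.unusedVariables false

open scoped ContDiff Matrix Topology
open MeasureTheory

noncomputable section

namespace Crest.Agent.R192

variable {E E' : Type} [NormedAddCommGroup E] [NormedSpace ℝ E] [NormedAddCommGroup E']
  [NormedSpace ℝ E']

theorem dg_eq (k : ℕ) : dg k = 2 * k := by
  induction k with
  | zero => rfl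
  | succ k ih => rw [dg, ih]; ring

theorem wg_apply {n : ℕ} (a : E →L[ℝ] ℝ) (η : Fm E n) (v : Fin (n + 1) → E) :
    wg a η v = ∑ i : Fin (n + 1), (-1) ^ (i : ℕ) * (a (v i) * η (i.removeNth v)) := by
  simp [wg, ContinuousAlternatingMap.alternatizeUncurryFin_apply]

theorem wg_add_left {n : ℕ} (a b : E →L[ℝ] ℝ) (η : Fm E n) :
    wg (a + b) η = wg a η + wg b η := by
  ext v
  simp [wg_apply, add_mul, mul_add, Finset.sum_add_distrib]

theorem wg_sub_left {n : ℕ} (a b : E →L[ℝ] ℝ) (η : Fm E n) :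
    wg (a - b) η = wg a η - wg b η := by
  ext v
  simp [wg_apply, sub_mul, mul_sub, Finset.sum_sub_distrib]

theorem wg_sum_right {n : ℕ} {ι : Type} (s : Finset ι) (a : E →L[ℝ] ℝ) (η : ι → Fm E n) :
    wg a (∑ q ∈ s, η q) = ∑ q ∈ s, wg a (η q) := by
  ext v
  simp only [wg_apply, ContinuousAlternatingMap.sum_apply, Finset.mul_sum]
  exact Finset.sum_comm

theorem wg_comp {n : ℕ} (a : E' →L[ℝ] ℝ) (η : Fm E' n) (T : E →L[ℝ] E') :
    (wg a η).compContinuousLinearMap T = wg (a.comp T) (η.compContinuousLinearMap T) := by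
  ext v
  simp only [wg_apply, ContinuousAlternatingMap.compContinuousLinearMap_apply,
    ContinuousLinearMap.comp_apply, Function.comp_apply]
  rfl

/-- `wg` is a continuous bilinear map (`alternatizeUncurryFinCLM`, `ContinuousLinearMap.smulRightL`) -/
theorem contDiff_wg {n : ℕ} {A : E → E →L[ℝ] ℝ} {η : E → Fm E n} (hA : ContDiff ℝ ∞ A)
    (hη : ContDiff ℝ ∞ η) : ContDiff ℝ ∞ fun u => wg (A u) (η u) := by
  exact (ContinuousAlternatingMap.alternatizeUncurryFinCLM ℝ E ℝ).contDiff.comp (hA.smulRight hη)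

theorem contDiff_extDeriv {n : ℕ} {η : E → Fm E n} (hη : ContDiff ℝ ∞ η) :
    ContDiff ℝ ∞ (extDeriv η) := by
  exact (ContinuousAlternatingMap.alternatizeUncurryFinCLM ℝ E ℝ).contDiff.comp
    (hη.fderiv_right (m := ∞) (by simp))

theorem contDiff_om {A : E → E →L[ℝ] ℝ} (hA : ContDiff ℝ ∞ A) (k : ℕ) :
    ContDiff ℝ ∞ (om A k) := by
  induction k with
  | zero => exact contDiff_const
  | succ k ih => exact contDiff_extDeriv (contDiff_wg hA ih)

theorem contDiff_th {A : E → E →L[ℝ] ℝ} (hA : ContDiff ℝ ∞ A) (k : ℕ) :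
    ContDiff ℝ ∞ (th A k) := by
  exact contDiff_wg hA (contDiff_om hA k)

theorem om_succ (A : E → E →L[ℝ] ℝ) (k : ℕ) : om A (k + 1) = extDeriv (th A k) := rfl

theorem om_zero_apply (A : E → E →L[ℝ] ℝ) (u : E) (v : Fin (dg 0) → E) : om A 0 u v = 1 := by
  rfl

/-- constant for `k = 0`, `extDeriv_extDeriv` otherwise -/
theorem extDeriv_om {A : E → E →L[ℝ] ℝ} (hA : ContDiff ℝ ∞ A) (k : ℕ) (u : E) :
    extDeriv (om A k) u = 0 := by
  cases k with
  | zero =>
    change ContinuousAlternatingMap.alternatizeUncurryFinCLM ℝ E ℝ (fderiv ℝ (fun _ : E =>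
      (ContinuousAlternatingMap.constOfIsEmpty ℝ E (Fin 0) (1 : ℝ) : Fm E 0)) u) = 0
    rw [fderiv_fun_const, Pi.zero_apply, map_zero]
  | succ k =>
    exact extDeriv_extDeriv_apply (contDiff_th hA k).contDiffAt
      (by rw [minSmoothness_of_isRCLikeNormedField]; exact WithTop.coe_le_coe.2 le_top)

end Crest.Agent.R192
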