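import Crest.Agent.R192.Tim0

/-! Row 192: combinatorics of times and loops. -/

set_option autoImplicit false
set_option linter.unusedSectionVars false
set_option linter.unusedVariables false

open scoped ContDiff Matrix Topology
open MeasureTheory

noncomputable section

namespace Crest.Agent.R192

section Loops
variable {G : Type} [Group G] {p : ℕ}

@[simp] theorem Loop.rot_g (L : Loop G p) : L.rot.g = L.g := rfl
@[simp] theorem Loop.face_g (i : Fin (p + 2)) (L : Loop G (p + 1)) : (L.face i).g = L.g := rfl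
@[simp] theorem Loop.smul_g (h : G) (L : Loop G p) : (L.smul h).g = h * L.g * h⁻¹ := rfl

@[simp] theorem Loop.rot_x_castSucc (L : Loop G p) (j : Fin p) :
    L.rot.x j.castSucc = L.x j.succ := by
  simp only [Loop.rot]
  rw [Fin.succ_castSucc, Fin.snoc_castSucc]

@[simp] theorem Loop.rot_x_last (L : Loop G p) : L.rot.x (Fin.last p) = L.g * L.x 0 := by
  simp only [Loop.rot]
  rw [Fin.succ_last, Fin.snoc_last]

@[simp] theorem Loop.prv_zero (L : Loop G p) : L.prv 0 = L.g⁻¹ * L.x (Fin.last p) := by
  simp only [Loop.prv]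
  rw [Fin.castSucc_zero, Fin.cons_zero]

@[simp] theorem Loop.prv_succ (L : Loop G p) (j : Fin p) : L.prv j.succ = L.x j.castSucc := by
  simp only [Loop.prv]
  rw [← Fin.succ_castSucc, Fin.cons_succ]

theorem tim_prv_rot (L : Loop G p) (l : Fin (p + 1)) : L.rot.prv l = L.x l := by
  refine Fin.cases ?_ (fun j => ?_) l
  · rw [Loop.prv_zero, Loop.rot_x_last, Loop.rot_g]
    group
  · rw [Loop.prv_succ, Loop.rot_x_castSucc]

theorem Loop.jump_rot (L : Loop G p) (l : Fin (p + 1)) : L.rot.jump l = L.jump (l + 1) := by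
  simp only [Loop.jump]
  rw [tim_prv_rot]
  refine Fin.lastCases ?_ (fun j => ?_) l
  · rw [Fin.last_add_one, Loop.rot_x_last, Loop.prv_zero]
    group
  · rw [Fin.coeSucc_eq_succ, Loop.rot_x_castSucc, Loop.prv_succ]

theorem Loop.jump_smul (h : G) (L : Loop G p) : (L.smul h).jump = L.jump := by
  funext l
  simp only [Loop.jump]
  refine Fin.cases ?_ (fun j => ?_) l
  · rw [Loop.prv_zero, Loop.prv_zero]
    simp only [Loop.smul]
    group
  · rw [Loop.prv_succ, Loop.prv_succ]
    simp only [Loop.smul]
    group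

theorem Loop.face_smul (i : Fin (p + 2)) (h : G) (L : Loop G (p + 1)) :
    (L.smul h).face i = (L.face i).smul h := by
  rfl

theorem Loop.rot_smul (h : G) (L : Loop G p) : (L.smul h).rot = L.rot.smul h := by
  refine Loop.ext rfl (funext fun l => ?_)
  refine Fin.lastCases ?_ (fun j => ?_) l
  · rw [Loop.rot_x_last]
    simp only [Loop.smul]
    rw [Loop.rot_x_last]
    group
  · rw [Loop.rot_x_castSucc]
    simp only [Loop.smul]
    rw [Loop.rot_x_castSucc]

theorem prod_jump_rot (W : G → ℝ) (L : Loop G p) :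
    ∏ l, W (L.rot.jump l) = ∏ l, W (L.jump l) := by
  simp only [Loop.jump_rot]
  exact Fintype.prod_equiv (Equiv.addRight 1) _ _ fun l => rfl

theorem tim_prv_face_le (i : Fin (p + 1)) (L : Loop G (p + 1)) (l : Fin (p + 1)) (hl : l ≤ i) :
    (L.face i.castSucc).prv l = L.prv l.castSucc := by
  revert hl
  refine Fin.cases ?_ (fun k => ?_) l <;> intro hl
  · rw [Fin.castSucc_zero, Loop.prv_zero, Loop.prv_zero, Loop.face_g]
    simp only [Loop.face]
    rw [Fin.succAbove_castSucc_of_le _ _ (Fin.le_last i), Fin.succ_last]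
  · rw [← Fin.succ_castSucc, Loop.prv_succ, Loop.prv_succ]
    simp only [Loop.face]
    rw [Fin.succAbove_castSucc_of_lt _ _ (lt_of_lt_of_le Fin.castSucc_lt_succ hl)]

theorem tim_jump_face (i : Fin (p + 2)) (L : Loop G (p + 1)) : ∃ l₀ : Fin (p + 1),
    (L.face i).jump l₀ = L.jump i * L.jump (i.succAbove l₀) ∧
      ∀ l, l ≠ l₀ → (L.face i).jump l = L.jump (i.succAbove l) := by
  refine Fin.lastCases ?_ (fun i => ?_) i
  · refine ⟨0, ?_, fun l => ?_⟩
    · simp only [Loop.jump, Fin.succAbove_last, Fin.castSucc_zero, Loop.prv_zero, Loop.face_g]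
      have e : L.prv (Fin.last (p + 1)) = L.x (Fin.last p).castSucc := by
        rw [← Fin.succ_last, Loop.prv_succ]
      rw [e]
      simp only [Loop.face, Fin.succAbove_last, Fin.castSucc_zero]
      group
    · refine Fin.cases (fun h => absurd rfl h) (fun k _ => ?_) l
      simp only [Loop.jump, Fin.succAbove_last, Loop.prv_succ]
      rw [← Fin.succ_castSucc, Loop.prv_succ]
      simp only [Loop.face, Fin.succAbove_last, Fin.succ_castSucc]
  · refine ⟨i, ?_, fun l hl => ?_⟩
    · simp only [Loop.jump]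
      rw [tim_prv_face_le i L i le_rfl, Fin.succAbove_castSucc_self, Loop.prv_succ]
      simp only [Loop.face, Fin.succAbove_castSucc_self]
      group
    · rcases lt_or_gt_of_ne hl with h | h
      · simp only [Loop.jump]
        rw [tim_prv_face_le i L l h.le]
        simp only [Loop.face]
        rw [Fin.succAbove_castSucc_of_lt _ _ h]
      · revert h
        refine Fin.cases (fun h => absurd h (Fin.not_lt_zero _)) (fun k h => ?_) l
        simp only [Loop.jump]
        rw [Loop.prv_succ]
        simp only [Loop.face]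
        rw [Fin.succAbove_castSucc_of_le _ _ h.le, Loop.prv_succ,
          Fin.succAbove_castSucc_of_le _ _ (Fin.le_castSucc_iff.2 h), Fin.succ_castSucc]

/-- deleting a point merges two cyclically adjacent jumps -/
theorem prod_jump_face_le {W : G → ℝ} (h0 : ∀ x, 0 ≤ W x) (hW : ∀ x y, W (x * y) ≤ W x * W y)
    (i : Fin (p + 2)) (L : Loop G (p + 1)) :
    ∏ l, W ((L.face i).jump l) ≤ ∏ l, W (L.jump l) := by
  obtain ⟨l₀, h1, h2⟩ := tim_jump_face i L
  rw [Fin.prod_univ_succAbove _ i, ← Finset.mul_prod_erase _ _ (Finset.mem_univ l₀),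
    ← Finset.mul_prod_erase _ (fun l => W (L.jump (i.succAbove l))) (Finset.mem_univ l₀),
    ← mul_assoc, h1]
  rw [Finset.prod_congr rfl fun l hl => by rw [h2 l (Finset.ne_of_mem_erase hl)]]
  exact mul_le_mul_of_nonneg_right (hW _ _) (Finset.prod_nonneg fun l _ => h0 _)

theorem jump_loopOf (h : Fin (p + 1) → G) : (loopOf h).jump = h := by
  funext l
  simp only [Loop.jump]
  refine Fin.cases ?_ (fun j => ?_) l
  · rw [Loop.prv_zero]
    simp only [loopOf]
    have e : Fin.partialProd h (Fin.last p).succ = (List.ofFn h).prod := by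
      simp only [Fin.partialProd]
      rw [List.take_of_length_le (by simp)]
    rw [e, Fin.partialProd_succ]
    simp
  · rw [Loop.prv_succ]
    simp only [loopOf]
    rw [Fin.partialProd_succ h j.succ, Fin.succ_castSucc]
    group

/-- `face`: split off the term `l = i` with `Fin.sum_univ_succAbove` (its weights vanish).
`rot`: `Fin.sum_univ_castSucc` against `Fin.sum_univ_succ`, and shift `m` in the last term.
`per`: shift `m` (`Equiv.addRight`).  No summability is needed. -/
theorem eqv_fld (Q : ℝ → ℝ) (ℓ : G → ℝ) : Eqv (fld Q ℓ) := by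
  refine ⟨fun p L i s ξ z => ?_, fun p L s ξ z => ?_, fun p L h q z => ?_,
    fun p L s ξ t z => ?_, fun p L s ξ z => ?_⟩
  · simp only [fld, avg, wt]
    rw [Fin.sum_univ_succAbove _ i]
    simp only [nxt_faceT_self, sub_self, zero_mul, tsum_zero, zero_add, faceT_succAbove,
      nxt_faceT_succAbove]
    rfl
  · simp only [fld, avg, wt]
    rw [Fin.sum_univ_castSucc, Fin.sum_univ_succ, add_comm]
    simp only [nxt_castSucc, nxt_last, Loop.rot_x_castSucc, Loop.rot_x_last, Loop.rot_g]
    congr 1
    rw [← (Equiv.addRight (1 : ℤ)).tsum_eq fun m : ℤ =>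
      (Q (s - ξ 0 - m) - Q (s - nxt ξ 0 - m)) * ℓ ((L.g ^ m * L.x 0)⁻¹ * z)]
    refine tsum_congr fun m => ?_
    simp only [Equiv.coe_addRight, Int.cast_add, Int.cast_one, zpow_add_one, mul_assoc]
    congr 3 <;> ring
  · simp only [fld, avg, Loop.smul, conj_zpow]
    refine Finset.sum_congr rfl fun l _ => tsum_congr fun m => ?_
    congr 2
    group
  · simp only [fld, avg, wt, nxt_add_const]
    refine Finset.sum_congr rfl fun l _ => tsum_congr fun m => ?_
    congr 3 <;> ring
  · simp only [fld, avg, wt]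
    refine Finset.sum_congr rfl fun l _ => ?_
    rw [← (Equiv.addRight (1 : ℤ)).tsum_eq]
    refine tsum_congr fun m => ?_
    simp only [Equiv.coe_addRight, Int.cast_add, Int.cast_one]
    congr 2
    · congr 1; ring
    · congr 1; ring
    · group

end Loops

end Crest.Agent.R192
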