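import Crest.Agent.R192.SmInt
import Crest.Agent.R192.Cell
import Crest.Agent.R192.Tim

/-! Row 192: the generating function attached to a potential and an observable. -/

set_option autoImplicit false
set_option linter.unusedSectionVars false
set_option linter.unusedVariables false

open scoped ContDiff Matrix Topology
open MeasureTheory

noncomputable section

namespace Crest.Agent.R192

variable {G : Type} [Group G] {p : ℕ} {φ : ℝ → ℝ} {V U : Fam G} {L : Loop G p}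

theorem gen_ef_div (W f : G → ℝ) (a : ℝ) : Ef W (fun z => f z / a) = Ef W f / a := by
  have : (fun z => f z / a) = fun z => a⁻¹ * f z := by funext z; ring
  rw [this, Ef, ex_const_mul, Ef]
  ring

theorem gen_cv_div (W f k : G → ℝ) (a b : ℝ) :
    Cv W (fun z => f z / a) (fun z => k z / b) = Cv W f k / (a * b) := by
  have : (fun z => f z / a * (k z / b)) = fun z => f z * k z / (a * b) := by funext z; ring
  rw [Cv, this, gen_ef_div, gen_ef_div, gen_ef_div, Cv]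
  ring

theorem gen_cv_comm (W f k : G → ℝ) : Cv W f k = Cv W k f := by
  have : (fun z => f z * k z) = fun z => k z * f z := by funext z; ring
  rw [Cv, Cv, this]
  ring

theorem gen_ef_zero (W : G → ℝ) : Ef W (fun _ => 0) = 0 := by
  simp [Ef, Ex]

theorem gen_cv_zero (W k : G → ℝ) : Cv W (fun _ => 0) k = 0 := by
  simp [Cv, Ef, Ex]

theorem gen_ex_tl {W X : G → ℝ} {Y : G → Tm p} {l : Fin (p + 1)} (hW : Prob (gibbs W))
    (hX : Bdd X) (hY : Bdd fun z => Y z l) :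
    Ex (gibbs W) (fun z => X z * tl φ W Y z l) = φ (Ff W) * Cv W X (fun z => Y z l) -
      deriv φ (Ff W) * (Ef W X * Ef W fun z => Y z l) := by
  have e : (fun z => X z * tl φ W Y z l) = fun z => φ (Ff W) * (X z * Y z l) -
      ((φ (Ff W) + deriv φ (Ff W)) * Ef W fun y => Y y l) * X z := by
    funext z
    simp only [tl]
    ring
  rw [e, ex_sub (hW.summable_mul ((Bdd.const _).mul (hX.mul hY)))
    (hW.summable_mul ((Bdd.const _).mul hX)), ex_const_mul, ex_const_mul]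
  simp only [Cv, Ef]
  ring

theorem gen_ctM (hφ : ContDiff ℝ ∞ φ) {W : ℝ → G → ℝ} (hW : SmP W) {X Y : ℝ → G → Tm p}
    (hX : ∀ l, SmF fun s z => X s z l) (hY : ∀ l, SmF fun s z => Y s z l) :
    CtM (fun s => gibbs (W s)) X fun s => tl φ (W s) (Y s) := by
  intro i l
  have hφ' : ContDiff ℝ ∞ (deriv φ) := (contDiff_infty_iff_deriv.1 hφ).2
  have h1 : ContDiff ℝ ∞ fun s => Ef (W s) fun y => Y s y l := hW.contDiff_Ef (hY l)
  have h2 : SmF fun s z => tl φ (W s) (Y s) z l :=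
    ((SmF.scalar (hφ.comp hW.contDiff_Ff)).mul ((hY l).sub (SmF.scalar h1))).sub
      (SmF.scalar ((hφ'.comp hW.contDiff_Ff).mul h1))
  exact (hW.contDiff_Ef ((hX i).mul h2)).continuous

theorem gen_smP_time (hV : SmP (V p L)) (ξ : Tm p) : SmP fun s : ℝ => V p L (s, ξ) :=
  hV.comp (T := fun s : ℝ => (s, ξ)) (by fun_prop)

theorem contDiff_gen (hφ : ContDiff ℝ ∞ φ) (hV : SmP (V p L)) (hU : SmF (U p L)) :
    ContDiff ℝ ∞ (gen φ V U p L) := by
  have hV' : SmP fun q : ℝ × Tm p × Tm p => V p L (q.1, q.2.1) :=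
    hV.comp (T := fun q : ℝ × Tm p × Tm p => (q.1, q.2.1)) (by fun_prop)
  have hU' : SmF fun q : ℝ × Tm p × Tm p => U p L (q.1, q.2.2) :=
    hU.comp (T := fun q : ℝ × Tm p × Tm p => (q.1, q.2.2)) (by fun_prop)
  exact (contDiff_int01 ((hφ.comp hV'.contDiff_Ff).mul (hV'.contDiff_Ef hU'))).neg

/-- `smul`: `Ff_equiv`, `Ef_equiv` with `Equiv.mulLeft h`.  `shift`: the integrand at
`(ξ + t, ζ + t)` and time `s` is the integrand at `(ξ, ζ)` and time `s - t`, and it is `1`-periodic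
in `s` by `Eqv.per` (`Function.Periodic.intervalIntegral_add_eq`). -/
theorem natG_gen (hφ : ContDiff ℝ ∞ φ) (hEV : Eqv V) (hEU : Eqv U) (hV : ∀ p L, SmP (V p L))
    (hU : ∀ p L, SmF (U p L)) : NatG (gen φ V U) := by
  refine ⟨fun p L => contDiff_gen hφ (hV p L) (hU p L), ?_, ?_, ?_, ?_⟩
  · intro p L i ξ ζ
    have h1 : ∀ s, V (p + 1) L (s, faceT i ξ) = V p (L.face i) (s, ξ) := fun s =>
      funext (hEV.face p L i s ξ)
    have h2 : ∀ s, U (p + 1) L (s, faceT i ζ) = U p (L.face i) (s, ζ) := fun s =>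
      funext (hEU.face p L i s ζ)
    simp only [gen, h1, h2]
  · intro p L ξ ζ
    have h1 : ∀ s, V p L.rot (s, nxt ξ) = V p L (s, ξ) := fun s => funext (hEV.rot p L s ξ)
    have h2 : ∀ s, U p L.rot (s, nxt ζ) = U p L (s, ζ) := fun s => funext (hEU.rot p L s ζ)
    simp only [gen, h1, h2]
  · intro p L h
    funext w
    have h1 : ∀ q, Ff (V p (L.smul h) q) = Ff (V p L q) := fun q => by
      rw [← Ff_equiv (Equiv.mulLeft h)]
      simp only [Equiv.coe_mulLeft, hEV.smul]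
    have h2 : ∀ q q', Ef (V p (L.smul h) q) (U p (L.smul h) q') = Ef (V p L q) (U p L q') :=
      fun q q' => by
        rw [← Ef_equiv (Equiv.mulLeft h)]
        simp only [Equiv.coe_mulLeft, hEV.smul, hEU.smul]
    simp only [gen, h1, h2]
  · intro p L ξ ζ t
    set I : ℝ → ℝ := fun s => φ (Ff (V p L (s, ξ))) * Ef (V p L (s, ξ)) (U p L (s, ζ)) with hI
    have hper : Function.Periodic I 1 := by
      intro s
      have h1 : Ff (V p L (s + 1, ξ)) = Ff (V p L (s, ξ)) := hEV.periodic_Ff L ξ s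
      have h2 : Ef (V p L (s + 1, ξ)) (U p L (s + 1, ζ)) = Ef (V p L (s, ξ)) (U p L (s, ζ)) := by
        rw [← Ef_equiv (Equiv.mulLeft L.g)]
        simp only [Equiv.coe_mulLeft, hEV.per, hEU.per]
      simp only [hI, h1, h2]
    have h1 : ∀ s, V p L (s, fun l => ξ l + t) = V p L (s - t, ξ) := fun s => by
      funext z
      rw [← hEV.shift p L (s - t) ξ t z, sub_add_cancel]
    have h2 : ∀ s, U p L (s, fun l => ζ l + t) = U p L (s - t, ζ) := fun s => by
      funext z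
      rw [← hEU.shift p L (s - t) ζ t z, sub_add_cancel]
    simp only [gen, h1, h2]
    congr 1
    have h3 := intervalIntegral.integral_comp_sub_right (a := 0) (b := 1) I t
    have h4 := hper.intervalIntegral_add_eq (0 - t) 0
    rw [show 0 - t + 1 = 1 - t by ring, zero_add] at h4
    exact h3.trans h4

theorem cov_gen (hφ : ContDiff ℝ ∞ φ) (hV : SmP (V p L)) (hU : SmF (U p L)) (ξ' ξ c : Tm p) :
    fderiv ℝ (fun ζ => gen φ V U p L (ξ', ζ)) ξ c
      = -∫ s in (0 : ℝ)..1, φ (Ff (V p L (s, ξ'))) * Ef (V p L (s, ξ')) (dF (U p L) (s, ξ) c) := by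
  have hV' : SmP fun q : ℝ × Tm p => V p L (q.1, ξ') :=
    hV.comp (T := fun q : ℝ × Tm p => (q.1, ξ')) (by fun_prop)
  have hΦ : ContDiff ℝ ∞ fun q : ℝ × Tm p =>
      φ (Ff (V p L (q.1, ξ'))) * Ef (V p L (q.1, ξ')) (U p L q) :=
    (hφ.comp hV'.contDiff_Ff).mul (hV'.contDiff_Ef hU)
  simp only [gen]
  rw [fderiv_fun_neg, _root_.neg_apply, fderiv_int01 hΦ]
  congr 1
  refine intervalIntegral.integral_congr fun s _ => ?_
  have hVs : SmP fun _ : Tm p => V p L (s, ξ') :=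
    hV.comp (T := fun _ : Tm p => (s, ξ')) (by fun_prop)
  have hUs : SmF fun ζ : Tm p => U p L (s, ζ) :=
    hU.comp (T := fun ζ : Tm p => (s, ζ)) (by fun_prop)
  have h2 := hVs.fderiv_Ef hUs ξ c
  simp only [fderiv_fun_const, Pi.zero_apply, _root_.zero_apply, gen_cv_zero,
    sub_zero] at h2
  have d2 : DifferentiableAt ℝ (fun ζ : Tm p => Ef (V p L (s, ξ')) (U p L (s, ζ))) ξ :=
    (hVs.contDiff_Ef hUs).differentiable (by simp) ξ
  simp only
  rw [fderiv_const_mul d2, _root_.smul_apply, smul_eq_mul, h2]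
  rfl

theorem ctM_gen (hφ : ContDiff ℝ ∞ φ) (hV : SmP (V p L)) (hU : SmF (U p L)) (r ξ : Tm p) :
    CtM (fun s => gibbs (V p L (s, ξ))) (dv (V p L) r ξ)
      fun s => tl φ (V p L (s, ξ)) (dv (U p L) r ξ s) := by
  exact gen_ctM hφ (gen_smP_time hV ξ) (hV.dv r ξ) (hU.dv r ξ)

theorem gen_mixF (hφ : ContDiff ℝ ∞ φ) (hV : SmP (V p L)) (hU : SmF (U p L)) (ξ c c' : Tm p) :
    mixF (gen φ V U p L) ξ c c' = ∫ s in (0 : ℝ)..1,
      (φ (Ff (V p L (s, ξ))) * Cv (V p L (s, ξ)) (dF (V p L) (s, ξ) c) (dF (U p L) (s, ξ) c') -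
        deriv φ (Ff (V p L (s, ξ))) * (Ef (V p L (s, ξ)) (dF (V p L) (s, ξ) c) *
          Ef (V p L (s, ξ)) (dF (U p L) (s, ξ) c'))) := by
  unfold mixF
  simp_rw [cov_gen hφ hV hU]
  have hD : SmF fun q : ℝ × Tm p => dF (U p L) (q.1, ξ) c' :=
    (hU.dF c').comp (T := fun q : ℝ × Tm p => (q.1, ξ)) (by fun_prop)
  have hΦ : ContDiff ℝ ∞ fun q : ℝ × Tm p =>
      φ (Ff (V p L q)) * Ef (V p L q) (dF (U p L) (q.1, ξ) c') :=
    (hφ.comp hV.contDiff_Ff).mul (hV.contDiff_Ef hD)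
  rw [fderiv_fun_neg, _root_.neg_apply, fderiv_int01 hΦ,
    ← intervalIntegral.integral_neg]
  refine intervalIntegral.integral_congr fun s _ => ?_
  have hVs : SmP fun ξ' : Tm p => V p L (s, ξ') :=
    hV.comp (T := fun ξ' : Tm p => (s, ξ')) (by fun_prop)
  have hDs : SmF fun (_ : Tm p) z => dF (U p L) (s, ξ) c' z := SmF.const ((hU.dF c').bdd (s, ξ))
  have h1 := hVs.fderiv_Ff ξ c
  have h2 := hVs.fderiv_Ef hDs ξ c
  simp only [fderiv_fun_const, Pi.zero_apply, _root_.zero_apply, gen_ef_zero,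
    zero_sub] at h2
  have d1 : DifferentiableAt ℝ (fun ξ' : Tm p => Ff (V p L (s, ξ'))) ξ :=
    hVs.contDiff_Ff.differentiable (by simp) ξ
  have d2 : DifferentiableAt ℝ (fun ξ' : Tm p => Ef (V p L (s, ξ')) (dF (U p L) (s, ξ) c')) ξ :=
    (hVs.contDiff_Ef hDs).differentiable (by simp) ξ
  have d3 : HasDerivAt φ (deriv φ (Ff (V p L (s, ξ)))) (Ff (V p L (s, ξ))) :=
    (hφ.differentiable (by simp) _).hasDerivAt
  have d4 := (d3.comp_hasFDerivAt ξ d1.hasFDerivAt).mul d2.hasFDerivAt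
  have d5 : fderiv ℝ (fun ξ' : Tm p => φ (Ff (V p L (s, ξ'))) *
      Ef (V p L (s, ξ')) (dF (U p L) (s, ξ) c')) ξ = _ := d4.fderiv
  simp only
  rw [d5]
  simp only [_root_.add_apply, _root_.smul_apply, smul_eq_mul,
    Function.comp_apply, h1, h2]
  unfold dF
  ring

/-- differentiate `cov_gen` in `ξ'` (`fderiv_int01`, `SmP.fderiv_Ff`, `SmP.fderiv_Ef`):
`mixF c c' = ∫ φ(F) Cov(dV c, dU c') - φ'(F) E[dV c] E[dU c']` -/
theorem mix_gen (hφ : ContDiff ℝ ∞ φ) (hV : SmP (V p L)) (hU : SmF (U p L)) (r ξ : Tm p) :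
    mix (gen φ V U p L) r ξ = mom 0 1 (fun s => gibbs (V p L (s, ξ))) (dv (V p L) r ξ)
      fun s => tl φ (V p L (s, ξ)) (dv (U p L) r ξ s) := by
  ext i l
  simp only [mix, mom, Matrix.of_apply]
  rw [gen_mixF hφ hV hU, ← intervalIntegral.integral_div]
  refine intervalIntegral.integral_congr fun s _ => ?_
  rw [gen_ex_tl (prob_gibbs (hV.summable _)) ((hV.dv r ξ i).bdd s) ((hU.dv r ξ l).bdd s)]
  simp only [dv]
  rw [gen_cv_div, gen_ef_div, gen_ef_div]
  ring

theorem ctM_gen_one (hV : SmP (V p L)) (hU : SmF (U p L)) (r ξ : Tm p) :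
    CtM (fun s => gibbs (V p L (s, ξ))) (dv (U p L) r ξ)
      fun s => tl (fun _ => 1) (V p L (s, ξ)) (dv (V p L) r ξ s) := by
  exact gen_ctM contDiff_const (gen_smP_time hV ξ) (hU.dv r ξ) (hV.dv r ξ)

/-- the covariance is symmetric -/
theorem mix_gen_one (hV : SmP (V p L)) (hU : SmF (U p L)) (r ξ : Tm p) :
    (mix (gen (fun _ => 1) V U p L) r ξ)ᵀ
      = mom 0 1 (fun s => gibbs (V p L (s, ξ))) (dv (U p L) r ξ)
        fun s => tl (fun _ => 1) (V p L (s, ξ)) (dv (V p L) r ξ s) := by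
  ext i l
  simp only [mix, mom, Matrix.of_apply, Matrix.transpose_apply]
  rw [gen_mixF contDiff_const hV hU, ← intervalIntegral.integral_div]
  refine intervalIntegral.integral_congr fun s _ => ?_
  rw [gen_ex_tl (prob_gibbs (hV.summable _)) ((hU.dv r ξ i).bdd s) ((hV.dv r ξ l).bdd s)]
  simp only [dv]
  rw [gen_cv_div, gen_cv_comm]
  simp only [deriv_const, zero_mul, sub_zero, one_mul]
  rw [mul_comm]

theorem nuc_gen (hφ : ContDiff ℝ ∞ φ) (hV : SmP (V p L)) (hU : SmF (U p L)) {r ξ : Tm p}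
    {A B c : ℝ} (h1 : ∀ x, |φ x| ≤ 1) (h2 : ∀ x, |deriv φ x| ≤ c)
    (hA : VB A (dv (V p L) r ξ)) (hB : VB B (dv (U p L) r ξ)) :
    NucLe (mix (gen φ V U p L) r ξ) ((2 + c) * √(A * B)) := by
  have hc : 0 ≤ 2 + c := by linarith [(abs_nonneg _).trans (h2 0)]
  have hμ : ∀ s, Prob (gibbs (V p L (s, ξ))) := fun s => prob_gibbs (hV.summable _)
  have h := nuc_mom hμ hA (hB.tl hμ h1 h2) (ctM_gen hφ hV hU r ξ)
  rw [mix_gen hφ hV hU]
  have e : √(A * ((2 + c) ^ 2 * B)) = (2 + c) * √(A * B) := by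
    rw [mul_left_comm, Real.sqrt_mul (sq_nonneg _), Real.sqrt_sq hc]
  rwa [e] at h

theorem covv_gen_le (hφ : ContDiff ℝ ∞ φ) (hV : SmP (V p L)) (hU : SmF (U p L)) {r ξ : Tm p}
    {B : ℝ} (h1 : ∀ x, |φ x| ≤ 1) (hB : VB B (dv (U p L) r ξ)) :
    nrm (covv (gen φ V U p L) r ξ) ≤ √B := by
  have hμ : ∀ s, Prob (gibbs (V p L (s, ξ))) := fun s => prob_gibbs (hV.summable _)
  have hVs := gen_smP_time hV ξ
  have h := nrm_int_ex_le hμ hB (a := fun s => -φ (Ff (V p L (s, ξ))))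
    (fun s => by rw [abs_neg]; exact h1 _) fun l =>
      ((hφ.comp hVs.contDiff_Ff).neg.mul (hVs.contDiff_Ef (hU.dv r ξ l))).continuous
  refine le_of_eq_of_le ?_ h
  congr 1
  funext l
  simp only [covv, cov]
  rw [cov_gen hφ hV hU, ← intervalIntegral.integral_neg, ← intervalIntegral.integral_div]
  refine intervalIntegral.integral_congr fun s _ => ?_
  have := gen_ef_div (V p L (s, ξ)) (dF (U p L) (s, ξ) (Pi.single l 1)) (r l)
  simp only [dv]
  unfold Ef at this ⊢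
  rw [this]
  ring

/-- `cov_gen` and Gibbs' inequality (`W - V` is bounded, being a derivative of `U`) -/
theorem en_gen_ge (hφ : ContDiff ℝ ∞ φ) (h0 : ∀ x, 0 ≤ φ x) (hV : SmP (V p L))
    (hU : SmF (U p L)) {W : Fam G} (hW : SmP (W p L)) (ξ : Tm p)
    (h : ∀ s z, dF (U p L) (s, ξ) (fun _ => 1) z = V p L (s, ξ) z - W p L (s, ξ) z) :
    ∫ s in (0 : ℝ)..1, φ (Ff (V p L (s, ξ))) * (Ff (W p L (s, ξ)) - Ff (V p L (s, ξ)))
      ≤ en (gen φ V U p L) ξ := by
  have hVs := gen_smP_time hV ξ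
  have hWs := gen_smP_time hW ξ
  have hD : SmF fun s : ℝ => dF (U p L) (s, ξ) fun _ => 1 :=
    (hU.dF _).comp (T := fun s : ℝ => (s, ξ)) (by fun_prop)
  simp only [en, cov]
  rw [cov_gen hφ hV hU, ← intervalIntegral.integral_neg]
  refine intervalIntegral.integral_mono_on zero_le_one
    (((hφ.comp hVs.contDiff_Ff).mul
      (hWs.contDiff_Ff.sub hVs.contDiff_Ff)).continuous.intervalIntegrable _ _)
    (((hφ.comp hVs.contDiff_Ff).mul (hVs.contDiff_Ef hD)).neg.continuous.intervalIntegrable _ _)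
    fun s _ => ?_
  have e : (fun z => W p L (s, ξ) z - V p L (s, ξ) z) =
      fun z => -dF (U p L) (s, ξ) (fun _ => 1) z := by
    funext z
    rw [h]
    ring
  have hb : Bdd fun z => W p L (s, ξ) z - V p L (s, ξ) z := by
    rw [e]
    exact (hD.bdd s).neg
  have g := gibbs_ineq (hV.summable (s, ξ)) (hW.summable (s, ξ))
    ((prob_gibbs (hV.summable _)).summable_mul hb)
  rw [e, Ef, ex_neg] at g
  rw [← mul_neg]
  exact mul_le_mul_of_nonneg_left g (h0 _)

end Crest.Agent.R192
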