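import Crest.Agent.R192.Two

/-! Row 192: comparison of free energies at different scales. -/

set_option autoImplicit false
set_option linter.unusedSectionVars false
set_option linter.unusedVariables false

open scoped ContDiff Matrix Topology
open MeasureTheory

noncomputable section

namespace Crest.Agent.R192

variable {G : Type} [Group G] {p : ℕ} {ℓ : G → ℝ} {γ T Z a b : ℝ}

theorem geo0_trc_le (hγ : 0 ≤ γ) (x : G) : trc ℓ γ T x ≤ γ * ℓ x :=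
  mul_le_mul_of_nonneg_left (min_le_left _ _) hγ

theorem geo0_bdd (hℓ : IsLen ℓ) (hγ : 0 ≤ γ) (hT : 0 ≤ T) (z : G) :
    Bdd fun y => trc ℓ γ T (y⁻¹ * z) :=
  ⟨γ * T, fun y => by
    rw [abs_of_nonneg ((hℓ.trc hγ hT).nonneg _)]
    exact mul_le_mul_of_nonneg_left (min_le_right _ _) hγ⟩

theorem geo0_integrable {Q f : ℝ → ℝ} {h w : ℝ} (hQ : KB Q h w) (hc : Continuous Q)
    (hf : Continuous f) : Integrable fun v => Q v * f v := by
  refine (hc.mul hf).integrable_of_hasCompactSupport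
    (HasCompactSupport.intro (isCompact_Icc (a := -w) (b := w)) fun v hv => ?_)
  rw [Set.mem_Icc, ← abs_le, not_le] at hv
  simp [hQ.2 v hv]

/-- `Ff V_a ≤ V_a z ≤ 8 V_{8a} z` at the point `z` of `Adm.exists_le` for `V_{8a}` -/
theorem Ff_le_eight (hℓ : IsLen ℓ) (hs : Summable fun x => Real.exp (-ℓ x / 2))
    (hZ : ∑' x, Real.exp (-ℓ x / 2) ≤ Z) (ha : 0 < a) (L : Loop G p) (s : ℝ) {ξ : Tm p}
    (hξ : Sx ξ) : Ff (fld (Rη a) ℓ p L (s, ξ))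
      ≤ 16 * (Ff (fld (Rη (8 * a)) ℓ p L (s, ξ)) + Real.log Z) := by
  obtain ⟨z, hz⟩ := (adm_fld (L := L) (s := s) (rk_Rη (show 0 < 8 * a by positivity)) hℓ hs hZ
    hξ).exists_le
  have h1 := Ff_le (adm_fld (L := L) (s := s) (rk_Rη ha) hℓ hs hZ hξ).summable z
  have h2 := fld_D1 (L := L) (η := 8 * a) (η' := a) (s := s) (s' := s) hℓ.nonneg (by positivity) ha
    (by rw [sub_self, abs_zero]; linarith) hξ z
  have e : 8 * a / a = 8 := by field_simp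
  rw [e] at h2
  linarith

/-- `trc (y⁻¹ z) ≤ γ ℓ (y⁻¹ z) ≤ γ V y + γ V z`; `Adm.ef_le` -/
theorem DD_le (hℓ : IsLen ℓ) (hs : Summable fun x => Real.exp (-ℓ x / 2))
    (hZ : ∑' x, Real.exp (-ℓ x / 2) ≤ Z) (hγ : 0 ≤ γ) (hT : 0 ≤ T) (ha : 0 < a) (L : Loop G p)
    (s : ℝ) {ξ : Tm p} (hξ : Sx ξ) (z : G) :
    DD ℓ γ T a p L (s, ξ) z ≤ γ * (2 * (Ff (fld (Rη a) ℓ p L (s, ξ)) + Real.log Z))
      + γ * fld (Rη a) ℓ p L (s, ξ) z := by
  refine (adm_fld (L := L) (s := s) (rk_Rη ha) hℓ hs hZ hξ).ef_le hγ (geo0_bdd hℓ hγ hT z)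
    fun y => (geo0_trc_le hγ _).trans ?_
  rw [← mul_add]
  exact mul_le_mul_of_nonneg_left (le_fld_add_fld (rk_Rη ha) hℓ hξ z y) hγ

/-- `trc (w⁻¹ z) ≤ γ ℓ (w⁻¹ y) + trc (y⁻¹ z)`; average in `w`, then `Adm.le_ef` -/
theorem fld_trc_le (hℓ : IsLen ℓ) (hs : Summable fun x => Real.exp (-ℓ x / 2))
    (hZ : ∑' x, Real.exp (-ℓ x / 2) ≤ Z) (hγ : 0 ≤ γ) (hT : 0 ≤ T) (ha : 0 < a) (L : Loop G p)
    (s : ℝ) {ξ : Tm p} (hξ : Sx ξ) (z : G) :
    fld (Rη a) (trc ℓ γ T) p L (s, ξ) z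
      ≤ γ * (2 * (Ff (fld (Rη a) ℓ p L (s, ξ)) + Real.log Z)) + DD ℓ γ T a p L (s, ξ) z := by
  refine (adm_fld (L := L) (s := s) (rk_Rη ha) hℓ hs hZ hξ).le_ef hγ (geo0_bdd hℓ hγ hT z)
    fun y => (fld_le_fld_add (rk_Rη ha) (hℓ.trc hγ hT) hξ z y).trans (add_le_add_left ?_ _)
  refine (fld_mono (ℓ' := fun x => γ * ℓ x) (rk_Rη ha) (geo0_trc_le hγ) hξ y).trans_eq ?_
  exact avg_const_mul _ _ _

/-- continuity in time of a window average at a fixed point -/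
theorem continuous_fld (hℓ : IsLen ℓ) (hs : Summable fun x => Real.exp (-ℓ x / 2)) (ha : 0 < a)
    (L : Loop G p) (ξ : Tm p) (z : G) : Continuous fun s => fld (Rη a) ℓ p L (s, ξ) z := by
  exact ((smP_fld (rk_Rη ha) (contDiff_Rη a) hℓ hs L).contDiff_apply z).continuous.comp
    (continuous_id.prodMk continuous_const)

/-- Write `σ_η s = 2 (Ff V_η s + log Z)`.  At the point `z` of `Adm.exists_le` for `V_{8a} s`:
`Ff (V2 s) ≤ V_b s z + cv ρ_a DD s z`, `cv ρ_a DD s z ≤ γ (ρ_a * σ_a) s + 8 γ σ_{8a} s`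
(`DD_le`, `fld_D2`) and for any `z'`, `V_b s z ≤ V_b s z' + V_{8a} s z' + σ_{8a} s`. -/
theorem Ff_V2_le (hℓ : IsLen ℓ) (hs : Summable fun x => Real.exp (-ℓ x / 2))
    (hZ : ∑' x, Real.exp (-ℓ x / 2) ≤ Z) (hγ : 0 ≤ γ) (hT : 0 ≤ T) (ha : 0 < a) (hb : 0 < b)
    (L : Loop G p) (s : ℝ) {ξ : Tm p} (hξ : Sx ξ) (z' : G) :
    Ff (V2 ℓ γ T a b a p L (s, ξ))
      ≤ γ * (∫ v, ρη a v * (2 * (Ff (fld (Rη a) ℓ p L (s - v, ξ)) + Real.log Z)))
        + (8 * γ + 1) * (2 * (Ff (fld (Rη (8 * a)) ℓ p L (s, ξ)) + Real.log Z))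
        + fld (Rη b) ℓ p L (s, ξ) z' + fld (Rη (8 * a)) ℓ p L (s, ξ) z' := by
  have h8 : 0 < 8 * a := by positivity
  obtain ⟨z, hz⟩ := (adm_fld (L := L) (s := s) (rk_Rη h8) hℓ hs hZ hξ).exists_le
  have h1 := Ff_le (adm_V2 hℓ hs hZ hγ hT ha hb ha L s hξ).summable z
  have e : V2 ℓ γ T a b a p L (s, ξ) z =
      fld (Rη b) ℓ p L (s, ξ) z + ∫ v, ρη a v * DD ℓ γ T a p L (s - v, ξ) z := rfl
  have hc : Continuous fun v : ℝ => s - v := continuous_const.sub continuous_id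
  have i1 : Integrable fun v => ρη a v * (2 * (Ff (fld (Rη a) ℓ p L (s - v, ξ)) + Real.log Z)) :=
    geo0_integrable (kb_ρη ha) (contDiff_ρη a).continuous (continuous_const.mul
      ((((smP_fld (rk_Rη ha) (contDiff_Rη a) hℓ hs L).continuous_Ff ξ).comp hc).add
        continuous_const))
  have i2 : Integrable fun v => ρη a v * fld (Rη a) ℓ p L (s - v, ξ) z :=
    geo0_integrable (kb_ρη ha) (contDiff_ρη a).continuous
      ((continuous_fld hℓ hs ha L ξ z).comp hc)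
  have h2 : ∫ v, ρη a v * DD ℓ γ T a p L (s - v, ξ) z ≤
      γ * (∫ v, ρη a v * (2 * (Ff (fld (Rη a) ℓ p L (s - v, ξ)) + Real.log Z))) +
        γ * ∫ v, ρη a v * fld (Rη a) ℓ p L (s - v, ξ) z := by
    rw [← integral_const_mul, ← integral_const_mul, ← integral_add (i1.const_mul γ) (i2.const_mul γ)]
    refine integral_mono_of_nonneg (Filter.Eventually.of_forall fun v =>
      mul_nonneg (ρη_nonneg ha v) (DD_mem hℓ hs hγ hT ha L _ z).1)
      ((i1.const_mul γ).add (i2.const_mul γ)) (Filter.Eventually.of_forall fun v => ?_)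
    have := mul_le_mul_of_nonneg_left (DD_le hℓ hs hZ hγ hT ha L (s - v) hξ z) (ρη_nonneg ha v)
    dsimp only
    linarith
  have h3 : ∫ v, ρη a v * fld (Rη a) ℓ p L (s - v, ξ) z ≤ 8 * fld (Rη (8 * a)) ℓ p L (s, ξ) z :=
    fld_D2 (L := L) hℓ.nonneg ha le_rfl hξ z
  have h4 := fld_le_fld_add (L := L) (s := s) (rk_Rη hb) hℓ hξ z z'
  have h5 := le_fld_add_fld (L := L) (s := s) (rk_Rη h8) hℓ hξ z z'
  have h6 := mul_le_mul_of_nonneg_left h3 hγ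
  have h7 := mul_le_mul_of_nonneg_left hz hγ
  linarith

end Crest.Agent.R192
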