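import Crest.Agent.R192.Defs
import Crest.Prelude.Def_GroupVNA

/-! Row 192: Kaplansky's positivity of the trace; embedding of countable domains in the complex numbers. -/

set_option autoImplicit false
set_option linter.unusedSectionVars false
set_option linter.unusedVariables false

open scoped ContDiff Matrix Topology
open MeasureTheory

noncomputable section

namespace Crest.Agent.R192

/-- Work in `lp (fun _ : G => ℂ) 2`.  Let `E` be left convolution by `e` (a finite sum of
isometries), `K` its range (closed, as `E` is a bounded idempotent) and `P` the orthogonal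
projection onto `K`.  Right translations are isometric bijections preserving `K`, so they commute
with `P`.  With `δ = δ₁`: `e 1 = ⟪δ, E δ⟫ = ⟪δ, P E δ⟫ = ∑ x, e x * (P δ) x⁻¹ = ⟪δ, E P δ⟫
= ⟪δ, P δ⟫ = ‖P δ‖²`.  If this vanishes then `P δ_x = 0` for all `x`, so `E δ = P E δ = 0`. -/
theorem kaplansky {G : Type} [Group G] (e : MonoidAlgebra ℂ G) (he : e * e = e)
    (h1 : e.coeff 1 = 0) : e = 0 := by
  classical
  let K : Submodule ℂ (OpAlg.ltwo G) :=
    { carrier := {f | ∀ x, ∑ y ∈ e.coeff.support, e.coeff y * f (y⁻¹ * x) = f x}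
      add_mem' := fun {f g} hf hg x => by
        simp only [lp.coeFn_add, Pi.add_apply, mul_add, Finset.sum_add_distrib, hf x, hg x]
      zero_mem' := fun x => by simp
      smul_mem' := fun c f hf x => by
        simp only [lp.coeFn_smul, Pi.smul_apply, smul_eq_mul, mul_left_comm _ c, ← Finset.mul_sum,
          hf x] }
  have hK : ∀ f, f ∈ K ↔ ∀ x, ∑ y ∈ e.coeff.support, e.coeff y * f (y⁻¹ * x) = f x :=
    fun _ => Iff.rfl
  have hev : ∀ x : G, Continuous fun f : OpAlg.ltwo G => f x := fun x =>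
    (lp.lipschitzWith_one_eval 2 x).continuous
  have hcl : IsClosed (K : Set (OpAlg.ltwo G)) := by
    have : (K : Set (OpAlg.ltwo G)) =
        ⋂ x, {f | ∑ y ∈ e.coeff.support, e.coeff y * f (y⁻¹ * x) = f x} := by
      ext f
      simp [hK]
    rw [this]
    exact isClosed_iInter fun x => isClosed_eq
      (continuous_finsetSum _ fun y _ => continuous_const.mul (hev _)) (hev x)
  have := hcl.completeSpace_coe
  obtain ⟨ξ, hξ, h⟩ := Submodule.HasOrthogonalProjection.exists_orthogonal (K := K)
    (lp.single 2 (1 : G) (1 : ℂ))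
  have h2 : ∀ k ∈ K, k 1 = inner ℂ ξ k := fun k hk => by
    have := (Submodule.mem_orthogonal' _ _).1 h k hk
    rw [inner_sub_left, lp.inner_single_left, sub_eq_zero] at this
    simpa using this
  let R : G → OpAlg.ltwo G ≃ₗᵢ[ℂ] OpAlg.ltwo G := fun x => OpAlg.ltwoReindex (Equiv.mulRight x)
  have hR : ∀ x f y, R x f y = f (y * x) := fun _ _ _ => rfl
  have hRK : ∀ x, ∀ f ∈ K, R x f ∈ K := fun x f hf => (hK _).2 fun y => by
    simp only [hR, mul_assoc, (hK f).1 hf]
  have h3 : ∀ y, ξ y⁻¹ = (starRingEnd ℂ) (ξ y) := fun y => by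
    have a1 := h2 _ (hRK y _ hξ)
    have a2 := h2 _ (hRK y⁻¹ _ hξ)
    have a3 : R y (R y⁻¹ ξ) = ξ := by
      ext z
      rw [hR, hR, mul_inv_cancel_right]
    rw [hR, one_mul] at a1 a2
    rw [a1, a2, inner_conj_symm, ← (R y).inner_map_map, a3]
  let ε : OpAlg.ltwo G :=
    ⟨fun x => e.coeff x, (memℓp_zero e.coeff.hasFiniteSupport).of_exponent_ge zero_le⟩
  have hε : ∀ x, ε x = e.coeff x := fun _ => rfl
  have hεK : ε ∈ K := (hK _).2 fun x => by
    have := MonoidAlgebra.coeff_mul_apply_left e e x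
    rw [he] at this
    exact this.symm
  have h4 : ξ = 0 := by
    rw [← inner_self_eq_zero (𝕜 := ℂ), ← h2 ξ hξ, ← (hK _).1 hξ 1, ← h1, ← hε, h2 ε hεK,
      lp.inner_eq_tsum, tsum_eq_sum (s := e.coeff.support) fun y hy => by
        simp [hε, Finsupp.notMem_support_iff.1 hy]]
    exact Finset.sum_congr rfl fun y _ => by simp [hε, h3]
  ext x
  simpa [h4, hR, hε] using h2 _ (hRK x _ hεK)

end Crest.Agent.R192
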