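import Crest.Agent.R192.Defs

/-! Row 192: basic properties of the kernels. -/

set_option autoImplicit false
set_option linter.unusedSectionVars false
set_option linter.unusedVariables false

open scoped ContDiff Matrix Topology
open MeasureTheory

noncomputable section

namespace Crest.Agent.R192

theorem one_le_cs : 1 ≤ cs := by
  unfold cs
  have : 0 ≤ ⨆ x : ℝ, |deriv Real.smoothTransition x| := Real.iSup_nonneg fun x => abs_nonneg _
  linarith

theorem ker0_deriv_zero {x : ℝ} (hx : x ∉ Set.Icc (0 : ℝ) 1) :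
    deriv Real.smoothTransition x = 0 := by
  rcases not_and_or.1 (fun h => hx (Set.mem_Icc.2 h)) with h | h
  · have : Real.smoothTransition =ᶠ[𝓝 x] fun _ => (0 : ℝ) := by
      filter_upwards [Iio_mem_nhds (not_le.1 h)] with y hy
      exact Real.smoothTransition.zero_of_nonpos (le_of_lt hy)
    rw [this.deriv_eq, deriv_const]
  · have : Real.smoothTransition =ᶠ[𝓝 x] fun _ => (1 : ℝ) := by
      filter_upwards [Ioi_mem_nhds (not_le.1 h)] with y hy
      exact Real.smoothTransition.one_of_one_le (le_of_lt hy)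
    rw [this.deriv_eq, deriv_const]

/-- `deriv smoothTransition` is continuous and vanishes outside `[0,1]`, so it is bounded. -/
theorem abs_deriv_st_le (x : ℝ) : |deriv Real.smoothTransition x| ≤ cs := by
  have hc : Continuous (deriv Real.smoothTransition) :=
    (Real.smoothTransition.contDiff (n := 1)).continuous_deriv le_rfl
  have hs : HasCompactSupport (deriv Real.smoothTransition) :=
    HasCompactSupport.intro isCompact_Icc fun x hx => ker0_deriv_zero hx
  obtain ⟨C, hC⟩ := hc.bounded_above_of_compact_support hs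
  have hb : BddAbove (Set.range fun x : ℝ => |deriv Real.smoothTransition x|) :=
    ⟨C, by rintro _ ⟨y, rfl⟩; exact hC y⟩
  have := le_ciSup hb x
  unfold cs
  linarith

theorem contDiff_kS : ContDiff ℝ ∞ kS := by
  unfold kS
  exact Real.smoothTransition.contDiff.comp (by fun_prop)

theorem kS_mono : Monotone kS := fun a b h =>
  Real.smoothTransition.monotone (by linarith)

theorem ker0_st_one_sub (x : ℝ) :
    Real.smoothTransition (1 - x) = 1 - Real.smoothTransition x := by
  have h := Real.smoothTransition.pos_denom x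
  unfold Real.smoothTransition
  rw [sub_sub_cancel, add_comm (expNegInvGlue (1 - x))]
  field_simp
  ring

/-- from `smoothTransition (1 - x) = 1 - smoothTransition x` (unfold, `field_simp`) -/
theorem kS_neg (u : ℝ) : kS (-u) = 1 - kS u := by
  unfold kS
  rw [← ker0_st_one_sub]
  congr 1
  ring

theorem kS_zero {u : ℝ} (h : u ≤ -(1 / 4)) : kS u = 0 :=
  Real.smoothTransition.zero_of_nonpos (by linarith)

theorem kS_one {u : ℝ} (h : 1 / 4 ≤ u) : kS u = 1 :=
  Real.smoothTransition.one_of_one_le (by linarith)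

theorem contDiff_kρ : ContDiff ℝ ∞ kρ := by
  unfold kρ
  exact (contDiff_kS.comp (by fun_prop)).sub (contDiff_kS.comp (by fun_prop))

theorem kρ_nonneg (u : ℝ) : 0 ≤ kρ u :=
  sub_nonneg.2 (kS_mono (by linarith))

theorem kρ_le_one (u : ℝ) : kρ u ≤ 1 := by
  have h1 : kS (u + 1 / 2) ≤ 1 := Real.smoothTransition.le_one _
  have h2 : 0 ≤ kS (u - 1 / 2) := Real.smoothTransition.nonneg _
  unfold kρ
  linarith

theorem kρ_one {u : ℝ} (h : |u| ≤ 1 / 4) : kρ u = 1 := by
  obtain ⟨h1, h2⟩ := abs_le.1 h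
  unfold kρ
  rw [kS_one (by linarith), kS_zero (by linarith), sub_zero]

theorem kρ_zero {u : ℝ} (h : 3 / 4 ≤ |u|) : kρ u = 0 := by
  unfold kρ
  rcases le_abs.1 h with h1 | h1
  · rw [kS_one (by linarith), kS_one (by linarith), sub_self]
  · rw [kS_zero (by linarith), kS_zero (by linarith), sub_self]

theorem hasDerivAt_kR (u : ℝ) : HasDerivAt kR (kρ u) u := by
  have hc : Continuous kS := contDiff_kS.continuous
  have hF : ∀ v : ℝ, HasDerivAt (fun v => ∫ t in (0 : ℝ)..v, kS t) (kS v) v := fun v =>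
    (hc.integral_hasStrictDerivAt 0 v).hasDerivAt
  have h1 := (hF (u + 1 / 2)).comp_add_const u (1 / 2)
  have h2 := (hF (u - 1 / 2)).comp_sub_const u (1 / 2)
  have h3 : kR = fun v => (∫ t in (0 : ℝ)..(v + 1 / 2), kS t) - ∫ t in (0 : ℝ)..(v - 1 / 2), kS t := by
    funext v
    unfold kR
    rw [intervalIntegral.integral_interval_sub_left (hc.intervalIntegrable _ _)
      (hc.intervalIntegrable _ _)]
  rw [h3]
  exact h1.sub h2

theorem contDiff_kR : ContDiff ℝ ∞ kR := by
  refine contDiff_infty_iff_deriv.2 ⟨fun u => (hasDerivAt_kR u).differentiableAt, ?_⟩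
  have : deriv kR = kρ := funext fun u => (hasDerivAt_kR u).deriv
  rw [this]
  exact contDiff_kρ

theorem kR_zero {u : ℝ} (h : u ≤ -(3 / 4)) : kR u = 0 := by
  unfold kR
  rw [intervalIntegral.integral_congr (g := fun _ => (0 : ℝ))]
  · simp
  · intro t ht
    rw [Set.uIcc_of_le (by linarith)] at ht
    exact kS_zero (by linarith [ht.2])

theorem kR_one {u : ℝ} (h : 3 / 4 ≤ u) : kR u = 1 := by
  unfold kR
  rw [intervalIntegral.integral_congr (g := fun _ => (1 : ℝ))]
  · simp
    norm_num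
  · intro t ht
    rw [Set.uIcc_of_le (by linarith)] at ht
    exact kS_one (by linarith [ht.1])

theorem kR_neg (u : ℝ) : kR (-u) = 1 - kR u := by
  have hc : Continuous kS := contDiff_kS.continuous
  have h1 : ∫ t in (u - 1 / 2)..(u + 1 / 2), kS (-t) = kR (-u) := by
    rw [intervalIntegral.integral_comp_neg]
    unfold kR
    congr 1 <;> ring
  rw [← h1]
  simp only [kS_neg]
  rw [intervalIntegral.integral_sub intervalIntegrable_const (hc.intervalIntegrable _ _)]
  unfold kR
  simp
  norm_num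

theorem ker0_supp_kρ {u : ℝ} (hu : u ∉ Set.Icc (-1 : ℝ) 1) : kρ u = 0 := by
  refine kρ_zero ?_
  by_contra hc
  obtain ⟨h1, h2⟩ := abs_lt.1 (not_le.1 hc)
  exact hu ⟨by linarith, by linarith⟩

theorem integrable_kρ : Integrable kρ :=
  contDiff_kρ.continuous.integrable_of_hasCompactSupport
    (HasCompactSupport.intro isCompact_Icc fun _ hu => ker0_supp_kρ hu)

theorem integral_kρ : ∫ u, kρ u = 1 := by
  have h1 : ∫ u in (-1 : ℝ)..1, kρ u = ∫ u, kρ u := by
    refine intervalIntegral.integral_eq_integral_of_support_subset fun u hu => ?_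
    by_contra hc
    refine hu (kρ_zero ?_)
    by_contra hc'
    obtain ⟨h1, h2⟩ := abs_lt.1 (not_le.1 hc')
    exact hc ⟨by linarith, by linarith⟩
  rw [← h1, intervalIntegral.integral_eq_sub_of_hasDerivAt (fun u _ => hasDerivAt_kR u)
    (contDiff_kρ.continuous.intervalIntegrable _ _), kR_one (by norm_num), kR_zero (by norm_num),
    sub_zero]

theorem ker0_continuous_kK : Continuous kK := by
  unfold kK
  exact (contDiff_kR.continuous.comp (by fun_prop)).sub contDiff_kR.continuous

theorem ker0_kK_neg (u : ℝ) : kK (-u) = -kK u := by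
  unfold kK
  rw [neg_div, kR_neg, kR_neg]
  ring

theorem ker0_kK_zero {u : ℝ} (h : 3 / 2 ≤ |u|) : kK u = 0 := by
  unfold kK
  rcases le_abs.1 h with h1 | h1
  · rw [kR_one (by linarith), kR_one (by linarith), sub_self]
  · rw [kR_zero (by linarith), kR_zero (by linarith), sub_self]

theorem ker0_kL_neg {u : ℝ} (h : u ≤ -(3 / 2)) : kL u = 0 := by
  unfold kL
  rw [intervalIntegral.integral_congr (g := fun _ => (0 : ℝ))]
  · simp
  · intro t ht
    refine ker0_kK_zero (le_abs.2 (Or.inr ?_))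
    rcases Set.mem_uIcc.1 ht with h1 | h1
    · linarith [h1.2]
    · linarith [h1.2]

/-- `kK` is odd and supported in `[-3/2, 3/2]` -/
theorem kL_zero {u : ℝ} (h : 3 / 2 ≤ |u|) : kL u = 0 := by
  rcases le_abs.1 h with h1 | h1
  · have hc := ker0_continuous_kK
    have h2 : ∫ t in (-u)..u, kK t = 0 := by
      have h3 : ∫ t in (-u)..u, kK (-t) = ∫ t in (-u)..u, kK t := by
        rw [intervalIntegral.integral_comp_neg, neg_neg]
      simp only [ker0_kK_neg, intervalIntegral.integral_neg] at h3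
      linarith
    have h4 := ker0_kL_neg (u := -u) (by linarith)
    unfold kL at h4 ⊢
    rw [← intervalIntegral.integral_add_adjacent_intervals (b := -u) (hc.intervalIntegrable _ _)
      (hc.intervalIntegrable _ _), h2, h4, add_zero]
  · exact ker0_kL_neg (by linarith)

theorem hasDerivAt_kL (u : ℝ) : HasDerivAt kL (kK u) u :=
  (ker0_continuous_kK.integral_hasStrictDerivAt (-2) u).hasDerivAt

theorem KB.evC {Q : ℝ → ℝ} {h w : ℝ} (hQ : KB Q h w) : EvC Q :=
  ⟨w + 1, 0, 0, fun u hu => hQ.2 u (by linarith [le_abs_self u]),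
    fun u hu => hQ.2 u (by linarith [neg_le_abs u])⟩

theorem RK.evC {Q : ℝ → ℝ} (hQ : RK Q) : EvC Q := by
  obtain ⟨-, w, h1, h2⟩ := hQ
  exact ⟨w, 1, 0, h1, h2⟩

theorem EvC.add {Q₁ Q₂ : ℝ → ℝ} (h₁ : EvC Q₁) (h₂ : EvC Q₂) : EvC fun u => Q₁ u + Q₂ u := by
  obtain ⟨w, a, b, h1, h2⟩ := h₁
  obtain ⟨w', a', b', h1', h2'⟩ := h₂
  refine ⟨max w w', a + a', b + b', fun u hu => ?_, fun u hu => ?_⟩
  · simp only
    rw [h1 u ((le_max_left _ _).trans hu), h1' u ((le_max_right _ _).trans hu)]
  · simp only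
    rw [h2 u (hu.trans (neg_le_neg (le_max_left _ _))),
      h2' u (hu.trans (neg_le_neg (le_max_right _ _)))]

theorem EvC.const_mul {Q : ℝ → ℝ} (h : EvC Q) (c : ℝ) : EvC fun u => c * Q u := by
  obtain ⟨w, a, b, h1, h2⟩ := h
  exact ⟨w, c * a, c * b, fun u hu => by simp only; rw [h1 u hu],
    fun u hu => by simp only; rw [h2 u hu]⟩

theorem EvC.sub {Q₁ Q₂ : ℝ → ℝ} (h₁ : EvC Q₁) (h₂ : EvC Q₂) : EvC fun u => Q₁ u - Q₂ u := by
  have := h₁.add (h₂.const_mul (-1))
  simpa only [neg_one_mul, ← sub_eq_add_neg] using this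

theorem EvC.shift {Q : ℝ → ℝ} (h : EvC Q) (c : ℝ) : EvC fun u => Q (u + c) := by
  obtain ⟨w, a, b, h1, h2⟩ := h
  exact ⟨w + |c|, a, b, fun u hu => h1 _ (by linarith [neg_abs_le c]),
    fun u hu => h2 _ (by linarith [le_abs_self c])⟩

theorem KB.nonneg {Q : ℝ → ℝ} {h w : ℝ} (hQ : KB Q h w) : 0 ≤ h :=
  (abs_nonneg _).trans (hQ.1 0)

theorem ker0_KB_supp {Q : ℝ → ℝ} {h w : ℝ} (hQ : KB Q h w) {u : ℝ} (hu : u ∉ Set.Icc (-w) w) :
    Q u = 0 :=
  hQ.2 u (not_le.1 fun hc => hu (abs_le.1 hc))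

theorem KB.integrable {Q : ℝ → ℝ} {h w : ℝ} (hQ : KB Q h w) (hc : Continuous Q) :
    Integrable Q :=
  hc.integrable_of_hasCompactSupport
    (HasCompactSupport.intro isCompact_Icc fun _ hu => ker0_KB_supp hQ hu)

theorem KB.integral_abs_le {Q : ℝ → ℝ} {h w : ℝ} (hQ : KB Q h w) (hc : Continuous Q)
    (hw : 0 ≤ w) : ∫ u, |Q u| ≤ 2 * w * h := by
  rw [← setIntegral_eq_integral_of_forall_compl_eq_zero (s := Set.Icc (-w) w)
    fun u hu => by rw [ker0_KB_supp hQ hu, abs_zero]]
  have h1 := norm_setIntegral_le_of_norm_le_const (μ := volume) (s := Set.Icc (-w) w)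
    (f := fun u => |Q u|) (C := h) measure_Icc_lt_top
    fun u _ => by rw [Real.norm_eq_abs, abs_abs]; exact hQ.1 u
  rw [Real.volume_real_Icc_of_le (by linarith)] at h1
  have h2 := le_abs_self (∫ u in Set.Icc (-w) w, |Q u|)
  rw [Real.norm_eq_abs] at h1
  linarith

theorem rk_heaviside : RK fun u : ℝ => if 0 ≤ u then 1 else 0 := by
  refine ⟨fun a b hab => ?_, 1, fun u hu => if_pos (by linarith), fun u hu => if_neg (by linarith)⟩
  simp only
  split_ifs with h1 h2 h2
  · exact le_rfl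
  · exact absurd (h1.trans hab) h2
  · exact zero_le_one
  · exact le_rfl

end Crest.Agent.R192
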