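import Crest.Agent.R192.KerC

/-! Row 192: basic properties of the kernels. -/

set_option autoImplicit false
set_option linter.unusedSectionVars false
set_option linter.unusedVariables false

open scoped ContDiff Matrix Topology
open MeasureTheory

noncomputable section

namespace Crest.Agent.R192

theorem ker1_contDiff_kK : ContDiff ℝ ∞ kK :=
  (contDiff_kR.comp (contDiff_id.div_const 2)).sub contDiff_kR

theorem ker1_contDiff_kL : ContDiff ℝ ∞ kL := by
  have h : deriv kL = kK := funext fun u => (hasDerivAt_kL u).deriv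
  exact contDiff_infty_iff_deriv.2
    ⟨fun u => (hasDerivAt_kL u).differentiableAt, h ▸ ker1_contDiff_kK⟩

theorem ker1_kR_mono : Monotone kR :=
  monotone_of_deriv_nonneg (fun u => (hasDerivAt_kR u).differentiableAt) fun u => by
    rw [(hasDerivAt_kR u).deriv]; exact kρ_nonneg u

theorem ker1_kR_nonneg (u : ℝ) : 0 ≤ kR u := by
  rw [← kR_zero (min_le_right u (-(3 / 4)))]
  exact ker1_kR_mono (min_le_left _ _)

theorem ker1_kR_le_one (u : ℝ) : kR u ≤ 1 := by
  rw [← kR_one (le_max_right u (3 / 4))]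
  exact ker1_kR_mono (le_max_left _ _)

theorem ker1_abs_div {η u c : ℝ} (hη : 0 < η) (h : c * η < |u|) : c < |u / η| := by
  rwa [abs_div, abs_of_pos hη, lt_div_iff₀ hη]

theorem ker1_hasDerivAt_kS (u : ℝ) :
    HasDerivAt kS (deriv Real.smoothTransition (2 * u + 1 / 2) * 2) u := by
  have h1 : HasDerivAt (fun u : ℝ => 2 * u + 1 / 2) 2 u := by
    simpa using ((hasDerivAt_id u).const_mul 2).add_const (1 / 2 : ℝ)
  have h2 : DifferentiableAt ℝ Real.smoothTransition (2 * u + 1 / 2) :=
    ((Real.smoothTransition.contDiff (n := 1)).differentiable (by simp)).differentiableAt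
  exact h2.hasDerivAt.comp u h1

theorem ker1_deriv_kS_zero {u : ℝ} (h : 1 / 4 < |u|) : deriv kS u = 0 := by
  rcases lt_abs.1 h with h | h
  · have : kS =ᶠ[𝓝 u] fun _ => 1 :=
      (lt_mem_nhds h).mono fun v hv => kS_one (le_of_lt hv)
    rw [this.deriv_eq, deriv_const]
  · have h' : u < -(1 / 4) := by linarith
    have : kS =ᶠ[𝓝 u] fun _ => 0 :=
      (gt_mem_nhds h').mono fun v hv => kS_zero (le_of_lt hv)
    rw [this.deriv_eq, deriv_const]

section Scaled
variable {η : ℝ}

theorem contDiff_Rη (η : ℝ) : ContDiff ℝ ∞ (Rη η) := by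
  exact contDiff_kR.comp (contDiff_id.div_const η)

theorem contDiff_ρη (η : ℝ) : ContDiff ℝ ∞ (ρη η) := by
  exact (contDiff_kρ.comp (contDiff_id.div_const η)).div_const η

theorem contDiff_Kη (η : ℝ) : ContDiff ℝ ∞ (Kη η) := by
  exact ker1_contDiff_kK.comp (contDiff_id.div_const η)

theorem contDiff_Lη (η : ℝ) : ContDiff ℝ ∞ (Lη η) := by
  exact contDiff_const.mul (ker1_contDiff_kL.comp (contDiff_id.div_const η))

theorem contDiff_ψη (η : ℝ) : ContDiff ℝ ∞ (ψη η) := by
  exact ((contDiff_infty_iff_deriv.1 contDiff_kS).2.comp (contDiff_id.div_const η)).div_const η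

theorem hasDerivAt_Rη (η u : ℝ) : HasDerivAt (Rη η) (ρη η u) u := by
  have h := (hasDerivAt_kR (u / η)).comp u ((hasDerivAt_id u).div_const η)
  rw [mul_one_div] at h
  exact h

theorem deriv_Rη (η : ℝ) : deriv (Rη η) = ρη η := by
  exact funext fun u => (hasDerivAt_Rη η u).deriv

theorem deriv_Lη (hη : 0 < η) : deriv (Lη η) = Kη η := by
  funext u
  have h := ((hasDerivAt_kL (u / η)).comp u ((hasDerivAt_id u).div_const η)).const_mul η
  have e : η * (kK (u / η) * (1 / η)) = Kη η u := by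
    unfold Kη
    field_simp
  rw [e] at h
  exact h.deriv

theorem Kη_eq (η : ℝ) : Kη η = fun u => Rη (2 * η) u - Rη η u := by
  funext u
  unfold Kη kK Rη
  rw [div_div, mul_comm η 2]

theorem deriv_Kη (η : ℝ) : deriv (Kη η) = fun u => ρη (2 * η) u - ρη η u := by
  funext u
  rw [Kη_eq]
  exact ((hasDerivAt_Rη (2 * η) u).sub (hasDerivAt_Rη η u)).deriv

theorem rk_Rη (hη : 0 < η) : RK (Rη η) := by
  refine ⟨fun a b hab => ker1_kR_mono (div_le_div_of_nonneg_right hab hη.le), 3 * η / 4,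
    fun u hu => kR_one ?_, fun u hu => kR_zero ?_⟩
  · rw [le_div_iff₀ hη]; linarith
  · rw [div_le_iff₀ hη]; linarith

theorem kb_ρη (hη : 0 < η) : KB (ρη η) (1 / η) (3 * η / 4) := by
  refine ⟨fun u => ?_, fun u hu => ?_⟩
  · unfold ρη
    rw [abs_div, abs_of_pos hη, abs_of_nonneg (kρ_nonneg _)]
    exact div_le_div_of_nonneg_right (kρ_le_one _) hη.le
  · unfold ρη
    rw [kρ_zero (ker1_abs_div hη (by linarith)).le, zero_div]

theorem kb_Kη (hη : 0 < η) : KB (Kη η) 1 (3 * η / 2) := by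
  refine ⟨fun u => ?_, fun u hu => ?_⟩
  · unfold Kη kK
    rw [abs_le]
    constructor <;> linarith [ker1_kR_nonneg (u / η / 2), ker1_kR_nonneg (u / η),
      ker1_kR_le_one (u / η / 2), ker1_kR_le_one (u / η)]
  · unfold Kη kK
    have h : 3 / 2 < |u / η| := ker1_abs_div hη (by linarith)
    rcases lt_abs.1 h with h | h
    · rw [kR_one (by linarith), kR_one (by linarith), sub_self]
    · rw [kR_zero (by linarith), kR_zero (by linarith), sub_self]

theorem kb_Lη (hη : 0 < η) : ∃ h, KB (Lη η) h (3 * η / 2) := by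
  have h0 : ∀ u, 3 * η / 2 < |u| → Lη η u = 0 := fun u hu => by
    unfold Lη
    rw [kL_zero (ker1_abs_div hη (by linarith)).le, mul_zero]
  obtain ⟨C, hC⟩ := (isCompact_Icc (a := -(3 * η / 2)) (b := 3 * η / 2)).exists_bound_of_continuousOn
    (contDiff_Lη η).continuous.continuousOn
  refine ⟨max C 0, fun u => ?_, h0⟩
  rcases le_or_gt |u| (3 * η / 2) with h | h
  · exact (hC u (abs_le.1 h)).trans (le_max_left _ _)
  · rw [h0 u h, abs_zero]
    exact le_max_right _ _

theorem kb_ψη (hη : 0 < η) : KB (ψη η) (2 * cs / η) (η / 4) := by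
  refine ⟨fun u => ?_, fun u hu => ?_⟩
  · unfold ψη
    rw [abs_div, abs_of_pos hη, (ker1_hasDerivAt_kS _).deriv, abs_mul, abs_two]
    refine div_le_div_of_nonneg_right ?_ hη.le
    linarith [abs_deriv_st_le (2 * (u / η) + 1 / 2)]
  · unfold ψη
    rw [ker1_deriv_kS_zero (ker1_abs_div hη (by linarith)), zero_div]

theorem kb_Rη_sub_heaviside (hη : 0 < η) :
    KB (fun u => Rη η u - if 0 ≤ u then 1 else 0) 1 (3 * η / 4) := by
  refine ⟨fun u => ?_, fun u hu => ?_⟩
  · have h1 := ker1_kR_nonneg (u / η)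
    have h2 := ker1_kR_le_one (u / η)
    simp only [Rη, abs_le]
    split_ifs <;> constructor <;> linarith
  · unfold Rη
    rcases lt_abs.1 hu with h | h
    · have : (3 : ℝ) / 4 ≤ u / η := by rw [le_div_iff₀ hη]; linarith
      simp only [kR_one this, if_pos (show 0 ≤ u by linarith), sub_self]
    · have : u / η ≤ -(3 / 4) := by rw [div_le_iff₀ hη]; linarith
      simp only [kR_zero this, if_neg (show ¬ 0 ≤ u by linarith), sub_self]

theorem ρη_nonneg (hη : 0 < η) (u : ℝ) : 0 ≤ ρη η u := by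
  exact div_nonneg (kρ_nonneg _) hη.le

theorem ρη_eq (hη : 0 < η) {u : ℝ} (hu : |u| ≤ η / 4) : ρη η u = 1 / η := by
  unfold ρη
  rw [kρ_one]
  rw [abs_div, abs_of_pos hη, div_le_iff₀ hη]
  linarith

theorem integral_ρη (hη : 0 < η) : ∫ u, ρη η u = 1 := by
  unfold ρη
  rw [integral_div, Measure.integral_comp_div kρ η, integral_kρ, abs_of_pos hη, smul_eq_mul,
    mul_one, div_self hη.ne']

theorem ρη_eq_int (hη : 0 < η) (u : ℝ) :
    ρη η u = (1 / η) * ∫ t in (u - η / 2)..(u + η / 2), ψη η t := by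
  have h : ∀ t ∈ Set.uIcc (u - η / 2) (u + η / 2),
      HasDerivAt (fun t => kS (t / η)) (ψη η t) t := fun t _ => by
    have h := ((contDiff_kS.differentiable (by simp)) (t / η)).hasDerivAt.comp t
      ((hasDerivAt_id t).div_const η)
    rw [mul_one_div] at h
    exact h
  rw [intervalIntegral.integral_eq_sub_of_hasDerivAt h
    ((contDiff_ψη η).continuous.intervalIntegrable _ _)]
  have e1 : (u + η / 2) / η = u / η + 1 / 2 := by field_simp
  have e2 : (u - η / 2) / η = u / η - 1 / 2 := by field_simp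
  rw [e1, e2]
  unfold ρη kρ
  ring

theorem Rη_sub (hη : 0 < η) {a b : ℝ} (hb : -(η / 4) ≤ b) (hab : b ≤ a) (ha : a ≤ η / 4) :
    Rη η a - Rη η b = (a - b) / η := by
  rw [← intervalIntegral.integral_eq_sub_of_hasDerivAt (fun t _ => hasDerivAt_Rη η t)
    ((contDiff_ρη η).continuous.intervalIntegrable b a),
    intervalIntegral.integral_congr (g := fun _ => 1 / η), intervalIntegral.integral_const,
    smul_eq_mul, mul_one_div]
  intro t ht
  rw [Set.uIcc_of_le hab] at ht
  exact ρη_eq hη (abs_le.2 ⟨hb.trans ht.1, ht.2.trans ha⟩)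

end Scaled

end Crest.Agent.R192
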