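import Crest.Agent.R192.Ker0

/-! Row 192: basic properties of the kernels. -/

set_option autoImplicit false
set_option linter.unusedSectionVars false
set_option linter.unusedVariables false

open scoped ContDiff Matrix Topology
open MeasureTheory

noncomputable section

namespace Crest.Agent.R192

/-! ### The cutoffs -/

theorem contDiff_kχ : ContDiff ℝ ∞ kχ := by
  exact Real.smoothTransition.contDiff.comp (contDiff_id.sub contDiff_const)

theorem kerc_kχ_zero {x : ℝ} (h : x ≤ 1) : kχ x = 0 :=
  Real.smoothTransition.zero_of_nonpos (by linarith)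

theorem kerc_ku_ev {x : ℝ} (h : x < 1) : ku =ᶠ[𝓝 x] fun _ => 0 := by
  filter_upwards [Iio_mem_nhds h] with t ht
  rw [ku, kerc_kχ_zero (le_of_lt ht), zero_div]

/-- `ku` vanishes on `x ≤ 1`, and `x ↦ x⁻¹` is smooth on `x > 0` -/
theorem contDiff_ku : ContDiff ℝ ∞ ku := by
  refine contDiff_iff_contDiffAt.2 fun x => ?_
  rcases lt_or_ge x 1 with h | h
  · exact contDiffAt_const.congr_of_eventuallyEq (kerc_ku_ev h)
  · exact contDiff_kχ.contDiffAt.div contDiffAt_id (by linarith : x ≠ 0)

theorem kχ_nonneg (x : ℝ) : 0 ≤ kχ x := by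
  exact Real.smoothTransition.nonneg _

theorem kχ_le_one (x : ℝ) : kχ x ≤ 1 := by
  exact Real.smoothTransition.le_one _

theorem kχ_one {x : ℝ} (h : 2 ≤ x) : kχ x = 1 := by
  exact Real.smoothTransition.one_of_one_le (by linarith)

theorem ku_mul (x : ℝ) : ku x * x = kχ x := by
  by_cases h : x = 0
  · rw [h, mul_zero, kerc_kχ_zero zero_le_one]
  · exact div_mul_cancel₀ _ h

theorem abs_ku_le (x : ℝ) : |ku x| ≤ 1 := by
  rcases le_or_gt x 1 with h | h
  · rw [ku, kerc_kχ_zero h, zero_div, abs_zero]; exact zero_le_one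
  · have h0 : 0 < x := by linarith
    rw [ku, abs_of_nonneg (div_nonneg (kχ_nonneg x) h0.le), div_le_one h0]
    exact (kχ_le_one x).trans h.le

theorem abs_deriv_kχ_le (x : ℝ) : |deriv kχ x| ≤ cs := by
  have : deriv kχ x = deriv Real.smoothTransition (x - 1) := deriv_comp_sub_const _ _ _
  rw [this]
  exact abs_deriv_st_le _

theorem abs_deriv_ku_le (x : ℝ) : |deriv ku x| ≤ cs + 1 := by
  have hc := one_le_cs
  rcases lt_or_ge x 1 with h | h
  · rw [(kerc_ku_ev h).deriv_eq, deriv_const, abs_zero]; linarith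
  · have h0 : 0 < x := by linarith
    have h1 : HasDerivAt kχ (deriv kχ x) x :=
      (contDiff_kχ.differentiable (by simp) x).hasDerivAt
    have h2 : HasDerivAt ku ((deriv kχ x * x - kχ x * 1) / x ^ 2) x :=
      h1.div (hasDerivAt_id x) h0.ne'
    rw [h2.deriv, abs_div, abs_of_pos (pow_pos h0 2), div_le_iff₀ (pow_pos h0 2)]
    refine (abs_sub _ _).trans ?_
    rw [abs_mul, abs_of_pos h0, mul_one, abs_of_nonneg (kχ_nonneg x)]
    have h3 := mul_le_mul_of_nonneg_right (abs_deriv_kχ_le x) h0.le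
    have h4 := kχ_le_one x
    have h5 : x ≤ x ^ 2 := by nlinarith
    have h6 := mul_le_mul_of_nonneg_left h5 (by linarith : 0 ≤ cs)
    nlinarith

theorem contDiff_kφ (y : ℝ) : ContDiff ℝ ∞ (kφ y) := by
  exact Real.smoothTransition.contDiff.comp (contDiff_const.sub (contDiff_id.div_const y))

theorem kφ_nonneg (y x : ℝ) : 0 ≤ kφ y x := by
  exact Real.smoothTransition.nonneg _

theorem kφ_le_one (y x : ℝ) : kφ y x ≤ 1 := by
  exact Real.smoothTransition.le_one _

theorem abs_deriv_kφ_le {y : ℝ} (hy : 1 ≤ y) (x : ℝ) : |deriv (kφ y) x| ≤ cs := by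
  have h0 : 0 < y := by linarith
  have h1 : HasDerivAt Real.smoothTransition (deriv Real.smoothTransition (2 - x / y)) (2 - x / y) :=
    ((Real.smoothTransition.contDiff (n := 1)).differentiable (by simp) _).hasDerivAt
  have h2 : HasDerivAt (kφ y) (deriv Real.smoothTransition (2 - x / y) * (-(1 / y))) x :=
    h1.comp x (((hasDerivAt_id x).div_const y).const_sub 2)
  rw [h2.deriv, abs_mul, abs_neg, abs_of_pos (one_div_pos.2 h0)]
  have h3 : 1 / y ≤ 1 := by rw [div_le_one h0]; exact hy
  have h4 := mul_le_mul (abs_deriv_st_le (2 - x / y)) h3 (one_div_pos.2 h0).le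
    (zero_le_one.trans one_le_cs)
  rwa [mul_one] at h4

theorem kφ_zero {y x : ℝ} (hy : 0 < y) (h : 2 * y < x) : kφ y x = 0 ∧ deriv (kφ y) x = 0 := by
  have h1 : kφ y =ᶠ[𝓝 x] fun _ => 0 := by
    filter_upwards [Ioi_mem_nhds h] with t ht
    refine Real.smoothTransition.zero_of_nonpos ?_
    rw [sub_nonpos, le_div_iff₀ hy]
    exact le_of_lt ht
  exact ⟨h1.eq_of_nhds, by rw [h1.deriv_eq, deriv_const]⟩

/-- Telescoping with the concave primitive `Φ x = ∫ t in 0..x, kφ y t`: `kφ y` is antitone so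
`Φ b - Φ a ≤ kφ y a * (b - a)`; `Φ x = x` for `x ≤ y`, `Φ x ≤ x` always and `Φ` is monotone. -/
theorem kφ_tele {y : ℝ} (hy : 0 < y) (F : ℕ → ℝ) {j₀ j₁ : ℕ} (hj : j₀ ≤ j₁) (h : y ≤ F j₁) :
    y - F j₀ ≤ ∑ j ∈ Finset.Ico j₀ j₁, kφ y (F j) * (F (j + 1) - F j) := by
  have hint : ∀ a b, IntervalIntegrable (kφ y) volume a b := fun a b =>
    (contDiff_kφ y).continuous.intervalIntegrable a b
  have hanti : Antitone (kφ y) := fun a b hab =>
    Real.smoothTransition.monotone (by
      have := div_le_div_of_nonneg_right hab hy.le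
      linarith)
  have hconc : ∀ a b, ∫ t in a..b, kφ y t ≤ kφ y a * (b - a) := by
    intro a b
    rcases le_total a b with hab | hab
    · have := intervalIntegral.integral_mono_on hab (hint a b)
        (intervalIntegrable_const (c := kφ y a)) (fun t ht => hanti ht.1)
      rwa [intervalIntegral.integral_const, smul_eq_mul, mul_comm] at this
    · have := intervalIntegral.integral_mono_on hab
        (intervalIntegrable_const (c := kφ y a)) (hint b a) (fun t ht => hanti ht.2)
      rw [intervalIntegral.integral_const, smul_eq_mul] at this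
      rw [intervalIntegral.integral_symm]
      linarith
  have h1 : kφ y y = 1 := Real.smoothTransition.one_of_one_le (by rw [div_self hy.ne']; norm_num)
  have h2 := hconc y (F j₀)
  have h3 : 0 ≤ ∫ t in y..F j₁, kφ y t :=
    intervalIntegral.integral_nonneg h fun t _ => kφ_nonneg y t
  have h4 := intervalIntegral.integral_add_adjacent_intervals (hint y (F j₀)) (hint (F j₀) (F j₁))
  have h5 := intervalIntegral.sum_integral_adjacent_intervals_Ico (f := kφ y) (μ := volume)
    (a := F) hj (fun k _ => hint _ _)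
  have h6 := Finset.sum_le_sum (s := Finset.Ico j₀ j₁) fun j _ => hconc (F j) (F (j + 1))
  rw [h1] at h2
  linarith

end Crest.Agent.R192
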