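import Crest.Agent.R192.Defs

/-! Row 192: construction of the weighted convolution Banach algebra. -/

set_option autoImplicit false
set_option linter.unusedSectionVars false
set_option linter.unusedVariables false

open scoped ENNReal

noncomputable section

namespace Crest.Agent.R192

variable {G : Type} [Group G] {A : Type} [NormedRing A] [NormedAlgebra ℂ A] [CompleteSpace A]
  [NormOneClass A]

/-- the shear `(x, y) ↦ (y, y⁻¹ x)` -/
def l1_shear (G : Type) [Group G] : G × G ≃ G × G where
  toFun p := (p.2, p.2⁻¹ * p.1)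
  invFun p := (p.1 * p.2, p.1)
  left_inv p := by simp
  right_inv p := by simp

theorem l1_summable_shear {a b : G → ℝ} (ha0 : ∀ x, 0 ≤ a x) (hb0 : ∀ x, 0 ≤ b x)
    (ha : Summable a) (hb : Summable b) :
    Summable fun p : G × G => a p.2 * b (p.2⁻¹ * p.1) :=
  (l1_shear G).summable_iff.2 (ha.mul_of_nonneg hb ha0 hb0)

theorem l1_real_conv {a b : G → ℝ} (ha0 : ∀ x, 0 ≤ a x) (hb0 : ∀ x, 0 ≤ b x)
    (ha : Summable a) (hb : Summable b) :
    (∀ x, Summable fun y => a y * b (y⁻¹ * x)) ∧
      HasSum (fun x => ∑' y, a y * b (y⁻¹ * x)) ((∑' x, a x) * ∑' x, b x) := by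
  have h := l1_summable_shear ha0 hb0 ha hb
  refine ⟨fun x => h.prod_factor x, ?_⟩
  have h2 : HasSum (fun p : G × G => a p.2 * b (p.2⁻¹ * p.1)) ((∑' x, a x) * ∑' x, b x) :=
    (l1_shear G).hasSum_iff.2 (ha.hasSum.mul hb.hasSum (ha.mul_of_nonneg hb ha0 hb0))
  exact h2.prod_fiberwise fun x => (h.prod_factor x).hasSum

/-- convolution of functions -/
def l1_conv (f k : G → A) (x : G) : A := ∑' y, f y * k (y⁻¹ * x)

theorem l1_conv_summable_norm {f k : G → A} (hf : Summable fun x => ‖f x‖)
    (hk : Summable fun x => ‖k x‖) (x : G) : Summable fun y => ‖f y * k (y⁻¹ * x)‖ :=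
  Summable.of_nonneg_of_le (fun _ => norm_nonneg _) (fun _ => norm_mul_le _ _)
    ((l1_real_conv (fun _ => norm_nonneg _) (fun _ => norm_nonneg _) hf hk).1 x)

theorem l1_conv_summable {f k : G → A} (hf : Summable fun x => ‖f x‖)
    (hk : Summable fun x => ‖k x‖) (x : G) : Summable fun y => f y * k (y⁻¹ * x) :=
  (l1_conv_summable_norm hf hk x).of_norm

theorem l1_conv_assoc {f k h : G → A} (hf : Summable fun x => ‖f x‖)
    (hk : Summable fun x => ‖k x‖) (hh : Summable fun x => ‖h x‖) :
    l1_conv (l1_conv f k) h = l1_conv f (l1_conv k h) := by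
  funext x
  have hb : ∀ u, ‖h u‖ ≤ ∑' v, ‖h v‖ := fun u => hh.le_tsum u fun _ _ => norm_nonneg _
  have h1 : Summable (Function.uncurry fun y z : G => f z * k (z⁻¹ * y) * h (y⁻¹ * x)) := by
    refine Summable.of_norm_bounded
      ((l1_summable_shear (fun _ => norm_nonneg _) (fun _ => norm_nonneg _) hf hk).mul_right
        (∑' v, ‖h v‖)) fun p => ?_
    exact (norm_mul_le _ _).trans
      (mul_le_mul (norm_mul_le _ _) (hb _) (norm_nonneg _) (by positivity))
  unfold l1_conv
  calc ∑' y, (∑' z, f z * k (z⁻¹ * y)) * h (y⁻¹ * x)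
      = ∑' y, ∑' z, f z * k (z⁻¹ * y) * h (y⁻¹ * x) :=
        tsum_congr fun y => ((l1_conv_summable hf hk y).tsum_mul_right _).symm
    _ = ∑' z, ∑' y, f z * k (z⁻¹ * y) * h (y⁻¹ * x) := h1.tsum_comm.symm
    _ = ∑' z, f z * ∑' u, k u * h (u⁻¹ * (z⁻¹ * x)) := by
        refine tsum_congr fun z => ?_
        rw [← (l1_conv_summable hk hh (z⁻¹ * x)).tsum_mul_left,
          ← (Equiv.mulLeft z).tsum_eq]
        refine tsum_congr fun u => ?_
        simp [mul_assoc]

/-- a submultiplicative weight -/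
structure l1_Wt (G : Type) [Group G] where
  w : G → ℝ
  h1 : w 1 = 1
  h2 : ∀ x, 1 ≤ w x
  h3 : ∀ x y, w (x * y) ≤ w x * w y

namespace l1_Wt
variable (W : l1_Wt G)

theorem pos (x : G) : 0 < W.w x := lt_of_lt_of_le one_pos (W.h2 x)

theorem summable_norm {f : G → A} (hf : Summable fun x => ‖f x‖ * W.w x) :
    Summable fun x => ‖f x‖ :=
  Summable.of_nonneg_of_le (fun _ => norm_nonneg _)
    (fun x => le_mul_of_one_le_right (norm_nonneg _) (W.h2 x)) hf

theorem conv_le {f k : G → A} (hf : Summable fun x => ‖f x‖ * W.w x)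
    (hk : Summable fun x => ‖k x‖ * W.w x) (x : G) :
    ‖l1_conv f k x‖ * W.w x ≤ ∑' y, (‖f y‖ * W.w y) * (‖k (y⁻¹ * x)‖ * W.w (y⁻¹ * x)) := by
  have h0 := (l1_real_conv (fun x => mul_nonneg (norm_nonneg (f x)) (W.pos x).le)
    (fun x => mul_nonneg (norm_nonneg (k x)) (W.pos x).le) hf hk).1 x
  have h1 := l1_conv_summable_norm (W.summable_norm hf) (W.summable_norm hk) x
  calc ‖l1_conv f k x‖ * W.w x ≤ (∑' y, ‖f y * k (y⁻¹ * x)‖) * W.w x :=
        mul_le_mul_of_nonneg_right (norm_tsum_le_tsum_norm h1) (W.pos x).le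
    _ = ∑' y, ‖f y * k (y⁻¹ * x)‖ * W.w x := tsum_mul_right.symm
    _ ≤ _ := by
        refine Summable.tsum_le_tsum (fun y => ?_) (h1.mul_right _) h0
        have h2 : W.w x ≤ W.w y * W.w (y⁻¹ * x) := by simpa using W.h3 y (y⁻¹ * x)
        calc ‖f y * k (y⁻¹ * x)‖ * W.w x
            ≤ (‖f y‖ * ‖k (y⁻¹ * x)‖) * (W.w y * W.w (y⁻¹ * x)) :=
              mul_le_mul (norm_mul_le _ _) h2 (W.pos x).le (by positivity)
          _ = _ := by ring

theorem conv_summable {f k : G → A} (hf : Summable fun x => ‖f x‖ * W.w x)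
    (hk : Summable fun x => ‖k x‖ * W.w x) : Summable fun x => ‖l1_conv f k x‖ * W.w x :=
  Summable.of_nonneg_of_le (fun x => mul_nonneg (norm_nonneg _) (W.pos x).le) (W.conv_le hf hk)
    (l1_real_conv (fun x => mul_nonneg (norm_nonneg (f x)) (W.pos x).le)
      (fun x => mul_nonneg (norm_nonneg (k x)) (W.pos x).le) hf hk).2.summable

theorem conv_tsum_le {f k : G → A} (hf : Summable fun x => ‖f x‖ * W.w x)
    (hk : Summable fun x => ‖k x‖ * W.w x) :
    ∑' x, ‖l1_conv f k x‖ * W.w x ≤ (∑' x, ‖f x‖ * W.w x) * ∑' x, ‖k x‖ * W.w x := by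
  have h := (l1_real_conv (fun x => mul_nonneg (norm_nonneg (f x)) (W.pos x).le)
      (fun x => mul_nonneg (norm_nonneg (k x)) (W.pos x).le) hf hk).2
  rw [← h.tsum_eq]
  exact Summable.tsum_le_tsum (W.conv_le hf hk) (W.conv_summable hf hk) h.summable

end l1_Wt

/-- the weighted `ℓ¹` space; the element `F` stands for the function `x ↦ (w x)⁻¹ • F x` -/
def l1_L (W : l1_Wt G) (A : Type) [NormedRing A] : Type := lp (fun _ : G => A) 1

namespace l1_L
variable {W : l1_Wt G}

instance instNACG : NormedAddCommGroup (l1_L W A) :=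
  inferInstanceAs (NormedAddCommGroup (lp (fun _ : G => A) 1))
instance instNS : NormedSpace ℂ (l1_L W A) :=
  inferInstanceAs (NormedSpace ℂ (lp (fun _ : G => A) 1))
instance instCS : CompleteSpace (l1_L W A) :=
  inferInstanceAs (CompleteSpace (lp (fun _ : G => A) 1))

/-- the underlying element of `lp` -/
def toLp (F : l1_L W A) : lp (fun _ : G => A) 1 := F

/-- the function represented by `F` -/
def fn (F : l1_L W A) (x : G) : A := ((W.w x : ℂ)⁻¹) • F.toLp x

theorem w_ne (x : G) : (W.w x : ℂ) ≠ 0 := by exact_mod_cast (W.pos x).ne'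

theorem norm_w_smul (x : G) (a : A) : ‖(W.w x : ℂ) • a‖ = ‖a‖ * W.w x := by
  rw [norm_smul, Complex.norm_real, Real.norm_of_nonneg (W.pos x).le, mul_comm]

theorem toLp_eq (F : l1_L W A) (x : G) : F.toLp x = (W.w x : ℂ) • F.fn x := by
  rw [fn, smul_smul, mul_inv_cancel₀ (w_ne x), one_smul]

/-- the element representing `f` -/
def mk (f : G → A) (hf : Summable fun x => ‖f x‖ * W.w x) : l1_L W A :=
  (⟨fun x => (W.w x : ℂ) • f x, memℓp_gen (by
      simp only [ENNReal.toReal_one, Real.rpow_one, norm_w_smul]; exact hf)⟩ :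
    lp (fun _ : G => A) 1)

@[simp] theorem fn_mk (f : G → A) (hf : Summable fun x => ‖f x‖ * W.w x) : (mk f hf).fn = f := by
  funext x
  change ((W.w x : ℂ)⁻¹) • ((W.w x : ℂ) • f x) = f x
  rw [smul_smul, inv_mul_cancel₀ (w_ne x), one_smul]

theorem hasSum_norm (F : l1_L W A) : HasSum (fun x => ‖F.fn x‖ * W.w x) ‖F‖ := by
  have h := lp.hasSum_norm (p := 1) (by simp) F.toLp
  simp only [ENNReal.toReal_one, Real.rpow_one, toLp_eq, norm_w_smul] at h
  exact h

theorem summable (F : l1_L W A) : Summable fun x => ‖F.fn x‖ * W.w x := F.hasSum_norm.summable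

theorem summable' (F : l1_L W A) : Summable fun x => ‖F.fn x‖ := W.summable_norm F.summable

theorem norm_eq (F : l1_L W A) : ‖F‖ = ∑' x, ‖F.fn x‖ * W.w x := F.hasSum_norm.tsum_eq.symm

theorem ext {F K : l1_L W A} (h : F.fn = K.fn) : F = K := by
  have : F.toLp = K.toLp := lp.ext (funext fun x => by rw [toLp_eq, toLp_eq, h])
  exact this

theorem fn_add (F K : l1_L W A) : (F + K).fn = F.fn + K.fn := by
  funext x
  change _ • (F.toLp + K.toLp) x = _
  rw [lp.coeFn_add, Pi.add_apply, smul_add]; rfl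

theorem fn_sub (F K : l1_L W A) : (F - K).fn = F.fn - K.fn := by
  funext x
  change _ • (F.toLp - K.toLp) x = _
  rw [lp.coeFn_sub, Pi.sub_apply, smul_sub]; rfl

theorem fn_zero : (0 : l1_L W A).fn = 0 := by
  funext x
  change _ • (0 : lp (fun _ : G => A) 1) x = _
  rw [lp.coeFn_zero, Pi.zero_apply, smul_zero]

theorem fn_smul (c : ℂ) (F : l1_L W A) : (c • F).fn = c • F.fn := by
  funext x
  change _ • (c • F.toLp) x = _
  rw [lp.coeFn_smul, Pi.smul_apply, smul_comm]; rfl

instance : Mul (l1_L W A) :=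
  ⟨fun F K => mk (l1_conv F.fn K.fn) (W.conv_summable F.summable K.summable)⟩

theorem fn_mul (F K : l1_L W A) : (F * K).fn = l1_conv F.fn K.fn := fn_mk _ _

open Classical in
theorem single_summable : Summable fun x : G => ‖(Pi.single (1 : G) (1 : A) : G → A) x‖ * W.w x :=
  summable_of_ne_finset_zero (s := {1}) fun x hx => by
    rw [Pi.single_eq_of_ne (by simpa using hx), norm_zero, zero_mul]

open Classical in
instance : One (l1_L W A) := ⟨mk (Pi.single (1 : G) (1 : A)) single_summable⟩

open Classical in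
theorem fn_one : (1 : l1_L W A).fn = Pi.single (1 : G) (1 : A) := fn_mk _ _

instance instRing : Ring (l1_L W A) :=
  { (inferInstance : AddCommGroup (l1_L W A)) with
    mul := (· * ·)
    one := 1
    left_distrib := fun F K H => ext <| by
      rw [fn_add, fn_mul, fn_mul, fn_mul, fn_add]
      funext x
      simp only [l1_conv, Pi.add_apply, mul_add]
      exact (l1_conv_summable F.summable' K.summable' x).tsum_add
        (l1_conv_summable F.summable' H.summable' x)
    right_distrib := fun F K H => ext <| by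
      rw [fn_add, fn_mul, fn_mul, fn_mul, fn_add]
      funext x
      simp only [l1_conv, Pi.add_apply, add_mul]
      exact (l1_conv_summable F.summable' H.summable' x).tsum_add
        (l1_conv_summable K.summable' H.summable' x)
    zero_mul := fun F => ext <| by
      rw [fn_mul, fn_zero]; funext x; simp [l1_conv]
    mul_zero := fun F => ext <| by
      rw [fn_mul, fn_zero]; funext x; simp [l1_conv]
    mul_assoc := fun F K H => ext <| by
      rw [fn_mul, fn_mul, fn_mul, fn_mul, l1_conv_assoc F.summable' K.summable' H.summable']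
    one_mul := fun F => ext <| by
      classical
      rw [fn_mul, fn_one]
      funext x
      rw [l1_conv, tsum_eq_single 1]
      · simp
      · intro y hy; rw [Pi.single_eq_of_ne hy, zero_mul]
    mul_one := fun F => ext <| by
      classical
      rw [fn_mul, fn_one]
      funext x
      rw [l1_conv, tsum_eq_single x]
      · simp
      · intro y hy
        rw [Pi.single_eq_of_ne, mul_zero]
        intro h
        exact hy (inv_mul_eq_one.1 h) }

instance instNormedRing : NormedRing (l1_L W A) :=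
  { (instNACG : NormedAddCommGroup (l1_L W A)), (instRing : Ring (l1_L W A)) with
    norm_mul_le := fun F K => by
      rw [norm_eq, norm_eq, norm_eq, fn_mul]
      exact W.conv_tsum_le F.summable K.summable }

instance : NormOneClass (l1_L W A) :=
  ⟨by
    classical
    rw [norm_eq, fn_one, tsum_eq_single 1]
    · simp [W.h1]
    · intro y hy; rw [Pi.single_eq_of_ne hy, norm_zero, zero_mul]⟩

instance instAlgebra : Algebra ℂ (l1_L W A) :=
  Algebra.ofModule
    (fun c F K => ext <| by
      rw [fn_mul, fn_smul, fn_smul, fn_mul]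
      funext x
      simp only [l1_conv, Pi.smul_apply, smul_mul_assoc]
      exact (l1_conv_summable F.summable' K.summable' x).tsum_const_smul c)
    (fun c F K => ext <| by
      rw [fn_mul, fn_smul, fn_smul, fn_mul]
      funext x
      simp only [l1_conv, Pi.smul_apply, mul_smul_comm]
      exact (l1_conv_summable F.summable' K.summable' x).tsum_const_smul c)

instance instNormedAlgebra : NormedAlgebra ℂ (l1_L W A) :=
  { (instAlgebra : Algebra ℂ (l1_L W A)) with
    norm_smul_le := fun c F => norm_smul_le c F }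

end l1_L

end Crest.Agent.R192
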