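import Crest.Agent.R192.Newton
import Crest.Agent.R192.L1Aux

/-! Row 192: the weighted convolution Banach algebra. -/

set_option autoImplicit false
set_option linter.unusedSectionVars false
set_option linter.unusedVariables false

open scoped ContDiff Matrix Topology
open MeasureTheory

noncomputable section

namespace Crest.Agent.R192

/-! Build the weighted convolution algebra `{f : G → A // Summable fun x => ‖f x‖ * w x}` as a
complete normed `ℂ`-algebra with `‖1‖ = 1` (in this file or in extra files `L1Aux*.lean`):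
norm `∑' x, ‖f x‖ * w x`, product `(f * k) x = ∑' y, f y * k (y⁻¹ * x)`, unit `Pi.single 1 1`.
Completeness: e.g. through the isometry `f ↦ (x ↦ w x • f x)` with `lp (fun _ : G => A) 1`, or
`NormedAddCommGroup.completeSpace_of_summable_imp_tendsto`.  Then apply `Newton.lean`. -/

variable {G : Type} [Group G] {A : Type} [NormedRing A] [NormedAlgebra ℂ A] [CompleteSpace A]
  [NormOneClass A]

theorem exists_isIdem_near {w : G → ℝ} (h1 : w 1 = 1) (h2 : ∀ x, 1 ≤ w x)
    (h3 : ∀ x y, w (x * y) ≤ w x * w y) {a : G → A} (ha : Summable fun x => ‖a x‖ * w x) {δ : ℝ}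
    (hδ : ∑' x, ‖(∑' y, a y * a (y⁻¹ * x)) - a x‖ * w x ≤ δ) (hδ' : δ ≤ 1 / 16) :
    ∃ e : G → A, (Summable fun x => ‖e x‖ * w x) ∧ IsIdem e ∧
      ∑' x, ‖e x - a x‖ * w x ≤ (2 * ∑' x, ‖a x‖ * w x + 1) * (4 * δ) := by
  let W : l1_Wt G := ⟨w, h1, h2, h3⟩
  let F : l1_L W A := l1_L.mk a ha
  have hF : F.fn = a := l1_L.fn_mk _ _
  have hn : ‖F * F - F‖ ≤ δ := by
    rw [l1_L.norm_eq, l1_L.fn_sub, l1_L.fn_mul, hF]
    exact hδ
  obtain ⟨e, he, h4⟩ := exists_idem_near hn hδ'
  refine ⟨e.fn, e.summable, fun x => ?_, ?_⟩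
  · have h5 := congrFun (l1_L.fn_mul e e) x
    rw [he] at h5
    exact h5.symm
  · rw [l1_L.norm_eq, l1_L.norm_eq, l1_L.fn_sub, hF] at h4
    exact h4

theorem l1_ind_le (τ : A →L[ℂ] ℂ) (f : G → A) (C : Set G) (x : G) :
    ‖C.indicator (fun y => τ (f y)) x‖ ≤ ‖τ‖ * ‖f x‖ :=
  (norm_indicator_le_norm_self _ _).trans (τ.le_opNorm _)

theorem l1_ind_summable_norm (τ : A →L[ℂ] ℂ) {f : G → A} (hf : Summable fun x => ‖f x‖)
    (C : Set G) : Summable fun x => ‖C.indicator (fun y => τ (f y)) x‖ :=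
  Summable.of_nonneg_of_le (fun _ => norm_nonneg _) (l1_ind_le τ f C) (hf.mul_left _)

/-- the class trace as a continuous linear form -/
def l1_tr (W : l1_Wt G) (τ : A →L[ℂ] ℂ) (C : Set G) : l1_L W A →L[ℂ] ℂ :=
  LinearMap.mkContinuous
    { toFun := fun F => ctr τ F.fn C
      map_add' := fun F K => by
        unfold ctr
        rw [← (l1_ind_summable_norm τ F.summable' C).of_norm.tsum_add
          (l1_ind_summable_norm τ K.summable' C).of_norm, l1_L.fn_add]
        refine tsum_congr fun x => ?_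
        by_cases hx : x ∈ C <;> simp [hx]
      map_smul' := fun c F => by
        unfold ctr
        rw [RingHom.id_apply, smul_eq_mul, ← tsum_mul_left, l1_L.fn_smul]
        refine tsum_congr fun x => ?_
        by_cases hx : x ∈ C <;> simp [hx] }
    ‖τ‖ fun F => by
      change ‖ctr τ F.fn C‖ ≤ _
      unfold ctr
      refine (norm_tsum_le_tsum_norm (l1_ind_summable_norm τ F.summable' C)).trans ?_
      rw [l1_L.norm_eq, ← tsum_mul_left]
      refine Summable.tsum_le_tsum (fun x => (l1_ind_le τ _ C x).trans ?_)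
        (l1_ind_summable_norm τ F.summable' C) (F.summable.mul_left _)
      exact mul_le_mul_of_nonneg_left (le_mul_of_one_le_right (norm_nonneg _) (W.h2 x))
        (norm_nonneg _)

theorem l1_tr_apply (W : l1_Wt G) (τ : A →L[ℂ] ℂ) (C : Set G) (F : l1_L W A) :
    l1_tr W τ C F = ctr τ F.fn C := rfl

theorem l1_ctr_conv (τ : A →L[ℂ] ℂ) {f k : G → A} (hf : Summable fun x => ‖f x‖)
    (hk : Summable fun x => ‖k x‖) (C : Set G) :
    ctr τ (l1_conv f k) C =
      ∑' p : G × G, C.indicator (fun _ => τ (f p.1 * k p.2)) (p.1 * p.2) := by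
  have h1 : Summable fun p : G × G =>
      C.indicator (fun _ => τ (f p.2 * k (p.2⁻¹ * p.1))) p.1 := by
    refine Summable.of_norm_bounded
      ((l1_summable_shear (fun _ => norm_nonneg _) (fun _ => norm_nonneg _) hf hk).mul_left ‖τ‖)
      fun p => ?_
    exact (norm_indicator_le_norm_self _ _).trans ((τ.le_opNorm _).trans
      (mul_le_mul_of_nonneg_left (norm_mul_le _ _) (norm_nonneg _)))
  rw [← (l1_shear G).tsum_eq]
  have h2 : ∀ p : G × G, C.indicator (fun _ => τ (f (l1_shear G p).1 * k (l1_shear G p).2))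
      ((l1_shear G p).1 * (l1_shear G p).2) =
      C.indicator (fun _ => τ (f p.2 * k (p.2⁻¹ * p.1))) p.1 := by
    intro p
    simp [l1_shear]
  simp only [h2]
  rw [h1.tsum_prod]
  unfold ctr
  refine tsum_congr fun x => ?_
  by_cases hx : x ∈ C
  · simp only [Set.indicator_of_mem hx, l1_conv]
    exact τ.map_tsum (l1_conv_summable hf hk x)
  · simp [hx]

theorem l1_tr_tracial (W : l1_Wt G) {τ : A →L[ℂ] ℂ} (hτ : Tracial τ) {C : Set G}
    (hC : ConjInv C) : Tracial (l1_tr W τ C) := by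
  intro F K
  rw [l1_tr_apply, l1_tr_apply, l1_L.fn_mul, l1_L.fn_mul,
    l1_ctr_conv τ F.summable' K.summable', l1_ctr_conv τ K.summable' F.summable',
    ← (Equiv.prodComm G G).tsum_eq]
  refine tsum_congr fun p => ?_
  simp only [Equiv.prodComm_apply, Prod.fst_swap, Prod.snd_swap]
  by_cases hx : p.1 * p.2 ∈ C
  · have hx' : p.2 * p.1 ∈ C := by simpa [mul_assoc] using hC _ p.2 hx
    rw [Set.indicator_of_mem hx, Set.indicator_of_mem hx', hτ]
  · have hx' : p.2 * p.1 ∉ C := fun h => hx (by simpa [mul_assoc] using hC _ p.1 h)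
    rw [Set.indicator_of_notMem hx, Set.indicator_of_notMem hx']

/-- for the weight `1`, `f ↦ ctr τ f C` is a continuous linear form, and it is a trace:
`ctr τ (f * k) C = ∑' (x, y), if x * y ∈ C then τ (f x * k y) else 0` is symmetric -/
theorem ctr_eq_of_near {τ : A →L[ℂ] ℂ} (hτ : Tracial τ) {e e' : G → A}
    (hs : Summable fun x => ‖e x‖) (hs' : Summable fun x => ‖e' x‖) (he : IsIdem e)
    (he' : IsIdem e') (h : ∑' x, ‖e x - e' x‖ < 1) {C : Set G} (hC : ConjInv C) :
    ctr τ e C = ctr τ e' C := by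
  let W : l1_Wt G := ⟨fun _ => 1, rfl, fun _ => le_rfl, fun _ _ => by simp⟩
  let F : l1_L W A := l1_L.mk e (by simpa [W] using hs)
  let F' : l1_L W A := l1_L.mk e' (by simpa [W] using hs')
  have hF : F.fn = e := l1_L.fn_mk _ _
  have hF' : F'.fn = e' := l1_L.fn_mk _ _
  have h1 : F * F = F := l1_L.ext (by rw [l1_L.fn_mul, hF]; exact funext he)
  have h2 : F' * F' = F' := l1_L.ext (by rw [l1_L.fn_mul, hF']; exact funext he')
  have h3 : ‖F - F'‖ < 1 := by
    rw [l1_L.norm_eq, l1_L.fn_sub, hF, hF']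
    simpa [W] using h
  have h4 := trace_eq_of_near (l1_tr_tracial W hτ hC) h1 h2 h3
  rwa [l1_tr_apply, l1_tr_apply, hF, hF'] at h4

end Crest.Agent.R192
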