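import Crest.Agent.R192.Gibbs

/-! Row 192: lengths on finitely generated groups. -/

set_option autoImplicit false
set_option linter.unusedSectionVars false
set_option linter.unusedVariables false

open scoped ContDiff Matrix Topology Pointwise
open MeasureTheory

noncomputable section

namespace Crest.Agent.R192

variable {G : Type} [Group G] {ℓ : G → ℝ}

/-- Let `S` be a finite symmetric generating set and `|x|` the word length (`Nat.find` on lists
with entries in `S`, `Subgroup.exists_list_of_mem_closure`-style lemmas; see also the word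
length lemmas in `R184/Hyp.lean`).  Take `ℓ = c |x|` with `exp (-c / 2) * card S ≤ 1 / 2`; at most
`(card S) ^ m` elements have length `m`. -/
theorem exists_len [Group.FG G] :
    ∃ ℓ : G → ℝ, IsLen ℓ ∧ Summable fun x => Real.exp (-ℓ x / 2) := by
  classical
  obtain ⟨S, hS⟩ := Group.fg_def.1 ‹Group.FG G›
  set T : Finset G := S ∪ S⁻¹ with hT
  have hTi : T⁻¹ = T := by
    ext x
    simp only [hT, Finset.mem_inv', Finset.mem_union, inv_inv]
    exact or_comm
  have hinv : ∀ {x : G} {n : ℕ}, x ∈ T ^ n → x⁻¹ ∈ T ^ n := by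
    intro x n hx
    rw [← hTi, inv_pow]
    exact Finset.inv_mem_inv hx
  have hmul : ∀ {x y : G} {m n : ℕ}, x ∈ T ^ m → y ∈ T ^ n → x * y ∈ T ^ (m + n) := by
    intro x y m n hx hy
    rw [pow_add]
    exact Finset.mul_mem_mul hx hy
  have hone : (1 : G) ∈ T ^ 0 := by rw [pow_zero]; exact Finset.one_mem_one
  have hex : ∀ x : G, ∃ n, x ∈ T ^ n := by
    intro x
    have hx : x ∈ Subgroup.closure (S : Set G) := hS ▸ Subgroup.mem_top x
    induction hx using Subgroup.closure_induction with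
    | mem x hx => exact ⟨1, by rw [pow_one]; exact Finset.mem_union_left _ hx⟩
    | one => exact ⟨0, hone⟩
    | mul x y _ _ hx hy =>
      obtain ⟨m, hm⟩ := hx
      obtain ⟨n, hn⟩ := hy
      exact ⟨m + n, hmul hm hn⟩
    | inv x _ hx =>
      obtain ⟨n, hn⟩ := hx
      exact ⟨n, hinv hn⟩
  set w : G → ℕ := fun x => Nat.find (hex x) with hw
  have hws : ∀ x, x ∈ T ^ w x := fun x => Nat.find_spec (hex x)
  have hwm : ∀ {x n}, x ∈ T ^ n → w x ≤ n := fun h => Nat.find_min' (hex _) h
  have hN : (0 : ℝ) < 2 * (T.card + 1) := by positivity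
  have hc : 0 ≤ Real.log (2 * (T.card + 1)) := Real.log_nonneg (by
    have : (0 : ℝ) ≤ T.card := Nat.cast_nonneg _
    linarith)
  refine ⟨fun x => 2 * Real.log (2 * (T.card + 1)) * w x, ⟨?_, fun x => ?_, fun x y => ?_⟩, ?_⟩
  · rw [Nat.le_zero.1 (hwm hone)]; simp
  · have h1 : w x⁻¹ = w x :=
      le_antisymm (hwm (hinv (hws x))) (hwm (by simpa using hinv (hws x⁻¹)))
    rw [h1]
  · have h1 : (w (x * y) : ℝ) ≤ w x + w y := by exact_mod_cast hwm (hmul (hws x) (hws y))
    nlinarith
  · have he : ∀ n : ℕ, Real.exp (-(2 * Real.log (2 * (T.card + 1)) * n) / 2) =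
        (2 * ((T.card : ℝ) + 1))⁻¹ ^ n := by
      intro n
      rw [← Real.exp_log (inv_pos.2 hN), ← Real.exp_nat_mul, Real.log_inv]
      congr 1
      ring
    simp only [he]
    refine summable_of_sum_le (c := ∑' n : ℕ, (1 / 2 : ℝ) ^ n) (fun x => by positivity) fun s => ?_
    rw [Finset.sum_comp (fun n : ℕ => (2 * ((T.card : ℝ) + 1))⁻¹ ^ n) w]
    refine le_trans (Finset.sum_le_sum fun n _ => ?_)
      (summable_geometric_two.sum_le_tsum _ fun n _ => by positivity)
    have h1 : (s.filter fun a => w a = n).card ≤ T.card ^ n := by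
      refine le_trans (Finset.card_le_card fun x hx => ?_) (Finset.card_pow_le (s := T) (n := n))
      rw [← (Finset.mem_filter.1 hx).2]
      exact hws x
    have h2 : ((s.filter fun a => w a = n).card : ℝ) ≤ ((T.card : ℝ) + 1) ^ n := by
      calc ((s.filter fun a => w a = n).card : ℝ) ≤ (T.card : ℝ) ^ n := by exact_mod_cast h1
        _ ≤ _ := by gcongr; linarith
    rw [nsmul_eq_mul]
    calc _ ≤ ((T.card : ℝ) + 1) ^ n * (2 * ((T.card : ℝ) + 1))⁻¹ ^ n := by gcongr
      _ = (1 / 2) ^ n := by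
        rw [← mul_pow]
        congr 1
        field_simp

theorem finite_ball (hs : Summable fun x => Real.exp (-ℓ x / 2)) (T : ℝ) :
    {x | ℓ x < T}.Finite := by
  have h := hs.tendsto_cofinite_zero.eventually (gt_mem_nhds (Real.exp_pos (-T / 2)))
  refine (Filter.eventually_cofinite.1 h).subset fun x hx => ?_
  have hx' : ℓ x < T := hx
  exact not_lt.2 (Real.exp_le_exp.2 (by linarith))

/-- `M = 2 * card (ball T)`: the elements `(g ^ m * x)⁻¹ * z` are pairwise distinct -/
theorem exists_far_infinite (hℓ : IsLen ℓ) (hs : Summable fun x => Real.exp (-ℓ x / 2)) {T : ℝ}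
    (hT : 0 < T) : ∃ M : ℕ, 1 ≤ M ∧ ∀ g : G, ¬IsOfFinOrder g → Far ℓ T M g := by
  classical
  have hB := finite_ball hs T
  have h1 : (1 : G) ∈ hB.toFinset := by rw [Set.Finite.mem_toFinset]; simpa [hℓ.one] using hT
  have h2 : 0 < hB.toFinset.card := Finset.card_pos.2 ⟨1, h1⟩
  refine ⟨2 * hB.toFinset.card, by omega, fun g hg x z => Nat.mul_le_mul_left 2 ?_⟩
  refine Finset.card_le_card_of_injOn (fun m => (g ^ m * x)⁻¹ * z) (fun m hm => ?_)
    (fun m _ m' _ e => ?_)
  · rw [Finset.mem_coe, Set.Finite.mem_toFinset]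
    exact (Finset.mem_filter.1 (Finset.mem_coe.1 hm)).2
  · exact (injective_pow_iff_not_isOfFinOrder.2 hg)
      (mul_right_cancel (inv_injective (mul_right_cancel e)))

theorem far_two (hℓ : IsLen ℓ) {T : ℝ} {g : G} (h : ∀ x : G, 2 * T ≤ ℓ (x⁻¹ * g * x)) :
    Far ℓ T 2 g := by
  classical
  intro x z
  have key : ((Finset.range 2).filter fun m => ℓ ((g ^ m * x)⁻¹ * z) < T).card ≤ 1 := by
    refine Finset.card_le_one.2 fun a ha b hb => ?_
    by_contra hab
    have h0 : ∀ m ∈ (Finset.range 2).filter fun m => ℓ ((g ^ m * x)⁻¹ * z) < T,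
        (m = 0 ∨ m = 1) ∧ ℓ ((g ^ m * x)⁻¹ * z) < T := fun m hm => by
      have := Finset.mem_filter.1 hm
      have h3 := Finset.mem_range.1 this.1
      exact ⟨by omega, this.2⟩
    have h1 : ℓ (x⁻¹ * z) < T ∧ ℓ ((g * x)⁻¹ * z) < T := by
      obtain ⟨a1, a2⟩ := h0 a ha
      obtain ⟨b1, b2⟩ := h0 b hb
      rcases a1 with rfl | rfl <;> rcases b1 with rfl | rfl
      · exact absurd rfl hab
      · exact ⟨by simpa using a2, by simpa using b2⟩
      · exact ⟨by simpa using b2, by simpa using a2⟩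
      · exact absurd rfl hab
    have h2 := hℓ.tri x z (g * x)
    rw [hℓ.symm z (g * x), ← mul_assoc] at h2
    have h3 := h x
    linarith [h1.1, h1.2]
  omega

end Crest.Agent.R192
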