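import Crest.Agent.R192.Pat0

/-! Row 192: sums and patching of generating functions. -/

set_option autoImplicit false
set_option linter.unusedSectionVars false
set_option linter.unusedVariables false

open scoped ContDiff Matrix Topology
open MeasureTheory

noncomputable section

namespace Crest.Agent.R192

variable {G : Type} [Group G] {Λ Λ₁ Λ₂ : Gen G} {p : ℕ}

theorem natG_zero : NatG (0 : Gen G) := by
  exact ⟨fun _ _ => contDiff_const, fun _ _ _ _ _ => rfl, fun _ _ _ _ => rfl, fun _ _ _ => rfl,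
    fun _ _ _ _ _ => rfl⟩

theorem NatG.add (h₁ : NatG Λ₁) (h₂ : NatG Λ₂) : NatG (Λ₁ + Λ₂) := by
  refine ⟨fun p L => (h₁.smooth p L).add (h₂.smooth p L), fun p L i ξ ζ => ?_,
    fun p L ξ ζ => ?_, fun p L h => ?_, fun p L ξ ζ t => ?_⟩
  · simp only [Pi.add_apply, h₁.face, h₂.face]
  · simp only [Pi.add_apply, h₁.rot, h₂.rot]
  · simp only [Pi.add_apply, h₁.smul, h₂.smul]
  · simp only [Pi.add_apply, h₁.shift, h₂.shift]

theorem NatG.const_smul (h : NatG Λ) (t : ℝ) : NatG (t • Λ) := by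
  refine ⟨fun p L => (h.smooth p L).const_smul t, fun p L i ξ ζ => ?_,
    fun p L ξ ζ => ?_, fun p L g => ?_, fun p L ξ ζ t => ?_⟩
  · simp only [Pi.smul_apply, h.face]
  · simp only [Pi.smul_apply, h.rot]
  · simp only [Pi.smul_apply, h.smul]
  · simp only [Pi.smul_apply, h.shift]

theorem NatG.sum {ι : Type} (s : Finset ι) {Λ : ι → Gen G} (h : ∀ j ∈ s, NatG (Λ j)) :
    NatG (∑ j ∈ s, Λ j) := by
  classical
  induction s using Finset.induction_on with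
  | empty => simpa using natG_zero
  | insert a s ha ih =>
    rw [Finset.sum_insert ha]
    exact (h a (Finset.mem_insert_self _ _)).add
      (ih fun j hj => h j (Finset.mem_insert_of_mem hj))

theorem en_sum {ι : Type} (s : Finset ι) {Λ : ι → Gen G} (h : ∀ j ∈ s, NatG (Λ j))
    (L : Loop G p) (ξ : Tm p) : en ((∑ j ∈ s, Λ j) p L) ξ = ∑ j ∈ s, en (Λ j p L) ξ := by
  classical
  induction s using Finset.induction_on with
  | empty => simpa using en_zero ξ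
  | insert a s ha ih =>
    have h' : ∀ j ∈ s, NatG (Λ j) := fun j hj => h j (Finset.mem_insert_of_mem hj)
    rw [Finset.sum_insert ha, Finset.sum_insert ha, ← ih h']
    exact en_add ((h a (Finset.mem_insert_self _ _)).smooth p L) ((NatG.sum s h').smooth p L) ξ

theorem mix_sum {ι : Type} (s : Finset ι) {Λ : ι → Gen G} (h : ∀ j ∈ s, NatG (Λ j))
    (L : Loop G p) (r ξ : Tm p) :
    mix ((∑ j ∈ s, Λ j) p L) r ξ = ∑ j ∈ s, mix (Λ j p L) r ξ := by
  classical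
  induction s using Finset.induction_on with
  | empty => simpa using mix_zero r ξ
  | insert a s ha ih =>
    have h' : ∀ j ∈ s, NatG (Λ j) := fun j hj => h j (Finset.mem_insert_of_mem hj)
    rw [Finset.sum_insert ha, Finset.sum_insert ha, ← ih h']
    exact mix_add ((h a (Finset.mem_insert_self _ _)).smooth p L) ((NatG.sum s h').smooth p L) r ξ

theorem covv_sum {ι : Type} (s : Finset ι) {Λ : ι → Gen G} (h : ∀ j ∈ s, NatG (Λ j))
    (L : Loop G p) (r ξ : Tm p) :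
    covv ((∑ j ∈ s, Λ j) p L) r ξ = ∑ j ∈ s, covv (Λ j p L) r ξ := by
  classical
  induction s using Finset.induction_on with
  | empty => simpa using covv_zero r ξ
  | insert a s ha ih =>
    have h' : ∀ j ∈ s, NatG (Λ j) := fun j hj => h j (Finset.mem_insert_of_mem hj)
    rw [Finset.sum_insert ha, Finset.sum_insert ha, ← ih h']
    exact covv_add ((h a (Finset.mem_insert_self _ _)).smooth p L) ((NatG.sum s h').smooth p L) r ξ

theorem Good.sum {ι : Type} (s : Finset ι) {Λ : ι → Gen G} (h : ∀ j ∈ s, NatG (Λ j))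
    {L : Loop G p} {r ξ : Tm p} {ε : ℝ} {c B : ι → ℝ}
    (hg : ∀ j ∈ s, Good ε (c j) (B j) (Λ j p L) r ξ) :
    Good ε (∑ j ∈ s, c j) (∑ j ∈ s, B j) ((∑ j ∈ s, Λ j) p L) r ξ := by
  refine ⟨⟨?_, ?_⟩, ?_⟩
  · rw [mix_sum s h]
    exact CostLe.sum s fun j hj => (hg j hj).cost
  · rw [covv_sum s h]
    exact (nrm_sum_le s _).trans (Finset.sum_le_sum fun j hj => (hg j hj).cov)
  · rw [mix_sum s h]
    exact NucLe.sum s fun j hj => (hg j hj).nuc

theorem pat_diff {Λ : Tm p × Tm p → ℝ} (h : ContDiff ℝ ∞ Λ) (a b : Tm p) :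
    DifferentiableAt ℝ (fun ζ => Λ (a, ζ)) b :=
  ((h.differentiable (by simp)) (a, b)).comp b
    ((differentiableAt_const a).prodMk differentiableAt_id)

theorem pat_part {Λ : Tm p × Tm p → ℝ} (h : ContDiff ℝ ∞ Λ) (a b c : Tm p) :
    fderiv ℝ (fun ζ => Λ (a, ζ)) b c = fderiv ℝ Λ (a, b) (0, c) := by
  have h1 : HasFDerivAt (fun ζ : Tm p => (a, ζ))
      ((0 : Tm p →L[ℝ] Tm p).prod (ContinuousLinearMap.id ℝ (Tm p))) b :=
    (hasFDerivAt_const a b).prodMk (hasFDerivAt_id b)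
  have h2 := (((h.differentiable (by simp)) (a, b)).hasFDerivAt.comp b h1).fderiv
  have e : (fun ζ => Λ (a, ζ)) = Λ ∘ fun ζ : Tm p => (a, ζ) := rfl
  rw [e, h2]
  simp

theorem pat_diff2 {Λ : Tm p × Tm p → ℝ} (h : ContDiff ℝ ∞ Λ) (b c x : Tm p) :
    DifferentiableAt ℝ (fun a => fderiv ℝ (fun ζ => Λ (a, ζ)) b c) x := by
  simp only [pat_part h]
  have h1 : ContDiff ℝ ∞ (fderiv ℝ Λ) := h.fderiv_right (by simp)
  exact (((h1.differentiable (by simp)) (x, b)).comp x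
    (differentiableAt_id.prodMk (differentiableAt_const b))).clm_apply (differentiableAt_const _)

theorem pat_comb {Λ Λ' : Tm p × Tm p → ℝ} (h : ContDiff ℝ ∞ Λ) (h' : ContDiff ℝ ∞ Λ')
    (f g : Tm p → ℝ) (a b c : Tm p) :
    fderiv ℝ (fun ζ => (fun w : Tm p × Tm p => f w.1 * Λ w + g w.1 * Λ' w) (a, ζ)) b c =
      f a * fderiv ℝ (fun ζ => Λ (a, ζ)) b c + g a * fderiv ℝ (fun ζ => Λ' (a, ζ)) b c := by
  have h1 := (((pat_diff h a b).hasFDerivAt.const_mul (f a)).add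
    ((pat_diff h' a b).hasFDerivAt.const_mul (g a))).fderiv
  have e : (fun ζ => (fun w : Tm p × Tm p => f w.1 * Λ w + g w.1 * Λ' w) (a, ζ)) =
      (fun ζ => f a * Λ (a, ζ)) + fun ζ => g a * Λ' (a, ζ) := rfl
  rw [e, h1]
  simp

theorem pat_cov {Λ Λ' : Tm p × Tm p → ℝ} (h : ContDiff ℝ ∞ Λ) (h' : ContDiff ℝ ∞ Λ')
    (f g : Tm p → ℝ) (ξ c : Tm p) :
    cov (fun w : Tm p × Tm p => f w.1 * Λ w + g w.1 * Λ' w) ξ c =
      f ξ * cov Λ ξ c + g ξ * cov Λ' ξ c :=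
  pat_comb h h' f g ξ ξ c

theorem pat_mixF {Λ Λ' : Tm p × Tm p → ℝ} (h : ContDiff ℝ ∞ Λ) (h' : ContDiff ℝ ∞ Λ')
    {f g : Tm p → ℝ} {ξ : Tm p} (hf : DifferentiableAt ℝ f ξ) (hg : DifferentiableAt ℝ g ξ)
    (c c' : Tm p) :
    mixF (fun w : Tm p × Tm p => f w.1 * Λ w + g w.1 * Λ' w) ξ c c' =
      f ξ * mixF Λ ξ c c' + g ξ * mixF Λ' ξ c c' +
        (fderiv ℝ f ξ c * cov Λ ξ c' + fderiv ℝ g ξ c * cov Λ' ξ c') := by
  unfold mixF
  simp only [pat_comb h h']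
  have h1 := ((hf.hasFDerivAt.mul (pat_diff2 h ξ c' ξ).hasFDerivAt).add
    (hg.hasFDerivAt.mul (pat_diff2 h' ξ c' ξ).hasFDerivAt)).fderiv
  have e : (fun a => f a * fderiv ℝ (fun ζ => Λ (a, ζ)) ξ c' +
      g a * fderiv ℝ (fun ζ => Λ' (a, ζ)) ξ c') =
      (f * fun a => fderiv ℝ (fun ζ => Λ (a, ζ)) ξ c') +
        g * fun a => fderiv ℝ (fun ζ => Λ' (a, ζ)) ξ c' := rfl
  rw [e, h1]
  simp only [add_apply, smul_apply, smul_eq_mul, cov]
  ring

/-- the energy is the derivative at `t = 0` of `t ↦ Λ (ξ, ξ + t)` -/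
theorem hasDerivAt_en {Λ : Tm p × Tm p → ℝ} (h : ContDiff ℝ ∞ Λ) (ξ : Tm p) :
    HasDerivAt (fun t : ℝ => Λ (ξ, fun l => ξ l + t)) (en Λ ξ) 0 := by
  have h1 : HasDerivAt (fun t : ℝ => fun l => ξ l + t) (fun _ : Fin (p + 1) => (1 : ℝ)) 0 :=
    hasDerivAt_pi.2 fun l => (hasDerivAt_id (0 : ℝ)).const_add (ξ l)
  have h2 : HasFDerivAt (fun ζ => Λ (ξ, ζ)) (cov Λ ξ) (fun l => ξ l + 0) := by
    have e : (fun l => ξ l + 0) = ξ := by funext l; simp
    rw [e]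
    exact (pat_diff h ξ ξ).hasFDerivAt
  exact h2.comp_hasDerivAt (0 : ℝ) h1

theorem NatG.en_face (h : NatG Λ) (L : Loop G (p + 1)) (i : Fin (p + 2)) (ξ : Tm p) :
    en (Λ (p + 1) L) (faceT i ξ) = en (Λ p (L.face i)) ξ := by
  refine (hasDerivAt_en (h.smooth _ L) (faceT i ξ)).unique ?_
  have := hasDerivAt_en (h.smooth _ (L.face i)) ξ
  simpa only [← faceT_add_const, h.face] using this

theorem NatG.en_rot (h : NatG Λ) (L : Loop G p) (ξ : Tm p) :
    en (Λ p L.rot) (nxt ξ) = en (Λ p L) ξ := by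
  refine (hasDerivAt_en (h.smooth _ L.rot) (nxt ξ)).unique ?_
  have := hasDerivAt_en (h.smooth _ L) ξ
  simpa only [← nxt_add_const, h.rot] using this

theorem NatG.en_shift (h : NatG Λ) (L : Loop G p) (ξ : Tm p) (t : ℝ) :
    en (Λ p L) (fun l => ξ l + t) = en (Λ p L) ξ := by
  refine (hasDerivAt_en (h.smooth _ L) (fun l => ξ l + t)).unique ?_
  have := hasDerivAt_en (h.smooth _ L) ξ
  have e : (fun u : ℝ => Λ p L (fun l => ξ l + t, fun l => ξ l + t + u)) =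
      fun u : ℝ => Λ p L (ξ, fun l => ξ l + u) := by
    funext u
    rw [← h.shift p L ξ (fun l => ξ l + u) t]
    congr 2
    funext l
    ring
  rw [e]
  exact this

theorem NatG.pat (h₁ : NatG Λ₁) (h₂ : NatG Λ₂) : NatG (pat Λ₁ Λ₂) := by
  refine ⟨fun p L => ?_, fun p L i ξ ζ => ?_, fun p L ξ ζ => ?_, fun p L h => ?_,
    fun p L ξ ζ t => ?_⟩
  · have he : ContDiff ℝ ∞ fun w : Tm p × Tm p => en (Λ₁ p L) w.1 :=
      (contDiff_en (h₁.smooth p L)).comp contDiff_fst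
    exact ((contDiff_ku.comp he).mul (h₁.smooth p L)).add
      ((contDiff_const.sub (contDiff_kχ.comp he)).mul (h₂.smooth p L))
  · simp only [R192.pat, h₁.en_face, h₁.face, h₂.face]
  · simp only [R192.pat, h₁.en_rot, h₁.rot, h₂.rot]
  · funext w
    simp only [R192.pat, h₁.smul, h₂.smul]
  · simp only [R192.pat, h₁.en_shift, h₁.shift, h₂.shift]

theorem en_pat (h₁ : NatG Λ₁) (h₂ : NatG Λ₂) (L : Loop G p) (ξ : Tm p) :
    en (pat Λ₁ Λ₂ p L) ξ
      = kχ (en (Λ₁ p L) ξ) + (1 - kχ (en (Λ₁ p L) ξ)) * en (Λ₂ p L) ξ := by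
  have := pat_cov (h₁.smooth p L) (h₂.smooth p L) (fun a => ku (en (Λ₁ p L) a))
    (fun a => 1 - kχ (en (Λ₁ p L) a)) ξ (fun _ => 1)
  exact this.trans (congrArg (· + _) (ku_mul _))

/-- `mix (pat) = ku H • mix Λ₁ + (1 - kχ H) • mix Λ₂ + vecMulVec (dH / r)
(ku' H • covv Λ₁ - kχ' H • covv Λ₂)` with `H = en Λ₁` -/
theorem Good.pat (h₁ : NatG Λ₁) (h₂ : NatG Λ₂) {L : Loop G p} {r ξ : Tm p} (hr : ∀ l, 0 < r l)
    {ε c₁ c₂ B₁ B₂ : ℝ} (hε : 0 < ε) (hg : Good ε c₁ B₁ (Λ₁ p L) r ξ)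
    (hf : Fine ε c₂ B₂ (Λ₂ p L) r ξ) :
    Fine ε (c₁ + c₂ + Real.log (1 + 2 * B₁ * nrm r * ((cs + 1) * (B₁ + B₂)) / ε)) (B₁ + B₂)
      (pat Λ₁ Λ₂ p L) r ξ := by
  have s₁ := h₁.smooth p L
  have s₂ := h₂.smooth p L
  set H := en (Λ₁ p L) with hH
  have dH : HasFDerivAt H (fderiv ℝ H ξ) ξ :=
    (((contDiff_en s₁).differentiable (by simp)) ξ).hasFDerivAt
  have df : HasFDerivAt (fun a => ku (H a)) (deriv ku (H ξ) • fderiv ℝ H ξ) ξ :=
    ((contDiff_ku.differentiable (by simp)) (H ξ)).hasDerivAt.comp_hasFDerivAt ξ dH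
  have dg : HasFDerivAt (fun a => 1 - kχ (H a)) (-(deriv kχ (H ξ) • fderiv ℝ H ξ)) ξ :=
    (((contDiff_kχ.differentiable (by simp)) (H ξ)).hasDerivAt.comp_hasFDerivAt ξ dH).const_sub 1
  have eP : R192.pat Λ₁ Λ₂ p L = fun w : Tm p × Tm p =>
      (fun a => ku (H a)) w.1 * Λ₁ p L w + (fun a => 1 - kχ (H a)) w.1 * Λ₂ p L w := rfl
  have hu := abs_ku_le (H ξ)
  have hχ : |1 - kχ (H ξ)| ≤ 1 :=
    abs_le.2 ⟨by linarith [kχ_le_one (H ξ)], by linarith [kχ_nonneg (H ξ)]⟩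
  have hB₁ : 0 ≤ B₁ := (nrm_nonneg _).trans hg.cov
  have hB₂ : 0 ≤ B₂ := (nrm_nonneg _).trans hf.cov
  constructor
  · have e : mix (R192.pat Λ₁ Λ₂ p L) r ξ =
        ku (H ξ) • mix (Λ₁ p L) r ξ + (1 - kχ (H ξ)) • mix (Λ₂ p L) r ξ +
          Matrix.vecMulVec (fun i => fderiv ℝ H ξ (Pi.single i 1) / r i)
            (deriv ku (H ξ) • covv (Λ₁ p L) r ξ + (-deriv kχ (H ξ)) • covv (Λ₂ p L) r ξ) := by
      ext i l
      have hi := (hr i).ne'
      have hl := (hr l).ne'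
      rw [eP]
      simp only [mix, Matrix.of_apply, Matrix.add_apply, Matrix.smul_apply, smul_eq_mul,
        Matrix.vecMulVec_apply, Pi.add_apply, Pi.smul_apply, covv]
      rw [pat_mixF s₁ s₂ df.differentiableAt dg.differentiableAt, df.fderiv, dg.fderiv]
      simp only [neg_apply, smul_apply, smul_eq_mul]
      field_simp
    rw [e]
    refine ((hg.cost.smul hε hu).add (hf.cost.smul hε hχ)).add
      (costLe_vecMulVec hε (nrm_fderiv_en_le s₁ (h₁.shift p L) hr hg.nuc) ?_)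
    refine (nrm_add_le _ _).trans ?_
    rw [nrm_smul, nrm_smul, abs_neg]
    have e1 := mul_le_mul (abs_deriv_ku_le (H ξ)) hg.cov (nrm_nonneg _)
      (by linarith [one_le_cs])
    have e2 := mul_le_mul (abs_deriv_kχ_le (H ξ)) hf.cov (nrm_nonneg _)
      (by linarith [one_le_cs])
    nlinarith
  · have e : covv (R192.pat Λ₁ Λ₂ p L) r ξ =
        ku (H ξ) • covv (Λ₁ p L) r ξ + (1 - kχ (H ξ)) • covv (Λ₂ p L) r ξ := by
      funext l
      rw [eP]
      simp only [covv, Pi.add_apply, Pi.smul_apply, smul_eq_mul]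
      rw [pat_cov s₁ s₂ (fun a => ku (H a)) (fun a => 1 - kχ (H a))]
      ring
    rw [e]
    refine (nrm_add_le _ _).trans ?_
    rw [nrm_smul, nrm_smul]
    have e1 := mul_le_mul hu hg.cov (nrm_nonneg _) zero_le_one
    have e2 := mul_le_mul hχ hf.cov (nrm_nonneg _) zero_le_one
    linarith

end Crest.Agent.R192
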