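import Crest.Agent.R192.Gen
import Crest.Agent.R192.Pat
import Crest.Agent.R192.Fld

/-! Row 192: the one-level forms; the first regime. -/

set_option autoImplicit false
set_option linter.unusedSectionVars false
set_option linter.unusedVariables false

open scoped ContDiff Matrix Topology
open MeasureTheory

noncomputable section

namespace Crest.Agent.R192

variable {G : Type} [Group G] {p : ℕ} {ℓ : G → ℝ}

theorem rr_pos (hℓ : IsLen ℓ) (L : Loop G p) (l : Fin (p + 1)) : 0 < rr ℓ L l := by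
  have := hℓ.nonneg (L.jump l)
  unfold rr
  linarith

theorem one_le_rr (hℓ : IsLen ℓ) (L : Loop G p) (l : Fin (p + 1)) : 1 ≤ rr ℓ L l := by
  have := hℓ.nonneg (L.jump l)
  unfold rr
  linarith

theorem natG_lev {φ : ℝ → ℝ} (hφ : ContDiff ℝ ∞ φ) (hℓ : IsLen ℓ)
    (hs : Summable fun x => Real.exp (-ℓ x / 2)) {η : ℝ} (hη : 0 < η) : NatG (lev φ ℓ η) := by
  obtain ⟨h, hh⟩ := kb_Lη hη
  exact natG_gen hφ (eqv_fld _ _) (eqv_fld _ _)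
    (fun _ L => smP_fld (rk_Rη hη) (contDiff_Rη η) hℓ hs L)
    (fun _ L => smF_fld hh (contDiff_Lη η) hℓ L)

/-- `locB_dv_R`, `LocB.vb`: `(lip/η)² N (9η/2 + 1) (3η) ≤ 14 lip² N (1 + η) / η` -/
theorem vb_dv_R {η lip : ℝ} (hη : 0 < η) (hlip : 0 ≤ lip) (hℓ : IsLen ℓ) (L : Loop G p)
    {r : Tm p} (hr : ∀ l, 0 < r l) (hl : ∀ l, ℓ (L.jump l) ≤ lip * r l) (ξ : Tm p) :
    VB (14 * lip ^ 2 * (p + 1) * (1 + η) / η) (dv (fld (Rη η) ℓ p L) r ξ) := by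
  refine ((locB_dv_R hη hℓ L hr hl ξ).vb (by positivity) (by positivity)).mono ?_
  have h1 : (lip * (1 / η)) ^ 2 * (((p : ℝ) + 1) * ((6 * (3 * η / 4) + 1) * (4 * (3 * η / 4)))) =
      lip ^ 2 * (p + 1) * (27 / 2 * η + 3) / η := by
    field_simp
    ring
  rw [h1]
  refine div_le_div_of_nonneg_right ?_ hη.le
  have h2 : 0 ≤ lip ^ 2 * ((p : ℝ) + 1) := by positivity
  nlinarith [mul_nonneg h2 hη.le]

/-- `lip² N (9η + 1) (6η) ≤ 54 lip² N η (1 + η)` -/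
theorem vb_dv_L {η lip : ℝ} (hη : 0 < η) (hlip : 0 ≤ lip) (hℓ : IsLen ℓ) (L : Loop G p)
    {r : Tm p} (hr : ∀ l, 0 < r l) (hl : ∀ l, ℓ (L.jump l) ≤ lip * r l) (ξ : Tm p) :
    VB (54 * lip ^ 2 * (p + 1) * η * (1 + η)) (dv (fld (Lη η) ℓ p L) r ξ) := by
  refine ((locB_dv_L hη hℓ L hr hl ξ).vb (by positivity) (by positivity)).mono ?_
  have h2 : 0 ≤ lip ^ 2 * ((p : ℝ) + 1) * η := by positivity
  nlinarith

/-- `nuc_gen`: `14 * 54 = 756 ≤ 28 ^ 2` -/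
theorem nuc_lev {φ : ℝ → ℝ} (hφ : ContDiff ℝ ∞ φ) {c : ℝ} (h1 : ∀ x, |φ x| ≤ 1)
    (h2 : ∀ x, |deriv φ x| ≤ c) (hℓ : IsLen ℓ) (hs : Summable fun x => Real.exp (-ℓ x / 2))
    {η lip : ℝ} (hη : 0 < η) (hlip : 0 ≤ lip) (L : Loop G p) {r : Tm p} (hr : ∀ l, 0 < r l)
    (hl : ∀ l, ℓ (L.jump l) ≤ lip * r l) (ξ : Tm p) :
    NucLe (mix (lev φ ℓ η p L) r ξ) ((2 + c) * (28 * lip ^ 2 * (p + 1) * (1 + η))) := by
  obtain ⟨h, hh⟩ := kb_Lη hη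
  refine (nuc_gen hφ (smP_fld (rk_Rη hη) (contDiff_Rη η) hℓ hs L)
    (smF_fld hh (contDiff_Lη η) hℓ L) h1 h2 (vb_dv_R hη hlip hℓ L hr hl ξ)
    (vb_dv_L hη hlip hℓ L hr hl ξ)).mono ?_
  have hc : 0 ≤ c := (abs_nonneg _).trans (h2 0)
  refine mul_le_mul_of_nonneg_left (Real.sqrt_le_iff.2 ⟨by positivity, ?_⟩) (by positivity)
  have h3 : 14 * lip ^ 2 * ((p : ℝ) + 1) * (1 + η) / η * (54 * lip ^ 2 * (p + 1) * η * (1 + η)) =
      756 * (lip ^ 2 * (p + 1) * (1 + η)) ^ 2 := by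
    field_simp
    ring
  rw [h3]
  nlinarith [sq_nonneg (lip ^ 2 * ((p : ℝ) + 1) * (1 + η))]

/-- `covv_gen_le`: `√(54 lip² N η (1 + η)) ≤ 8 lip N (1 + η)` -/
theorem covv_lev {φ : ℝ → ℝ} (hφ : ContDiff ℝ ∞ φ) (h1 : ∀ x, |φ x| ≤ 1) (hℓ : IsLen ℓ)
    (hs : Summable fun x => Real.exp (-ℓ x / 2)) {η lip : ℝ} (hη : 0 < η) (hlip : 0 ≤ lip)
    (L : Loop G p) {r : Tm p} (hr : ∀ l, 0 < r l) (hl : ∀ l, ℓ (L.jump l) ≤ lip * r l)
    (ξ : Tm p) : nrm (covv (lev φ ℓ η p L) r ξ) ≤ 8 * lip * (p + 1) * (1 + η) := by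
  obtain ⟨h, hh⟩ := kb_Lη hη
  refine (covv_gen_le hφ (smP_fld (rk_Rη hη) (contDiff_Rη η) hℓ hs L)
    (smF_fld hh (contDiff_Lη η) hℓ L) h1 (vb_dv_L hη hlip hℓ L hr hl ξ)).trans ?_
  refine Real.sqrt_le_iff.2 ⟨by positivity, ?_⟩
  have hp : (0 : ℝ) ≤ p := Nat.cast_nonneg p
  have h2 : 0 ≤ lip ^ 2 * ((p : ℝ) + 1) * (1 + η) := by positivity
  have h3 : 54 * η ≤ 64 * ((p : ℝ) + 1) * (1 + η) := by nlinarith [mul_nonneg hp hη.le]
  nlinarith [mul_le_mul_of_nonneg_left h3 h2]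

/-- `en_gen_ge` and `dF_fld_L_one` -/
theorem en_lev_ge {φ : ℝ → ℝ} (hφ : ContDiff ℝ ∞ φ) (h0 : ∀ x, 0 ≤ φ x) (hℓ : IsLen ℓ)
    (hs : Summable fun x => Real.exp (-ℓ x / 2)) {η : ℝ} (hη : 0 < η) (L : Loop G p) (ξ : Tm p) :
    ∫ s in (0 : ℝ)..1, φ (Ff (fld (Rη η) ℓ p L (s, ξ))) *
        (Ff (fld (Rη (2 * η)) ℓ p L (s, ξ)) - Ff (fld (Rη η) ℓ p L (s, ξ)))
      ≤ en (lev φ ℓ η p L) ξ := by
  obtain ⟨h, hh⟩ := kb_Lη hη
  exact en_gen_ge hφ h0 (smP_fld (rk_Rη hη) (contDiff_Rη η) hℓ hs L)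
    (smF_fld hh (contDiff_Lη η) hℓ L) (W := fld (Rη (2 * η)) ℓ)
    (smP_fld (rk_Rη (by positivity)) (contDiff_Rη _) hℓ hs L) ξ
    fun s z => dF_fld_L_one hη L (s, ξ) z

theorem sc_pos {n : ℕ} (hn : 1 ≤ n) (j : ℕ) : 0 < sc n j := by
  have : (0 : ℝ) < n := by exact_mod_cast hn
  unfold sc
  positivity

theorem sc_succ (n j : ℕ) : sc n (j + 1) = 2 * sc n j := by
  unfold sc
  ring

theorem sc_add_three (n j : ℕ) : sc n (j + 3) = 8 * sc n j := by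
  unfold sc
  ring

theorem sc_mono (n : ℕ) {j j' : ℕ} (h : j ≤ j') : sc n j ≤ sc n j' := by
  unfold sc
  exact div_le_div_of_nonneg_right (pow_le_pow_right₀ one_le_two h) (Nat.cast_nonneg n)

theorem natG_ΛA (hℓ : IsLen ℓ) (hs : Summable fun x => Real.exp (-ℓ x / 2)) {n : ℕ} (hn : 1 ≤ n)
    (θ : ℝ) (a : ℕ) : NatG (ΛA ℓ n θ a) := by
  exact (NatG.sum _ fun j _ => natG_lev contDiff_const hℓ hs (sc_pos hn j)).const_smul _

/-- each level has nuclear norm `≤ 2 * 28 * N * 2 ≤ 336 n` (`lip = 1`, `c = 0`, `η ≤ 1`,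
`N = p + 1 ≤ 3 n`), so the average divided by `336 / ε` has nuclear norm `≤ ε n` -/
theorem good_ΛA (hℓ : IsLen ℓ) (hs : Summable fun x => Real.exp (-ℓ x / 2)) {n a : ℕ}
    (hn : 1 ≤ n) (ha : 1 ≤ a) (han : 2 ^ a ≤ n) {ε : ℝ} (hε : 0 < ε) (hp : p ≤ 2 * n)
    (L : Loop G p) (ξ : Tm p) : Good ε n (ε * n) (ΛA ℓ n (336 / ε) a p L) (rr ℓ L) ξ := by
  have hn0 : (0 : ℝ) < n := by exact_mod_cast hn
  have ha0 : (0 : ℝ) < a := by exact_mod_cast ha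
  have hG : ∀ j ∈ Finset.range a, NatG (lev (fun _ => 1) ℓ (sc n j)) := fun j _ =>
    natG_lev contDiff_const hℓ hs (sc_pos hn j)
  have hsm := (NatG.sum _ hG).smooth p L
  have hr := rr_pos hℓ L
  have hl : ∀ l, ℓ (L.jump l) ≤ 1 * rr ℓ L l := fun l => by
    unfold rr
    linarith
  have hp' : (p : ℝ) + 1 ≤ 3 * n := by exact_mod_cast (by omega : p + 1 ≤ 3 * n)
  have hN : ∀ j ∈ Finset.range a, ((p : ℝ) + 1) * (1 + sc n j) ≤ 6 * n := fun j hj => by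
    have h1 : sc n j ≤ 1 := (sc_mono n (Finset.mem_range.1 hj).le).trans (by
      unfold sc
      rw [div_le_one hn0]
      exact_mod_cast han)
    have h2 := mul_le_mul hp' (show 1 + sc n j ≤ 2 by linarith)
      (by linarith [sc_pos hn j]) (by positivity)
    linarith
  have ht : 0 ≤ (336 / ε * a)⁻¹ := by positivity
  have e : (336 / ε * a)⁻¹ * ∑ _j ∈ Finset.range a, 336 * (n : ℝ) = ε * n := by
    rw [Finset.sum_const, Finset.card_range, nsmul_eq_mul]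
    field_simp
  have e' : ΛA ℓ n (336 / ε) a p L =
      (336 / ε * a)⁻¹ • (∑ j ∈ Finset.range a, lev (fun _ => 1) ℓ (sc n j)) p L := rfl
  have hnuc : NucLe (mix (ΛA ℓ n (336 / ε) a p L) (rr ℓ L) ξ) (ε * n) := by
    rw [e', mix_smul hsm, mix_sum _ hG, ← e]
    refine (NucLe.sum _ fun j hj => ?_).smul ht
    refine (nuc_lev (c := 0) contDiff_const (by simp) (by simp) hℓ hs (sc_pos hn j) zero_le_one L
      hr hl ξ).mono ?_
    linarith [hN j hj]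
  refine ⟨⟨?_, ?_⟩, hnuc⟩
  · have := hnuc.cost hε
    rwa [mul_div_cancel_left₀ _ hε.ne'] at this
  · rw [e', covv_smul hsm, covv_sum _ hG, nrm_smul, abs_of_nonneg ht, ← e]
    refine mul_le_mul_of_nonneg_left ((nrm_sum_le _ _).trans (Finset.sum_le_sum fun j hj => ?_)) ht
    refine (covv_lev contDiff_const (by simp) hℓ hs (sc_pos hn j) zero_le_one L hr hl ξ).trans ?_
    linarith [hN j hj]

/-- telescoping `en_lev_ge`, and `IF_fld_le` at the scale `1 / n` -/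
theorem IF_le_of_ΛA (hℓ : IsLen ℓ) (hs : Summable fun x => Real.exp (-ℓ x / 2)) {n a : ℕ}
    (hn : 1 ≤ n) (ha : 1 ≤ a) {θ θ₀ : ℝ} (hθ : 0 < θ) (L : Loop G p) (ht : tot ℓ L ≤ θ₀ * n)
    {ξ : Tm p} (hξ : Sx ξ) (h : en (ΛA ℓ n θ a p L) ξ ≤ 2) :
    IF (fld (Rη (sc n a)) ℓ p L) ξ ≤ 3 * θ₀ + 2 * θ * a := by
  have hn0 : (0 : ℝ) < n := by exact_mod_cast hn
  have ha0 : (0 : ℝ) < a := by exact_mod_cast ha
  have hG : ∀ j ∈ Finset.range a, NatG (lev (fun _ => 1) ℓ (sc n j)) := fun j _ =>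
    natG_lev contDiff_const hℓ hs (sc_pos hn j)
  have e' : ΛA ℓ n θ a p L =
      (θ * a)⁻¹ • (∑ j ∈ Finset.range a, lev (fun _ => 1) ℓ (sc n j)) p L := rfl
  rw [e', en_smul ((NatG.sum _ hG).smooth p L), en_sum _ hG,
    inv_mul_le_iff₀ (mul_pos hθ ha0)] at h
  have hi : ∀ j, IntervalIntegrable (fun s => Ff (fld (Rη (sc n j)) ℓ p L (s, ξ))) volume 0 1 :=
    fun j => ((smP_fld (rk_Rη (sc_pos hn j)) (contDiff_Rη _) hℓ hs L).continuous_Ff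
      ξ).intervalIntegrable _ _
  have h1 : ∑ j ∈ Finset.range a, (IF (fld (Rη (sc n (j + 1))) ℓ p L) ξ -
      IF (fld (Rη (sc n j)) ℓ p L) ξ) ≤
      ∑ j ∈ Finset.range a, en (lev (fun _ => 1) ℓ (sc n j) p L) ξ := by
    refine Finset.sum_le_sum fun j _ => le_of_eq_of_le ?_
      (en_lev_ge contDiff_const (fun _ => zero_le_one) hℓ hs (sc_pos hn j) L ξ)
    unfold IF
    rw [← intervalIntegral.integral_sub (hi _) (hi _), sc_succ]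
    simp only [one_mul]
  rw [Finset.sum_range_sub fun j => IF (fld (Rη (sc n j)) ℓ p L) ξ] at h1
  have h2 := IF_fld_le (sc_pos hn 0) hℓ hs L hξ
  have h3 : sc n 0 * tot ℓ L ≤ θ₀ := by
    unfold sc
    rw [pow_zero, one_div, inv_mul_le_iff₀ hn0, mul_comm]
    exact ht
  linarith

end Crest.Agent.R192
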