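import Crest.Agent.R192.Defs

/-! Row 192: a numerical estimate. -/

set_option autoImplicit false
set_option linter.unusedSectionVars false
set_option linter.unusedVariables false

open scoped ContDiff Matrix Topology
open MeasureTheory

noncomputable section

namespace Crest.Agent.R192

theorem num_geo (i N : ℕ) : ∑ j ∈ Finset.Ico (4 * i) N, (1 : ℝ) / 2 ^ (j / 4) ≤ 8 / 2 ^ i := by
  rcases le_or_gt (4 * i) N with h | h
  · have key : ∑ j ∈ Finset.Ico (4 * i) N, (1 : ℝ) / 2 ^ (j / 4) =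
        8 / 2 ^ i - (8 - (N % 4 : ℕ)) / 2 ^ (N / 4) := by
      induction N, h using Nat.le_induction with
      | base => simp
      | succ N hN ih =>
        rw [Finset.sum_Ico_succ_top hN, ih]
        rcases Nat.lt_or_ge (N % 4) 3 with h3 | h3
        · have e1 : (N + 1) / 4 = N / 4 := by omega
          have e2 : (N + 1) % 4 = N % 4 + 1 := by omega
          rw [e1, e2]; push_cast; ring
        · have e1 : (N + 1) / 4 = N / 4 + 1 := by omega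
          have e2 : (N + 1) % 4 = 0 := by omega
          have e3 : N % 4 = 3 := by omega
          rw [e1, e2, e3]; push_cast; ring
    rw [key]
    have : ((N % 4 : ℕ) : ℝ) ≤ 8 := by exact_mod_cast (by omega : N % 4 ≤ 8)
    have : (0 : ℝ) ≤ (8 - (N % 4 : ℕ)) / 2 ^ (N / 4) := div_nonneg (by linarith) (by positivity)
    linarith
  · rw [Finset.Ico_eq_empty_of_le h.le, Finset.sum_empty]; positivity

theorem num_term {ν c j : ℕ} {K : ℝ} (hK : 0 ≤ K) (hj : j < 4 * ν + c) :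
    (((2 ^ min (j / 4) ν : ℕ) : ℝ) ^ 3 *
        (16 / sc (16 ^ ν) j + 1) + K * 16 ^ ν * (1 + sc (16 ^ ν) j) / (2 ^ min (j / 4) ν : ℕ))
      ≤ 16 ^ ν * ((16 + 2 * K) * (1 / 2 ^ (j / 4)) + (17 + K * (1 + 2 ^ c)) / 2 ^ ν) := by
  have e16 : (16 : ℝ) ^ ν = 2 ^ (4 * ν) := by rw [pow_mul]; norm_num
  have h2 : ∀ {a b : ℕ}, a ≤ b → (2 : ℝ) ^ a ≤ 2 ^ b := fun h => pow_le_pow_right₀ one_le_two h
  unfold sc
  push_cast
  rw [e16]
  have hy : ((2 : ℝ) ^ min (j / 4) ν) ^ 3 ≤ 2 ^ (4 * ν) / 2 ^ ν := by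
    rw [le_div_iff₀ (by positivity), ← pow_mul, ← pow_add]
    exact h2 (by omega)
  have p1 : (0 : ℝ) ≤ 2 ^ (4 * ν) / 2 ^ ν := by positivity
  have p2 : (0 : ℝ) ≤ 2 ^ (4 * ν) / 2 ^ (j / 4) := by positivity
  have p3 : (0 : ℝ) ≤ 2 ^ c := by positivity
  have e : (2 : ℝ) ^ (4 * ν) * ((16 + 2 * K) * (1 / 2 ^ (j / 4)) + (17 + K * (1 + 2 ^ c)) / 2 ^ ν) =
      (16 + 2 * K) * (2 ^ (4 * ν) / 2 ^ (j / 4)) +
        (17 + K * (1 + 2 ^ c)) * (2 ^ (4 * ν) / 2 ^ ν) := by ring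
  have e2 : ((2 : ℝ) ^ min (j / 4) ν) ^ 3 * (16 / (2 ^ j / 2 ^ (4 * ν)) + 1) +
      K * 2 ^ (4 * ν) * (1 + 2 ^ j / 2 ^ (4 * ν)) / 2 ^ min (j / 4) ν =
      16 * ((2 ^ min (j / 4) ν) ^ 3 * 2 ^ (4 * ν) / 2 ^ j) + (2 ^ min (j / 4) ν) ^ 3 +
        K * ((1 + 2 ^ j / 2 ^ (4 * ν)) * (2 ^ (4 * ν) / 2 ^ min (j / 4) ν)) := by
    field_simp
  rw [e, e2]
  rcases Nat.lt_or_ge j (4 * ν) with h | h
  · have em : min (j / 4) ν = j / 4 := by omega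
    rw [em] at hy ⊢
    have a1 : ((2 : ℝ) ^ (j / 4)) ^ 3 * 2 ^ (4 * ν) / 2 ^ j ≤ 2 ^ (4 * ν) / 2 ^ (j / 4) := by
      rw [div_le_div_iff₀ (by positivity) (by positivity), ← pow_mul, ← pow_add, ← pow_add,
        ← pow_add]
      exact h2 (by omega)
    have a2 : (2 : ℝ) ^ j / 2 ^ (4 * ν) ≤ 1 := by
      rw [div_le_one (by positivity)]; exact h2 h.le
    have a3 : (1 + (2 : ℝ) ^ j / 2 ^ (4 * ν)) * (2 ^ (4 * ν) / 2 ^ (j / 4)) ≤
        2 * (2 ^ (4 * ν) / 2 ^ (j / 4)) := mul_le_mul_of_nonneg_right (by linarith) p2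
    nlinarith [mul_le_mul_of_nonneg_left a3 hK, mul_nonneg (mul_nonneg hK p3) p1, mul_nonneg hK p1]
  · have em : min (j / 4) ν = ν := by omega
    rw [em] at hy ⊢
    have a1 : ((2 : ℝ) ^ ν) ^ 3 * 2 ^ (4 * ν) / 2 ^ j ≤ 2 ^ (4 * ν) / 2 ^ ν := by
      rw [div_le_div_iff₀ (by positivity) (by positivity), ← pow_mul, ← pow_add, ← pow_add,
        ← pow_add]
      exact h2 (by omega)
    have a2 : (2 : ℝ) ^ j / 2 ^ (4 * ν) ≤ 2 ^ c := by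
      rw [div_le_iff₀ (by positivity), ← pow_add]; exact h2 (by omega)
    have a3 : (1 + (2 : ℝ) ^ j / 2 ^ (4 * ν)) * (2 ^ (4 * ν) / 2 ^ ν) ≤
        (1 + 2 ^ c) * (2 ^ (4 * ν) / 2 ^ ν) := mul_le_mul_of_nonneg_right (by linarith) p1
    nlinarith [mul_le_mul_of_nonneg_left a3 hK, mul_nonneg hK p2]

/-- with `y j = 2 ^ min (j / 4) ν`: for `j < 4ν` one has `y³ * 16 / η ≤ 16 n / 2 ^ (j / 4)`
(as `3 (j/4) + j/4 ≤ j`), for `j ≥ 4ν` `y³ * 16 / η ≤ 16 * 8 ^ ν`; always `y³ ≤ 8 ^ ν`;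
`∑_{j ≥ 4 i} 1 / 2 ^ (j / 4) ≤ 8 / 2 ^ i`. -/
theorem sum_costD {ν i c : ℕ} {K : ℝ} (hK : 0 ≤ K) :
    ∑ j ∈ Finset.Ico (4 * i) (4 * ν + c), (((2 ^ min (j / 4) ν : ℕ) : ℝ) ^ 3 *
        (16 / sc (16 ^ ν) j + 1) + K * 16 ^ ν * (1 + sc (16 ^ ν) j) / (2 ^ min (j / 4) ν : ℕ))
      ≤ 16 ^ ν * ((128 + 16 * K) / 2 ^ i + (4 * ν + c) * (17 + K * (1 + 2 ^ c)) / 2 ^ ν) := by
  refine (Finset.sum_le_sum fun j hj => num_term hK (Finset.mem_Ico.1 hj).2).trans ?_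
  rw [← Finset.mul_sum, Finset.sum_add_distrib, ← Finset.mul_sum, Finset.sum_const, Nat.card_Ico,
    nsmul_eq_mul]
  refine mul_le_mul_of_nonneg_left (add_le_add ?_ ?_) (by positivity)
  · calc _ ≤ (16 + 2 * K) * (8 / 2 ^ i) :=
          mul_le_mul_of_nonneg_left (num_geo i _) (by positivity)
      _ = _ := by ring
  · rw [mul_div_assoc]
    refine mul_le_mul_of_nonneg_right ?_ (by positivity)
    exact_mod_cast Nat.sub_le _ _

end Crest.Agent.R192
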