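import Crest.Agent.R192.LevD0
import Crest.Agent.R192.Num

/-! Row 192: the cut-off forms at large scales (last regime). -/

set_option autoImplicit false
set_option linter.unusedSectionVars false
set_option linter.unusedVariables false

open scoped ContDiff Matrix Topology
open MeasureTheory

noncomputable section

namespace Crest.Agent.R192

variable {G : Type} [Group G] {p : ℕ} {ℓ : G → ℝ} {γ R η Z : ℝ}

theorem levd_num {c l Zr e N h y ε nc : ℝ} (hc : 1 ≤ c) (hl : 1 ≤ l) (hZ : 1 ≤ Zr) (he : 1 ≤ e)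
    (hN : 1 ≤ N) (hh : 0 < h) (hy : 1 ≤ y) (hε : 0 < ε) (hnc : 16 ≤ h * nc)
    (hnc' : nc ≤ 16 / h + 1) :
    y * (nc * y ^ 2) +
      √(14 * l ^ 2 * N * (1 + h) / h * ((2 + c) ^ 2 * (54 * l ^ 2 * N * h * (1 + h)))) / (ε * y) +
      √(Zr ^ 2 * (e * e) / h * ((2 * (h / 2) * nc + 3) * (6 * c ^ 2 * l ^ 2 * N * (1 + h) / h)) *
        ((2 + c) ^ 2 * (54 * l ^ 2 * N * h * (1 + h))) / (nc * y ^ 2)) / ε ≤
    y ^ 3 * (16 / h + 1) + 60 * c * (2 + c) * l ^ 2 * Zr * e * N * (1 + h) / (ε * y) := by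
  have hnc0 : 0 < nc := by
    by_contra h0
    push Not at h0
    nlinarith
  have hy0 : 0 < y := by linarith
  obtain ⟨D, hD⟩ : ∃ D : ℝ, D = (2 + c) * l ^ 2 * N * (1 + h) := ⟨_, rfl⟩
  have hD0 : 0 ≤ D := by rw [hD]; positivity
  have h1 : √(14 * l ^ 2 * N * (1 + h) / h * ((2 + c) ^ 2 * (54 * l ^ 2 * N * h * (1 + h)))) ≤
      28 * D := by
    refine Real.sqrt_le_iff.2 ⟨by positivity, ?_⟩
    have e1 : 14 * l ^ 2 * N * (1 + h) / h * ((2 + c) ^ 2 * (54 * l ^ 2 * N * h * (1 + h))) =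
        756 * D ^ 2 := by
      rw [hD]; field_simp; ring
    rw [e1]
    nlinarith [sq_nonneg D]
  have h2 : √(Zr ^ 2 * (e * e) / h * ((2 * (h / 2) * nc + 3) *
      (6 * c ^ 2 * l ^ 2 * N * (1 + h) / h)) *
        ((2 + c) ^ 2 * (54 * l ^ 2 * N * h * (1 + h))) / (nc * y ^ 2)) ≤
      20 * (c * Zr * e * D) / y := by
    refine Real.sqrt_le_iff.2 ⟨by positivity, ?_⟩
    have e1 : Zr ^ 2 * (e * e) / h * ((2 * (h / 2) * nc + 3) *
        (6 * c ^ 2 * l ^ 2 * N * (1 + h) / h)) *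
          ((2 + c) ^ 2 * (54 * l ^ 2 * N * h * (1 + h))) / (nc * y ^ 2) =
        (324 * (h * nc + 3) / (h * nc)) * ((c * Zr * e * D) / y) ^ 2 := by
      rw [hD]; field_simp; ring
    have e2 : (20 * (c * Zr * e * D) / y) ^ 2 = 400 * ((c * Zr * e * D) / y) ^ 2 := by ring
    rw [e1, e2]
    refine mul_le_mul_of_nonneg_right ?_ (sq_nonneg _)
    rw [div_le_iff₀ (by positivity)]
    linarith
  have h3 : y * (nc * y ^ 2) ≤ y ^ 3 * (16 / h + 1) := by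
    have := mul_le_mul_of_nonneg_left hnc' (by positivity : 0 ≤ y ^ 3)
    linarith
  have h4 : 1 ≤ c * Zr * e := one_le_mul_of_one_le_of_one_le (one_le_mul_of_one_le_of_one_le hc hZ) he
  have h5 : D ≤ c * Zr * e * D := le_mul_of_one_le_left hD0 h4
  have h6 : 28 * D / (ε * y) + 20 * (c * Zr * e * D) / y / ε ≤
      60 * c * (2 + c) * l ^ 2 * Zr * e * N * (1 + h) / (ε * y) := by
    have e1 : 60 * c * (2 + c) * l ^ 2 * Zr * e * N * (1 + h) = 60 * (c * Zr * e * D) := by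
      rw [hD]; ring
    rw [e1, div_div, mul_comm y ε, ← add_div]
    refine div_le_div_of_nonneg_right ?_ (by positivity)
    linarith
  have h7 := div_le_div_of_nonneg_right h1 (by positivity : 0 ≤ ε * y)
  have h8 := div_le_div_of_nonneg_right h2 hε.le
  linarith

/-- `nuc_lev`, `covv_lev` with `lip = γ + 1`, `c = cs`.  Cost: `cell` applied to `mix_gen` with
`nc = ⌈16 / η⌉₊` cells, centres from `exists_center`, `π I = gibbs (ℓ (z_I⁻¹ ·) / 2)`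
(`IsLen.support`), matrices of `dom_lev`, `κ = Z² exp (56 R) / η`,
`τ = (η nc + 3) * 6 cs² lip² N (1 + η) / η` with `η nc + 3 ≤ (19 / 16) η nc`; where
`Ff > 2 γ R` the vector `tl` vanishes (`kφ_zero`). -/
theorem good_levD (hℓ : IsLen ℓ) (hs : Summable fun x => Real.exp (-ℓ x / 2))
    (hZ : ∑' x, Real.exp (-ℓ x / 2) ≤ Z) (hγ : 1 ≤ γ) (hR : 1 ≤ R) (hZR : Real.log Z ≤ R)
    (hη : 0 < η) {y : ℕ} (hy : 1 ≤ y) {ε : ℝ} (hε : 0 < ε) (L : Loop G p) {ξ : Tm p}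
    (hξ : Sx ξ) :
    Good ε ((y : ℝ) ^ 3 * (16 / η + 1)
        + 60 * cs * (2 + cs) * (γ + 1) ^ 2 * Z * Real.exp (28 * R) * (p + 1) * (1 + η) / (ε * y))
      ((2 + cs) * (28 * (γ + 1) ^ 2 * (p + 1) * (1 + η)))
      (lev (kφ (γ * R)) (ℓD ℓ γ (64 * R)) η p L) (rr ℓ L) ξ := by
  classical
  have hγ0 : 0 ≤ γ := by linarith
  have hT : 0 ≤ 64 * R := by linarith
  have hℓD := hℓ.ℓD hγ0 hT
  have hsD := (summable_ℓD hℓ hs hγ0 hT).1
  have hγR : 1 ≤ γ * R := one_le_mul_of_one_le_of_one_le hγ hR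
  have hφ := contDiff_kφ (γ * R)
  have h1 : ∀ x, |kφ (γ * R) x| ≤ 1 := fun x => by
    rw [abs_of_nonneg (kφ_nonneg _ _)]; exact kφ_le_one _ _
  have h2 := abs_deriv_kφ_le hγR
  have hr := rr_pos hℓ L
  have hl := ℓD_jump_le hℓ (T := 64 * R) hγ0 L
  have hlip : 0 ≤ γ + 1 := by linarith
  have hcs := one_le_cs
  have hZ1 : 1 ≤ Z := (hℓ.one_le_tsum hs).trans hZ
  have hN : (1 : ℝ) ≤ (p : ℝ) + 1 := by have : (0 : ℝ) ≤ p := Nat.cast_nonneg p; linarith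
  refine ⟨⟨?_, ?_⟩, nuc_lev hφ h1 h2 hℓD hsD hη hlip L hr hl ξ⟩
  · have hV := smP_fld (rk_Rη hη) (contDiff_Rη η) hℓD hsD L
    obtain ⟨hL, hkL⟩ := kb_Lη hη
    have hU := smF_fld hkL (contDiff_Lη η) hℓD L
    have hμ : ∀ s, Prob (gibbs (fld (Rη η) (ℓD ℓ γ (64 * R)) p L (s, ξ))) :=
      fun s => prob_gibbs (hV.summable _)
    obtain ⟨nc, hnc⟩ : ∃ nc : ℕ, nc = ⌈16 / η⌉₊ := ⟨_, rfl⟩
    have hnc1 : 16 / η ≤ nc := hnc ▸ Nat.le_ceil _
    have hnc2 : (nc : ℝ) ≤ 16 / η + 1 := hnc ▸ (Nat.ceil_lt_add_one (by positivity)).le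
    have hnc3 : 16 ≤ η * nc := by rw [div_le_iff₀ hη] at hnc1; linarith
    have hnc0 : (0 : ℝ) < nc := lt_of_lt_of_le (by positivity) hnc1
    have hnc4 : 1 ≤ nc := by exact_mod_cast hnc0
    have hcell : ∀ I : ℕ, ((I : ℝ) + 1) / nc - (I : ℝ) / nc ≤ η / 16 := by
      intro I
      rw [← sub_div, add_sub_cancel_left, div_le_div_iff₀ hnc0 (by norm_num)]
      linarith
    choose z₀ hz₀ using fun I : ℕ => exists_center hℓ hs hZ hγ hR hZR hη L hξ (hcell I)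
    have hsum : ∀ I, Summable fun z => Real.exp (-(ℓ ((z₀ I)⁻¹ * z) / 2)) := fun I => by
      simpa only [neg_div] using (hℓ.adm hs hZ (z₀ I)).2.1
    have hπ : ∀ I, Prob (gibbs fun z => ℓ ((z₀ I)⁻¹ * z) / 2) := fun I => prob_gibbs (hsum I)
    have hW := vb_jmp_ψ hη hlip hℓD L hr hl ξ
    have hct := fun I => ctM_jmp_ψ hη hℓD L (rr ℓ L) ξ (hπ I)
    have hy' : (1 : ℝ) ≤ y := by exact_mod_cast hy
    have hc := cell hμ (vb_dv_R hη hlip hℓD L hr hl ξ)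
      ((vb_dv_L hη hlip hℓD L hr hl ξ).tl hμ h1 h2) (ctM_gen hφ hV hU (rr ℓ L) ξ) hnc4
      (k := y ^ 2) (Nat.one_le_pow _ _ hy)
      (Γ := fun I => mom ((I : ℝ) / nc - η / 2) (((I : ℝ) + 1) / nc + η / 2)
        (fun _ => gibbs fun z => ℓ ((z₀ I)⁻¹ * z) / 2)
        (fun u z l => jmp (ψη η) (ℓD ℓ γ (64 * R)) L (u, ξ) (Pi.single l 1) z / rr ℓ L l)
        fun u z l => jmp (ψη η) (ℓD ℓ γ (64 * R)) L (u, ξ) (Pi.single l 1) z / rr ℓ L l)
      (fun I _ => mom_posSemidef (fun _ => hπ I) hW.bdd (hct I) (by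
        have : (I : ℝ) / nc ≤ ((I : ℝ) + 1) / nc := by gcongr; linarith
        linarith))
      (sum_trace_mom_le (ν := fun I _ => gibbs fun z => ℓ ((z₀ I)⁻¹ * z) / 2)
        (fun I _ => hπ I) hW hct hnc4 (w := η / 2) (by positivity))
      (κ := Z ^ 2 * Real.exp (56 * R) / η) (by positivity) hε (lam := y) (by linarith)
      (fun I _ s hsI => by
        by_cases hF : Ff (fld (Rη η) (ℓD ℓ γ (64 * R)) p L (s, ξ)) ≤ 2 * (γ * R)
        · right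
          obtain ⟨a1, a2, a3, a4⟩ := hℓ.support hs hZ (by linarith : 0 ≤ R) (hV.summable (s, ξ))
            (z₀ I) (hz₀ I s hsI hF)
          exact dom_lev hη hℓD L (rr ℓ L) ξ a1 a2 a3 a4 hsI
        · left
          intro z
          obtain ⟨b1, b2⟩ := kφ_zero (by linarith : 0 < γ * R) (not_le.1 hF)
          funext l
          simp [tl, b1, b2])
    have hm : mix (lev (kφ (γ * R)) (ℓD ℓ γ (64 * R)) η p L) (rr ℓ L) ξ = _ :=
      mix_gen hφ hV hU (rr ℓ L) ξ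
    rw [hm]
    refine hc.mono ?_
    have he : Real.exp (56 * R) = Real.exp (28 * R) * Real.exp (28 * R) := by
      rw [← Real.exp_add]; congr 1; ring
    rw [he]
    push_cast
    exact levd_num hcs (by linarith) hZ1 (Real.one_le_exp (by linarith)) hN hη hy' hε hnc3 hnc2
  · refine (covv_lev hφ h1 hℓD hsD hη hlip L hr hl ξ).trans ?_
    have h3 : 0 ≤ (γ + 1) * ((p : ℝ) + 1) * (1 + η) := by positivity
    have h4 : 8 ≤ (2 + cs) * 28 * (γ + 1) := by nlinarith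
    nlinarith [mul_le_mul_of_nonneg_right h4 h3]

theorem natG_ΛD (hℓ : IsLen ℓ) (hs : Summable fun x => Real.exp (-ℓ x / 2)) (hγ : 0 ≤ γ)
    (hR : 0 ≤ R) {n : ℕ} (hn : 1 ≤ n) (j₀ j₁ : ℕ) : NatG (ΛD ℓ γ R n j₀ j₁) := by
  have hT : 0 ≤ 64 * R := by linarith
  exact NatG.sum _ fun j _ => natG_lev (contDiff_kφ _) (hℓ.ℓD hγ hT) (summable_ℓD hℓ hs hγ hT).1
    (sc_pos hn j)

/-- `good_levD` at each scale with `y = 2 ^ min (j / 4) ν`, `Good.sum`, `sum_costD` -/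
theorem good_ΛD (hℓ : IsLen ℓ) (hs : Summable fun x => Real.exp (-ℓ x / 2))
    (hZ : ∑' x, Real.exp (-ℓ x / 2) ≤ Z) (hγ : 1 ≤ γ) (hR : 1 ≤ R) (hZR : Real.log Z ≤ R)
    {ν i c : ℕ} {ε : ℝ} (hε : 0 < ε) (hp : p ≤ 2 * 16 ^ ν) (L : Loop G p) {ξ : Tm p}
    (hξ : Sx ξ) {K : ℝ}
    (hK : K = 180 * cs * (2 + cs) * (γ + 1) ^ 2 * Z * Real.exp (28 * R) / ε) :
    Good ε (16 ^ ν * ((128 + 16 * K) / 2 ^ i + (4 * ν + c) * (17 + K * (1 + 2 ^ c)) / 2 ^ ν))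
      ((4 * ν + c) * ((2 + cs) * (84 * (γ + 1) ^ 2 * 16 ^ ν * (1 + 2 ^ c))))
      (ΛD ℓ γ R (16 ^ ν) (4 * i) (4 * ν + c) p L) (rr ℓ L) ξ := by
  have hγ0 : 0 ≤ γ := by linarith
  have hT : 0 ≤ 64 * R := by linarith
  have hn : 1 ≤ 16 ^ ν := Nat.one_le_pow _ _ (by norm_num)
  have hcs := one_le_cs
  have hZ1 : 1 ≤ Z := (hℓ.one_le_tsum hs).trans hZ
  have hK0 : 0 ≤ K := by rw [hK]; positivity
  have hp' : (p : ℝ) + 1 ≤ 3 * 16 ^ ν := by
    have h1 : (p : ℝ) ≤ 2 * 16 ^ ν := by exact_mod_cast hp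
    have h2 : (1 : ℝ) ≤ 16 ^ ν := by exact_mod_cast hn
    linarith
  have hG := Good.sum (Finset.Ico (4 * i) (4 * ν + c))
    (Λ := fun j => lev (kφ (γ * R)) (ℓD ℓ γ (64 * R)) (sc (16 ^ ν) j))
    (fun j _ => natG_lev (contDiff_kφ _) (hℓ.ℓD hγ0 hT) (summable_ℓD hℓ hs hγ0 hT).1 (sc_pos hn j))
    (fun j _ => good_levD hℓ hs hZ hγ hR hZR (sc_pos hn j) (y := 2 ^ min (j / 4) ν)
      (Nat.one_le_pow _ _ (by norm_num)) hε L hξ)
  refine hG.mono (le_trans (Finset.sum_le_sum fun j _ => ?_) (sum_costD hK0)) ?_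
  · have hsc := sc_pos hn j
    have hy : (0 : ℝ) < ((2 ^ min (j / 4) ν : ℕ) : ℝ) := by positivity
    refine add_le_add_right ?_ _
    rw [hK, div_mul_eq_mul_div, div_mul_eq_mul_div, div_div]
    refine div_le_div_of_nonneg_right ?_ (by positivity)
    refine mul_le_mul_of_nonneg_right ?_ (by positivity)
    have h3 : 0 ≤ 60 * cs * (2 + cs) * (γ + 1) ^ 2 * Z * Real.exp (28 * R) := by positivity
    nlinarith [mul_le_mul_of_nonneg_left hp' h3]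
  · have hb : ∀ j ∈ Finset.Ico (4 * i) (4 * ν + c),
        (2 + cs) * (28 * (γ + 1) ^ 2 * (p + 1) * (1 + sc (16 ^ ν) j)) ≤
          (2 + cs) * (84 * (γ + 1) ^ 2 * 16 ^ ν * (1 + 2 ^ c)) := by
      intro j hj
      have hsc := sc_pos hn j
      have h1 : sc (16 ^ ν) j ≤ 2 ^ c := by
        refine (sc_mono _ (Finset.mem_Ico.1 hj).2.le).trans (le_of_eq ?_)
        unfold sc
        push_cast
        rw [pow_add, pow_mul]
        norm_num
      have h2 : 28 * (γ + 1) ^ 2 * ((p : ℝ) + 1) ≤ 84 * (γ + 1) ^ 2 * 16 ^ ν := by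
        nlinarith [mul_le_mul_of_nonneg_left hp' (sq_nonneg (γ + 1))]
      gcongr
    refine (Finset.sum_le_card_nsmul _ _ _ hb).trans ?_
    rw [nsmul_eq_mul, Nat.card_Ico]
    refine mul_le_mul_of_nonneg_right ?_ (by positivity)
    exact_mod_cast Nat.sub_le _ _

/-- `en_lev_ge` at each scale, `kφ_tele` pointwise in time; at the top scale
`V ≥ γ * 64 R / 16` (`fld_top`) so `Ff ≥ 2 γ R - log Z ≥ γ R` (`Adm.le_Ff`) -/
theorem en_ΛD_ge (hℓ : IsLen ℓ) (hs : Summable fun x => Real.exp (-ℓ x / 2))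
    (hZ : ∑' x, Real.exp (-ℓ x / 2) ≤ Z) (hγ : 1 ≤ γ) (hR : 1 ≤ R) (hZR : Real.log Z ≤ R)
    {n j₀ j₁ M : ℕ} (hn : 1 ≤ n) (hj : j₀ ≤ j₁) (hM : 1 ≤ M) (h1 : 2 * M + 2 ≤ sc n j₁)
    (h2 : sc n j₁ ≤ 4 * M + 4) (L : Loop G p) (hF : Far ℓ (64 * R) M L.g) {ξ : Tm p}
    (hξ : Sx ξ) :
    γ * R - IF (fld (Rη (sc n j₀)) (ℓD ℓ γ (64 * R)) p L) ξ ≤ en (ΛD ℓ γ R n j₀ j₁ p L) ξ := by
  have hγ0 : 0 ≤ γ := by linarith
  have hT : 0 ≤ 64 * R := by linarith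
  have hℓD := hℓ.ℓD hγ0 hT
  obtain ⟨hsD, hZD⟩ := summable_ℓD hℓ hs hγ0 hT
  have hγR : 1 ≤ γ * R := one_le_mul_of_one_le_of_one_le hγ hR
  have hφ := contDiff_kφ (γ * R)
  set F : ℕ → ℝ → ℝ := fun j s => Ff (fld (Rη (sc n j)) (ℓD ℓ γ (64 * R)) p L (s, ξ)) with hFdef
  have hFc : ∀ j, Continuous (F j) := fun j =>
    (smP_fld (rk_Rη (sc_pos hn j)) (contDiff_Rη _) hℓD hsD L).continuous_Ff ξ
  have hc : ∀ j, Continuous fun s => kφ (γ * R) (F j s) * (F (j + 1) s - F j s) := fun j =>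
    (hφ.continuous.comp (hFc j)).mul ((hFc (j + 1)).sub (hFc j))
  have htop : ∀ s, γ * R ≤ F j₁ s := by
    intro s
    have hQ := rk_Rη (sc_pos hn j₁)
    have hA := adm_fld (L := L) hQ hℓD hsD (hZD.trans hZ) (s := s) hξ
    have h3 := hA.le_Ff (y := 4 * (γ * R)) fun z => by
      have h4 := fld_top hℓ (s := s) hT hM hF h1 h2 hξ z
      have h5 : fld (Rη (sc n j₁)) (trc ℓ γ (64 * R)) p L (s, ξ) z =
          γ * fld (Rη (sc n j₁)) (fun x => min (ℓ x) (64 * R)) p L (s, ξ) z :=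
        avg_const_mul (s, ξ) γ fun y => min (ℓ (y⁻¹ * z)) (64 * R)
      have h6 := fld_mono (L := L) hQ (ℓ := trc ℓ γ (64 * R)) (ℓ' := ℓD ℓ γ (64 * R))
        (fun x => by have := hℓ.nonneg x; unfold ℓD; linarith) (s := s) hξ z
      have h7 := mul_le_mul_of_nonneg_left h4 hγ0
      linarith
    have h8 : R ≤ γ * R := le_mul_of_one_le_left (by linarith) hγ
    simp only [hFdef]
    linarith
  unfold ΛD
  rw [en_sum _ fun j _ => natG_lev hφ hℓD hsD (sc_pos hn j)]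
  have h9 : ∀ j ∈ Finset.Ico j₀ j₁, ∫ s in (0 : ℝ)..1, kφ (γ * R) (F j s) * (F (j + 1) s - F j s) ≤
      en (lev (kφ (γ * R)) (ℓD ℓ γ (64 * R)) (sc n j) p L) ξ := by
    intro j _
    have := en_lev_ge hφ (kφ_nonneg _) hℓD hsD (sc_pos hn j) L ξ
    rw [← sc_succ] at this
    exact this
  refine le_trans ?_ (Finset.sum_le_sum h9)
  rw [← intervalIntegral.integral_finsetSum fun j _ => (hc j).intervalIntegrable _ _]
  have h10 : γ * R - IF (fld (Rη (sc n j₀)) (ℓD ℓ γ (64 * R)) p L) ξ =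
      ∫ s in (0 : ℝ)..1, (γ * R - F j₀ s) := by
    rw [intervalIntegral.integral_sub (continuous_const.intervalIntegrable _ _)
      ((hFc j₀).intervalIntegrable _ _)]
    simp [IF, hFdef]
  rw [h10]
  refine intervalIntegral.integral_mono_on zero_le_one
    ((continuous_const.sub (hFc j₀)).intervalIntegrable _ _)
    ((continuous_finset_sum _ fun j _ => hc j).intervalIntegrable _ _) fun s _ => ?_
  exact kφ_tele (by linarith) (fun j => F j s) hj (htop s)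

end Crest.Agent.R192
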