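import Crest.Agent.R192.Lev

/-! Row 192: the cut-off forms at large scales (last regime). -/

set_option autoImplicit false
set_option linter.unusedSectionVars false
set_option linter.unusedVariables false

open scoped ContDiff Matrix Topology
open MeasureTheory

noncomputable section

namespace Crest.Agent.R192

variable {G : Type} [Group G] {p : ℕ} {ℓ : G → ℝ} {γ R η Z : ℝ}

theorem levd0_smF (hη : 0 < η) (hℓ : IsLen ℓ) (L : Loop G p) (r ξ : Tm p) (l : Fin (p + 1)) :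
    SmF fun (u : ℝ) z => jmp (ψη η) ℓ L (u, ξ) (Pi.single l 1) z / r l := by
  have h1 := (smF_jmp (kb_ψη hη) (contDiff_ψη η) hℓ L (Pi.single l 1)).comp
    (T := fun u : ℝ => (u, ξ)) (contDiff_id.prodMk contDiff_const)
  have h2 := h1.mul (SmF.const (E := ℝ) (Bdd.const (G := G) (r l)⁻¹))
  simpa only [div_eq_mul_inv] using h2

/-- Cauchy-Schwarz on an interval -/
theorem levd0_cs {f : ℝ → ℝ} (hf : Continuous f) {a b : ℝ} (hab : a < b) :
    (∫ u in a..b, f u) ^ 2 ≤ (b - a) * ∫ u in a..b, f u ^ 2 := by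
  have hd : 0 < b - a := sub_pos.mpr hab
  set m := (∫ u in a..b, f u) / (b - a) with hm
  have h0 : 0 ≤ ∫ u in a..b, (f u - m) ^ 2 :=
    intervalIntegral.integral_nonneg hab.le fun u _ => sq_nonneg _
  have h1 : ∫ u in a..b, (f u - m) ^ 2
      = (∫ u in a..b, f u ^ 2) - 2 * m * (∫ u in a..b, f u) + (b - a) * m ^ 2 := by
    have e : (fun u => (f u - m) ^ 2) = fun u => (f u ^ 2 - 2 * m * f u) + m ^ 2 := by
      funext u
      ring
    rw [e, intervalIntegral.integral_add, intervalIntegral.integral_sub,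
      intervalIntegral.integral_const_mul, intervalIntegral.integral_const, smul_eq_mul]
    · exact (hf.pow 2).intervalIntegrable _ _
    · exact (continuous_const.mul hf).intervalIntegrable _ _
    · exact ((hf.pow 2).sub (continuous_const.mul hf)).intervalIntegrable _ _
    · exact continuous_const.intervalIntegrable _ _
  have h2 : ∫ u in a..b, f u = (b - a) * m := by
    rw [hm]
    field_simp
  rw [h1, h2] at h0
  rw [h2]
  nlinarith

theorem summable_ℓD (hℓ : IsLen ℓ) (hs : Summable fun x => Real.exp (-ℓ x / 2)) {T : ℝ}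
    (hγ : 0 ≤ γ) (hT : 0 ≤ T) : (Summable fun x => Real.exp (-ℓD ℓ γ T x / 2)) ∧
      ∑' x, Real.exp (-ℓD ℓ γ T x / 2) ≤ ∑' x, Real.exp (-ℓ x / 2) := by
  have hle : ∀ x, Real.exp (-ℓD ℓ γ T x / 2) ≤ Real.exp (-ℓ x / 2) := by
    intro x
    apply Real.exp_le_exp.mpr
    have h1 : 0 ≤ γ * min (ℓ x) T := mul_nonneg hγ (le_min (hℓ.nonneg x) hT)
    simp only [ℓD, trc]
    linarith
  have hsum : Summable fun x => Real.exp (-ℓD ℓ γ T x / 2) :=
    Summable.of_nonneg_of_le (fun x => (Real.exp_pos _).le) hle hs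
  exact ⟨hsum, hsum.tsum_le_tsum hle hs⟩

theorem ℓD_jump_le (hℓ : IsLen ℓ) {T : ℝ} (hγ : 0 ≤ γ) (L : Loop G p) (l : Fin (p + 1)) :
    ℓD ℓ γ T (L.jump l) ≤ (γ + 1) * rr ℓ L l := by
  have h1 : γ * min (ℓ (L.jump l)) T ≤ γ * ℓ (L.jump l) :=
    mul_le_mul_of_nonneg_left (min_le_left _ _) hγ
  simp only [ℓD, trc, rr]
  nlinarith

/-- the vector field `W u z l = jmp (ψη η) ℓ L (u, ξ) e_l z / r l`: `locB_jmp`, `kb_ψη`;
`(2 cs lip / η)² N (3η/2 + 1) η ≤ 6 cs² lip² N (1 + η) / η` -/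
theorem vb_jmp_ψ {lip : ℝ} (hη : 0 < η) (hlip : 0 ≤ lip) (hℓ : IsLen ℓ) (L : Loop G p)
    {r : Tm p} (hr : ∀ l, 0 < r l) (hl : ∀ l, ℓ (L.jump l) ≤ lip * r l) (ξ : Tm p) :
    VB (6 * cs ^ 2 * lip ^ 2 * (p + 1) * (1 + η) / η)
      fun u z l => jmp (ψη η) ℓ L (u, ξ) (Pi.single l 1) z / r l := by
  have hw : 0 < η / 4 := by positivity
  have hcs : 0 ≤ cs := le_trans zero_le_one one_le_cs
  have h1 := (locB_jmp (L := L) (kb_ψη hη) hw hℓ hr hl ξ).vb (by positivity) hw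
  refine h1.mono ?_
  have e : (lip * (2 * cs / η)) ^ 2 * (((p : ℝ) + 1) * ((6 * (η / 4) + 1) * (4 * (η / 4))))
      = cs ^ 2 * lip ^ 2 * (p + 1) * (6 * η + 4) / η := by
    field_simp
    ring
  rw [e]
  apply div_le_div_of_nonneg_right _ hη.le
  have : 0 ≤ cs ^ 2 * lip ^ 2 * ((p : ℝ) + 1) := by positivity
  nlinarith

/-- `smF_jmp`, `SmF.contDiff_Ex` -/
theorem ctM_jmp_ψ (hη : 0 < η) (hℓ : IsLen ℓ) (L : Loop G p) (r ξ : Tm p) {π : G → ℝ}
    (hπ : Prob π) : CtM (fun _ => π) (fun u z l => jmp (ψη η) ℓ L (u, ξ) (Pi.single l 1) z / r l)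
      fun u z l => jmp (ψη η) ℓ L (u, ξ) (Pi.single l 1) z / r l := by
  intro i l
  exact (((levd0_smF hη hℓ L r ξ i).mul (levd0_smF hη hℓ L r ξ l)).contDiff_Ex hπ).continuous

/-- `c ⬝ᵥ X s z = -(1/η) ∫_{s - η/2}^{s + η/2} c ⬝ᵥ W u z` (`dF_fld`, `jmp_ρ_eq`), so
`(c ⬝ᵥ X s z)² ≤ (1/η) ∫ (c ⬝ᵥ W u z)² ≤ (1/η) (π z)⁻¹ ∫ Ex π (c ⬝ᵥ W u ·)²`; `mom_quad`. -/
theorem dom_lev (hη : 0 < η) (hℓ : IsLen ℓ) (L : Loop G p) (r ξ : Tm p) {π μ : G → ℝ}
    (hπ : Prob π) (hπ0 : ∀ z, 0 < π z) {Θ : ℝ} (hs : Summable fun z => μ z * (π z)⁻¹)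
    (hΘ : Ex μ (fun z => (π z)⁻¹) ≤ Θ) {x y s : ℝ} (hs' : s ∈ Set.Icc x y) :
    Dom μ (dv (fld (Rη η) ℓ p L) r ξ s)
      (mom (x - η / 2) (y + η / 2) (fun _ => π)
        (fun u z l => jmp (ψη η) ℓ L (u, ξ) (Pi.single l 1) z / r l)
        fun u z l => jmp (ψη η) ℓ L (u, ξ) (Pi.single l 1) z / r l) (Θ / η) := by
  set W : ℝ → G → Tm p := fun u z l => jmp (ψη η) ℓ L (u, ξ) (Pi.single l 1) z / r l with hW
  have hWb : ∀ u i, Bdd fun z => W u z i := fun u i => (levd0_smF hη hℓ L r ξ i).bdd u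
  have hWc : ∀ z i, Continuous fun u => W u z i := fun z i =>
    ((levd0_smF hη hℓ L r ξ i).contDiff_apply z).continuous
  refine ⟨fun z => (1 / η) * (π z)⁻¹, fun z => ?_, ?_, ?_, fun z c => ?_⟩
  · have := hπ0 z
    positivity
  · refine (hs.mul_left (1 / η)).congr fun z => ?_
    ring
  · rw [ex_const_mul]
    calc 1 / η * Ex μ (fun z => (π z)⁻¹) ≤ 1 / η * Θ :=
          mul_le_mul_of_nonneg_left hΘ (by positivity)
      _ = Θ / η := by ring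
  · obtain ⟨hc1, hq⟩ := mom_quad (ν := fun _ => π) (fun _ => hπ) hWb
      (ctM_jmp_ψ hη hℓ L r ξ hπ) (x - η / 2) (y + η / 2) c
    rw [hq]
    have hfc : Continuous fun u => c ⬝ᵥ W u z := by
      simp only [dotProduct]
      exact continuous_finsetSum _ fun i _ => continuous_const.mul (hWc z i)
    -- the formula for the gradient
    have e1 : c ⬝ᵥ dv (fld (Rη η) ℓ p L) r ξ s z
        = -((1 / η) * ∫ u in (s - η / 2)..(s + η / 2), c ⬝ᵥ W u z) := by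
      simp only [dotProduct]
      rw [intervalIntegral.integral_finsetSum (f := fun i u => c i * W u z i)
        (fun i _ => (continuous_const.mul (hWc z i)).intervalIntegrable _ _), Finset.mul_sum,
        ← Finset.sum_neg_distrib]
      refine Finset.sum_congr rfl fun i _ => ?_
      simp only [dv]
      rw [dF_fld (rk_Rη hη).evC (contDiff_Rη η), deriv_Rη, jmp_ρ_eq hη,
        intervalIntegral.integral_const_mul]
      simp only [hW]
      rw [intervalIntegral.integral_div]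
      ring
    have e2 := levd0_cs hfc (a := s - η / 2) (b := s + η / 2) (by linarith)
    have e3 : ∫ u in (s - η / 2)..(s + η / 2), (c ⬝ᵥ W u z) ^ 2
        ≤ ∫ u in (x - η / 2)..(y + η / 2), (c ⬝ᵥ W u z) ^ 2 := by
      apply intervalIntegral.integral_mono_interval (by linarith [hs'.1]) (by linarith)
        (by linarith [hs'.2])
      · exact Filter.Eventually.of_forall fun u => sq_nonneg _
      · exact (hfc.pow 2).intervalIntegrable _ _
    have e4 : ∫ u in (x - η / 2)..(y + η / 2), (c ⬝ᵥ W u z) ^ 2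
        ≤ (π z)⁻¹ * ∫ u in (x - η / 2)..(y + η / 2), Ex π fun z => (c ⬝ᵥ W u z) ^ 2 := by
      rw [← intervalIntegral.integral_const_mul]
      apply intervalIntegral.integral_mono_on (by linarith [hs'.1, hs'.2])
        ((hfc.pow 2).intervalIntegrable _ _) ((continuous_const.mul hc1).intervalIntegrable _ _)
      intro u _
      have hb : Bdd fun z => c ⬝ᵥ W u z := by
        simp only [dotProduct]
        exact Bdd.sum _ fun i _ => (Bdd.const (c i)).mul (hWb u i)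
      have hb2 : Bdd fun z => (c ⬝ᵥ W u z) ^ 2 := by
        simpa only [sq] using hb.mul hb
      have hsm := hπ.summable_mul hb2
      have hle : π z * (c ⬝ᵥ W u z) ^ 2 ≤ Ex π fun z => (c ⬝ᵥ W u z) ^ 2 :=
        hsm.le_tsum z fun j _ => mul_nonneg (hπ.1 j) (sq_nonneg _)
      have hz := hπ0 z
      exact (le_inv_mul_iff₀ hz).mpr hle
    rw [e1, neg_sq, mul_pow]
    have e5 : s + η / 2 - (s - η / 2) = η := by ring
    rw [e5] at e2
    calc (1 / η) ^ 2 * (∫ u in (s - η / 2)..(s + η / 2), c ⬝ᵥ W u z) ^ 2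
        ≤ (1 / η) ^ 2 * (η * ∫ u in (s - η / 2)..(s + η / 2), (c ⬝ᵥ W u z) ^ 2) :=
          mul_le_mul_of_nonneg_left e2 (by positivity)
      _ = (1 / η) * ∫ u in (s - η / 2)..(s + η / 2), (c ⬝ᵥ W u z) ^ 2 := by
          field_simp
      _ ≤ (1 / η) * ((π z)⁻¹ *
            ∫ u in (x - η / 2)..(y + η / 2), Ex π fun z => (c ⬝ᵥ W u z) ^ 2) :=
          mul_le_mul_of_nonneg_left (e3.trans e4) (by positivity)
      _ = _ := by ring

/-- If some time `s₀` of the interval has `Ff ≤ 2 γ R`, take `z₀` from `Adm.exists_le`, so that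
`V s₀ z₀ ≤ 6 γ R`; for another such time `s` use `near_center` (for the length `ℓD`, `y = 6 γ R`):
`V s z ≥ ℓD (z₀⁻¹ z) - 54 γ R`, and `ℓD x ≥ 56 γ R + ℓ x` when `ℓ x > 56 R`. -/
theorem exists_center (hℓ : IsLen ℓ) (hs : Summable fun x => Real.exp (-ℓ x / 2))
    (hZ : ∑' x, Real.exp (-ℓ x / 2) ≤ Z) (hγ : 1 ≤ γ) (hR : 1 ≤ R) (hZR : Real.log Z ≤ R)
    (hη : 0 < η) (L : Loop G p) {ξ : Tm p} (hξ : Sx ξ) {x y : ℝ} (hxy : y - x ≤ η / 16) :
    ∃ z₀ : G, ∀ s ∈ Set.Icc x y, Ff (fld (Rη η) (ℓD ℓ γ (64 * R)) p L (s, ξ)) ≤ 2 * (γ * R) →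
      ∀ z, 56 * R < ℓ (z₀⁻¹ * z) → ℓ (z₀⁻¹ * z) ≤ fld (Rη η) (ℓD ℓ γ (64 * R)) p L (s, ξ) z
        - Ff (fld (Rη η) (ℓD ℓ γ (64 * R)) p L (s, ξ)) := by
  have hγ0 : 0 ≤ γ := by linarith
  have hT : 0 ≤ 64 * R := by linarith
  have hℓ' : IsLen (ℓD ℓ γ (64 * R)) := hℓ.ℓD hγ0 hT
  obtain ⟨hs', hZ'⟩ := summable_ℓD hℓ hs hγ0 hT
  have hRγ : R ≤ γ * R := by nlinarith
  have hex : ∀ s, Ff (fld (Rη η) (ℓD ℓ γ (64 * R)) p L (s, ξ)) ≤ 2 * (γ * R) →
      ∃ z, fld (Rη η) (ℓD ℓ γ (64 * R)) p L (s, ξ) z ≤ 6 * (γ * R) := by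
    intro s hF
    obtain ⟨z, hz⟩ := (adm_fld (L := L) (s := s) (rk_Rη hη) hℓ' hs' (hZ'.trans hZ) hξ).exists_le
    exact ⟨z, by linarith⟩
  by_cases h : ∃ s₀ ∈ Set.Icc x y, Ff (fld (Rη η) (ℓD ℓ γ (64 * R)) p L (s₀, ξ)) ≤ 2 * (γ * R)
  · obtain ⟨s₀, hs₀, hF₀⟩ := h
    obtain ⟨z₀, hz₀⟩ := hex s₀ hF₀
    refine ⟨z₀, fun s hsI hF z hz => ?_⟩
    obtain ⟨z₁, hz₁⟩ := hex s hF
    have hss : |s - s₀| ≤ η / 16 := by
      rw [abs_le]
      constructor <;> linarith [hs₀.1, hs₀.2, hsI.1, hsI.2]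
    have h1 := near_center hℓ' hη hss hξ hz₀ hz₁ z
    have h2 : 56 * R ≤ min (ℓ (z₀⁻¹ * z)) (64 * R) := le_min hz.le (by linarith)
    have h3 : γ * (56 * R) ≤ γ * min (ℓ (z₀⁻¹ * z)) (64 * R) := mul_le_mul_of_nonneg_left h2 hγ0
    have h4 : ℓD ℓ γ (64 * R) (z₀⁻¹ * z)
        = γ * min (ℓ (z₀⁻¹ * z)) (64 * R) + ℓ (z₀⁻¹ * z) := rfl
    linarith
  · exact ⟨1, fun s hsI hF => absurd ⟨s, hsI, hF⟩ h⟩

end Crest.Agent.R192
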