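import Crest.Agent.R192.Loc0

/-! Row 192: identities and bounds for the simplex integrals of a single loop. -/

set_option autoImplicit false
set_option linter.unusedSectionVars false
set_option linter.unusedVariables false

open scoped ContDiff Matrix Topology
open MeasureTheory

noncomputable section

namespace Crest.Agent.R192

variable {G : Type} [Group G] {Λ : Gen G}

theorem pw_zero (L : Loop G (dg 0)) : pw Λ 0 L = 1 := by
  unfold pw Ip
  simp only [om_zero_apply]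
  rw [setIntegral_const, smul_eq_mul, mul_one, Measure.real, volume_So]
  simp [dg]

/-- `stokes`, `th_pb`, `gA_face` -/
theorem pw_succ (h : NatG Λ) (k : ℕ) (L : Loop G (dg k + 1 + 1)) :
    pw Λ (k + 1) L = ∑ i : Fin (dg k + 1 + 2), (-1) ^ ((i : ℕ) + 1) * jw Λ k (L.face i) := by
  have hA := contDiff_gA (h.smooth _ L)
  have h1 := stokes (p := dg k + 1) (contDiff_th hA k)
  refine h1.trans (Finset.sum_congr rfl fun i _ => ?_)
  rw [← th_pb hA (contDiff_δm i), ← gA_face h L i]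
  rfl

/-- `du₀ ∧ om = d (u₀ • om)`; `stokes`; on the face `0` the coordinate vanishes, on the other
faces it is `gap 0` -/
theorem kw_eq (h : NatG Λ) (k : ℕ) (L : Loop G (dg k + 1)) :
    kw Λ k L = ∑ i : Fin (dg k + 1), (-1) ^ (i : ℕ) * tw Λ k 0 (L.face i.succ) := by
  have hA := contDiff_gA (h.smooth _ L)
  have ho := contDiff_om hA k
  have hc : ContDiff ℝ ∞ fun u : Fin (dg k + 1) → ℝ => u 0 := contDiff_apply ℝ ℝ 0
  have h1 := stokes (p := dg k) (η := fun u => u 0 • om (gA (Λ _ L)) k u) (hc.smul ho)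
  have h2 : kw Λ k L = Ip (extDeriv fun u => u 0 • om (gA (Λ _ L)) k u) := by
    refine Ip_congr fun u _ => ?_
    rw [extDeriv_fun_smul_form (hc.differentiable (by simp) u) (ho.differentiable (by simp) u),
      extDeriv_om hA, smul_zero, add_zero]
    congr 1
    exact (ContinuousLinearMap.proj (R := ℝ) (φ := fun _ : Fin (dg k + 1) => ℝ) 0).fderiv.symm
  rw [h2, h1, Fin.sum_univ_succ]
  have h3 : Ip (pb (δm 0) fun u => u 0 • om (gA (Λ _ L)) k u) = 0 := by
    rw [Ip_congr (η' := fun _ => 0) fun u _ => by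
      rw [pb_fun_smul (δm 0) (fun u => u 0), δm_zero_zero, zero_smul]]
    simp [Ip]
  rw [h3, mul_zero, zero_add]
  refine Finset.sum_congr rfl fun i _ => ?_
  congr 1
  · rw [Fin.val_succ, pow_succ, pow_succ]
    ring
  · refine Ip_congr fun u _ => ?_
    rw [pb_fun_smul (δm i.succ) (fun u => u 0), δm_succ_zero, ← om_pb hA (contDiff_δm i.succ),
      ← gA_face h L i.succ]

/-- `Ip_pb_ρm` in odd dimension -/
theorem jw_rot (h : NatG Λ) (k : ℕ) (L : Loop G (dg k + 1))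
    (he : ∀ ξ, Sx ξ → en (Λ _ L) ξ = 1) : jw Λ k L.rot = kw Λ k L - jw Λ k L := by
  have hA := contDiff_gA (h.smooth _ L)
  have h1 := Ip_pb_ρm (th (gA (Λ _ L.rot)) k)
  have h2 : (-1 : ℝ) ^ (dg k + 1) = -1 := by
    rw [dg_eq, pow_succ, pow_mul]
    norm_num
  have hg : ∀ u : Fin (dg k + 1) → ℝ, fderiv ℝ (gap 0) u =
      ContinuousLinearMap.proj (R := ℝ) (φ := fun _ : Fin (dg k + 1) => ℝ) 0 := by
    intro u
    have : (gap 0 : (Fin (dg k + 1) → ℝ) → ℝ) =
        ContinuousLinearMap.proj (R := ℝ) (φ := fun _ : Fin (dg k + 1) => ℝ) 0 :=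
      funext fun u => gap_zero_succ u
    rw [this, ContinuousLinearMap.fderiv]
  have h3 : Ip (pb ρm (th (gA (Λ _ L.rot)) k)) = jw Λ k L - kw Λ k L := by
    unfold jw kw
    rw [← Ip_sub (contDiff_th hA k).continuous
      (contDiff_wg contDiff_const (contDiff_om hA k)).continuous]
    refine Ip_congr fun u hu => ?_
    have h4 := om_rot h L he k hu
    unfold pb at h4
    unfold pb th
    rw [wg_comp, h4, gA_rot h L u, he _ (sx_gz hu), one_smul, wg_sub_left, hg]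
  rw [h2, h3] at h1
  unfold jw at h1 ⊢
  linarith

/-- `Ip_pb_ρm` in even dimension, `gap_ρm` -/
theorem tw_rot (h : NatG Λ) (k : ℕ) (i : Fin (dg k + 1)) (L : Loop G (dg k))
    (he : ∀ ξ, Sx ξ → en (Λ _ L) ξ = 1) : tw Λ k i L.rot = tw Λ k (i + 1) L := by
  have h1 := Ip_pb_ρm fun u => gap i u • om (gA (Λ _ L.rot)) k u
  have h2 : (-1 : ℝ) ^ (dg k) = 1 := by
    rw [dg_eq, pow_mul]
    norm_num
  rw [h2, one_mul] at h1
  unfold tw
  rw [← h1]
  refine Ip_congr fun u hu => ?_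
  rw [pb_fun_smul, gap_ρm, om_rot h L he k hu]

theorem sum_tw (h : NatG Λ) (k : ℕ) (L : Loop G (dg k)) : ∑ i, tw Λ k i L = pw Λ k L := by
  have hA := contDiff_gA (h.smooth _ L)
  unfold tw pw
  rw [← Ip_sum (η := fun i u => gap i u • om (gA (Λ _ L)) k u) _
    fun i _ => ((contDiff_gap i).smul (contDiff_om hA k)).continuous]
  refine Ip_congr fun u _ => ?_
  rw [← Finset.sum_smul, sum_gap, one_smul]

theorem jw_smul (h : NatG Λ) (k : ℕ) (L : Loop G (dg k + 1)) (g : G) :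
    jw Λ k (L.smul g) = jw Λ k L := by
  unfold jw
  rw [h.smul]

theorem tw_smul (h : NatG Λ) (k : ℕ) (i : Fin (dg k + 1)) (L : Loop G (dg k)) (g : G) :
    tw Λ k i (L.smul g) = tw Λ k i L := by
  unfold tw
  rw [h.smul]

theorem loc_abs_wg_le {n : ℕ} {a : (Fin (n + 1) → ℝ) →L[ℝ] ℝ} {η : Fm (Fin (n + 1) → ℝ) n}
    {x y : ℝ} (ha : ∀ j, |a (Pi.single j 1)| ≤ x)
    (hη : ∀ i : Fin (n + 1), |η fun j => Pi.single (i.succAbove j) 1| ≤ y) :
    |wg a η fun j => Pi.single j 1| ≤ (n + 1) * (x * y) := by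
  rw [wg_apply]
  refine (Finset.abs_sum_le_sum_abs _ _).trans ?_
  refine (Finset.sum_le_card_nsmul _ _ (x * y) fun i _ => ?_).trans (by simp)
  rw [abs_mul, abs_pow, abs_neg, abs_one, one_pow, one_mul, abs_mul]
  exact mul_le_mul (ha i) (hη i) (abs_nonneg _) ((abs_nonneg _).trans (ha i))

theorem loc_div_fact (n : ℕ) (x : ℝ) :
    ((n : ℝ) + 1) * x / ((n + 1).factorial : ℕ) = x / n.factorial := by
  rw [Nat.factorial_succ]
  push_cast
  exact mul_div_mul_left _ _ (by positivity)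

section Bounds
variable {ε c B : ℝ}

theorem abs_pw_le (h : NatG Λ) (k : ℕ) (L : Loop G (dg k)) {r : Tm (dg k)} (hr : ∀ l, 1 ≤ r l)
    (hε : 0 < ε) (hF : ∀ ξ, Sx ξ → Fine ε c B (Λ _ L) r ξ) :
    |pw Λ k L| ≤ k.factorial * ε ^ k * Real.exp c * (∏ l, r l) / (2 * k).factorial := by
  rw [← dg_eq]
  exact abs_Ip_le fun u hu =>
    abs_om_gA_le (h.smooth _ L) hr hε (hF _ (sx_gz hu)).cost k Function.injective_id

theorem abs_tw_le (h : NatG Λ) (k : ℕ) (i : Fin (dg k + 1)) (L : Loop G (dg k)) {r : Tm (dg k)}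
    (hr : ∀ l, 1 ≤ r l) (hε : 0 < ε) (hF : ∀ ξ, Sx ξ → Fine ε c B (Λ _ L) r ξ) :
    |tw Λ k i L| ≤ k.factorial * ε ^ k * Real.exp c * (∏ l, r l) / (2 * k).factorial := by
  rw [← dg_eq]
  refine abs_Ip_le fun u hu => ?_
  have h1 := abs_om_gA_le (h.smooth _ L) hr hε (hF _ (sx_gz hu)).cost k Function.injective_id
  have h2 := gap_mem hu i
  rw [ContinuousAlternatingMap.smul_apply, smul_eq_mul, abs_mul, abs_of_nonneg h2.1]
  exact (mul_le_of_le_one_left (abs_nonneg _) h2.2).trans h1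

/-- `2 k + 1` terms (`wg_apply`) and the volume is `1 / (2 k + 1)!` -/
theorem abs_jw_le (h : NatG Λ) (k : ℕ) (L : Loop G (dg k + 1)) {r : Tm (dg k + 1)}
    (hr : ∀ l, 1 ≤ r l) (hε : 0 < ε) (hF : ∀ ξ, Sx ξ → Fine ε c B (Λ _ L) r ξ) :
    |jw Λ k L| ≤ B * (k.factorial * ε ^ k * Real.exp c * (∏ l, r l) ^ 2 / (2 * k).factorial) := by
  rw [← dg_eq]
  have h1 : |jw Λ k L| ≤ _ := abs_Ip_le fun u hu => loc_abs_wg_le
    (fun j => abs_gA_le (h.smooth _ L) hr (hF _ (sx_gz hu)).cov j)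
    (fun i => abs_om_gA_le (h.smooth _ L) hr hε (hF _ (sx_gz hu)).cost k
      (Fin.succAbove_right_injective (p := i)))
  rw [loc_div_fact] at h1
  refine h1.trans (le_of_eq ?_)
  ring

theorem abs_kw_le (h : NatG Λ) (k : ℕ) (L : Loop G (dg k + 1)) {r : Tm (dg k + 1)}
    (hr : ∀ l, 1 ≤ r l) (hε : 0 < ε) (hF : ∀ ξ, Sx ξ → Fine ε c B (Λ _ L) r ξ) :
    |kw Λ k L| ≤ k.factorial * ε ^ k * Real.exp c * (∏ l, r l) / (2 * k).factorial := by
  rw [← dg_eq]
  have h1 : |kw Λ k L| ≤ _ := abs_Ip_le fun u hu => loc_abs_wg_le (x := 1)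
    (fun j => by
      rw [ContinuousLinearMap.proj_apply, Pi.single_apply]
      split_ifs <;> simp)
    (fun i => abs_om_gA_le (h.smooth _ L) hr hε (hF _ (sx_gz hu)).cost k
      (Fin.succAbove_right_injective (p := i)))
  rw [loc_div_fact, one_mul] at h1
  exact h1

end Bounds

end Crest.Agent.R192
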