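import Crest.Agent.R192.Stokes0

/-! Row 192: Stokes' formula on the ordered simplex. -/

set_option autoImplicit false
set_option linter.unusedSectionVars false
set_option linter.unusedVariables false

open scoped ContDiff Matrix Topology
open MeasureTheory

noncomputable section

namespace Crest.Agent.R192

variable {p : ℕ}

theorem stokes_insertNth_add (j : Fin (p + 1)) (s t : ℝ) (u v : Fin p → ℝ) :
    Fin.insertNth (α := fun _ => ℝ) j (s + t) (u + v)
      = Fin.insertNth (α := fun _ => ℝ) j s u + Fin.insertNth (α := fun _ => ℝ) j t v := by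
  funext k
  induction k using Fin.succAboveCases j with
  | x => simp
  | p a => simp

theorem stokes_insertNth_eq (j : Fin (p + 1)) (t : ℝ) (u : Fin p → ℝ) :
    Fin.insertNth (α := fun _ => ℝ) j t u
      = Fin.insertNth (α := fun _ => ℝ) j 0 u + t • (Pi.single j 1 : Fin (p + 1) → ℝ) := by
  funext k
  induction k using Fin.succAboveCases j with
  | x => simp
  | p a => simp

theorem stokes_insertNth_single (j : Fin (p + 1)) (a : Fin p) :
    Fin.insertNth (α := fun _ => ℝ) j 0 (Pi.single a (1 : ℝ) : Fin p → ℝ)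
      = (Pi.single (j.succAbove a) 1 : Fin (p + 1) → ℝ) := by
  funext k
  induction k using Fin.succAboveCases j with
  | x => simp
  | p b =>
    by_cases h : b = a
    · subst h; simp
    · rw [Fin.insertNth_apply_succAbove, Pi.single_eq_of_ne h,
        Pi.single_eq_of_ne (fun h' => h (Fin.succAbove_right_injective h'))]

/-- the linear map `v ↦ insertNth j (c v) v` -/
def stokesL (j : Fin (p + 1)) (c : (Fin p → ℝ) →L[ℝ] ℝ) : (Fin p → ℝ) →L[ℝ] Fin (p + 1) → ℝ :=
  ContinuousLinearMap.pi fun k => Fin.insertNth (α := fun _ => (Fin p → ℝ) →L[ℝ] ℝ) j c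
    (fun a => ContinuousLinearMap.proj (R := ℝ) (φ := fun _ : Fin p => ℝ) a) k

theorem stokesL_apply (j : Fin (p + 1)) (c : (Fin p → ℝ) →L[ℝ] ℝ) (v : Fin p → ℝ) :
    stokesL j c v = Fin.insertNth (α := fun _ => ℝ) j (c v) v := by
  funext k
  induction k using Fin.succAboveCases j with
  | x => simp [stokesL]
  | p a => simp [stokesL]

theorem stokes_fderiv_affine {f : (Fin p → ℝ) → Fin (p + 1) → ℝ} (j : Fin (p + 1))
    (c : (Fin p → ℝ) →L[ℝ] ℝ) (t : ℝ)
    (hf : ∀ u, f u = Fin.insertNth (α := fun _ => ℝ) j (c u + t) u) (u : Fin p → ℝ) :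
    fderiv ℝ f u = stokesL j c := by
  have : f = fun u => stokesL j c u + Fin.insertNth (α := fun _ => ℝ) j t 0 := by
    funext u
    rw [hf, stokesL_apply, ← stokes_insertNth_add, add_zero]
  rw [this]
  exact ((stokesL j c).hasFDerivAt.add_const _).fderiv

/-- the fundamental theorem of calculus in the coordinate `j` -/
theorem integral_So_fderiv {f : (Fin (p + 1) → ℝ) → ℝ} (hf : ContDiff ℝ ∞ f) (j : Fin (p + 1)) :
    ∫ x in So (p + 1), fderiv ℝ f x (Pi.single j 1)
      = (∫ u in So p, f (δm j.succ u)) - ∫ u in So p, f (δm j.castSucc u) := by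
  have hd : Continuous fun x => fderiv ℝ f x (Pi.single j 1) :=
    (hf.continuous_fderiv (by simp)).clm_apply continuous_const
  have hi : ∀ i : Fin (p + 2), IntegrableOn (fun u => f (δm i u)) (So p) := fun i =>
    integrableOn_So (hf.continuous.comp (contDiff_δm i).continuous)
  rw [integral_So_succ hd j, ← integral_sub (hi j.succ) (hi j.castSucc)]
  refine integral_congr_ae (Filter.Eventually.of_forall fun u => ?_)
  beta_reduce
  rw [δm_succ, δm_castSucc]
  have hl : ∀ t : ℝ, HasDerivAt (fun t : ℝ => Fin.insertNth (α := fun _ => ℝ) j t u)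
      (Pi.single j 1 : Fin (p + 1) → ℝ) t := by
    intro t
    have : (fun t : ℝ => Fin.insertNth (α := fun _ => ℝ) j t u) = fun t : ℝ =>
        Fin.insertNth (α := fun _ => ℝ) j 0 u + t • (Pi.single j 1 : Fin (p + 1) → ℝ) :=
      funext fun t => stokes_insertNth_eq j t u
    rw [this]
    simpa using ((hasDerivAt_id t).smul_const (Pi.single j 1 : Fin (p + 1) → ℝ)).const_add
      (Fin.insertNth (α := fun _ => ℝ) j 0 u)
  have hc : Continuous fun t : ℝ => Fin.insertNth (α := fun _ => ℝ) j t u :=
    continuous_iff_continuousAt.2 fun t => (hl t).continuousAt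
  refine intervalIntegral.integral_eq_sub_of_hasDerivAt
    (f := fun t : ℝ => f (Fin.insertNth (α := fun _ => ℝ) j t u)) (fun t _ => ?_)
    ((hd.comp hc).intervalIntegrable _ _)
  exact ((hf.differentiable (by simp) _).hasFDerivAt).comp_hasDerivAt t (hl t)

theorem stokes_fderiv_δm_last (u : Fin p → ℝ) (a : Fin p) :
    fderiv ℝ (δm (Fin.last p).succ) u (Pi.single a 1)
      = (Pi.single ((Fin.last p).succAbove a) 1 : Fin (p + 1) → ℝ) := by
  rw [stokes_fderiv_affine (Fin.last p) 0 1 (fun u => by
    rw [δm_succ, nxt_last, gz_zero]; simp) u, stokesL_apply]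
  simpa using stokes_insertNth_single (Fin.last p) a

theorem stokes_fderiv_δm_zero (u : Fin p → ℝ) (a : Fin p) :
    fderiv ℝ (δm (0 : Fin (p + 1)).castSucc) u (Pi.single a 1)
      = (Pi.single ((0 : Fin (p + 1)).succAbove a) 1 : Fin (p + 1) → ℝ) := by
  rw [stokes_fderiv_affine 0 0 0 (fun u => by
    rw [δm_castSucc, gz_zero]; simp) u, stokesL_apply]
  exact stokes_insertNth_single 0 a

theorem stokes_fderiv_δm_mid (b : Fin p) (u : Fin p → ℝ) (a : Fin p) :
    fderiv ℝ (δm b.succ.castSucc) u (Pi.single a 1)
      = (Pi.single (b.succ.succAbove a) 1 : Fin (p + 1) → ℝ) +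
        (Pi.single a 1 : Fin p → ℝ) b • (Pi.single b.succ 1 : Fin (p + 1) → ℝ) := by
  rw [stokes_fderiv_affine b.succ
    (ContinuousLinearMap.proj (R := ℝ) (φ := fun _ : Fin p => ℝ) b) 0 (fun u => by
    rw [δm_castSucc, gz_succ]; simp) u, stokesL_apply, stokes_insertNth_eq,
    stokes_insertNth_single]
  rfl

theorem stokes_pb_apply (η : (Fin (p + 1) → ℝ) → Fm (Fin (p + 1) → ℝ) p) (i : Fin (p + 2))
    (u : Fin p → ℝ) :
    pb (δm i) η u (fun j => Pi.single j 1)
      = η (δm i u) fun a => fderiv ℝ (δm i) u (Pi.single a 1) := rfl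

/-- The derivative of `δm i` sends the basis to `e_0, …, e_{j-1}, e_j + e_{j+1}, e_{j+2}, …`
for `i = j + 1` with `j + 1 ≤ p`; to `e_1, …, e_p` for `i = 0`; to `e_0, …, e_{p-1}` for
`i = p + 1`.  So the pullback evaluates to the sum of the (one or two) neighbouring terms. -/
theorem pb_δm_apply (η : (Fin (p + 1) → ℝ) → Fm (Fin (p + 1) → ℝ) p) (i : Fin (p + 2))
    (u : Fin p → ℝ) :
    pb (δm i) η u (fun j => Pi.single j 1)
      = ∑ j : Fin (p + 1), if i = j.succ ∨ i = j.castSucc then
          η (δm i u) (fun a => Pi.single (j.succAbove a) 1) else 0 := by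
  rw [stokes_pb_apply]
  induction i using Fin.lastCases with
  | last =>
    rw [← Fin.succ_last, Finset.sum_eq_single (Fin.last p)]
    · rw [if_pos (Or.inl rfl)]
      simp only [stokes_fderiv_δm_last]
    · intro j _ hj
      rw [if_neg]
      rintro (h | h)
      · exact hj (Fin.succ_injective _ h).symm
      · rw [Fin.succ_last] at h
        exact (Fin.castSucc_lt_last j).ne h.symm
    · simp
  | cast j0 =>
    induction j0 using Fin.cases with
    | zero =>
      rw [Finset.sum_eq_single (0 : Fin (p + 1))]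
      · rw [if_pos (Or.inr rfl)]
        simp only [stokes_fderiv_δm_zero]
      · intro j _ hj
        rw [if_neg]
        rintro (h | h)
        · exact Fin.succ_ne_zero j h.symm
        · exact hj (Fin.castSucc_injective _ h).symm
      · simp
    | succ b =>
      have hne : b.succ ≠ b.castSucc := (Fin.castSucc_lt_succ (i := b)).ne'
      rw [Finset.sum_eq_add (a := b.succ) (b := b.castSucc) hne]
      · rw [if_pos (Or.inr rfl), if_pos (Or.inl (Fin.succ_castSucc (i := b)).symm)]
        simp only [stokes_fderiv_δm_mid]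
        set w : Fin p → Fin (p + 1) → ℝ := fun a => Pi.single (b.succ.succAbove a) 1 with hw
        have e1 : (fun a : Fin p => (Pi.single (b.succ.succAbove a) 1 : Fin (p + 1) → ℝ) +
            (Pi.single a 1 : Fin p → ℝ) b • (Pi.single b.succ 1 : Fin (p + 1) → ℝ))
            = Function.update w b (w b + Pi.single b.succ 1) := by
          funext a
          by_cases h : a = b
          · subst h; simp [hw]
          · rw [Function.update_of_ne h, Pi.single_eq_of_ne (Ne.symm h)]
            simp [hw]
        have e2 : (fun a : Fin p => (Pi.single (b.castSucc.succAbove a) 1 : Fin (p + 1) → ℝ))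
            = Function.update w b (Pi.single b.succ 1) := by
          funext a
          by_cases h : a = b
          · subst h; simp
          · rw [Function.update_of_ne h]
            simp only [hw]
            rcases lt_or_gt_of_ne h with h' | h'
            · rw [Fin.succAbove_castSucc_of_lt _ _ h', Fin.succAbove_succ_of_le _ _ h'.le]
            · rw [Fin.succAbove_castSucc_of_le _ _ h'.le, Fin.succAbove_succ_of_lt _ _ h']
        rw [e1, e2, ContinuousAlternatingMap.map_update_add, Function.update_eq_self]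
      · intro j _ hj
        rw [if_neg]
        rintro (h | h)
        · rw [← Fin.succ_castSucc] at h
          exact hj.2 (Fin.succ_injective _ h).symm
        · exact hj.1 (Fin.castSucc_injective _ h).symm
      · simp
      · simp

/-- `extDeriv_apply`, `integral_So_fderiv`, `pb_δm_apply` -/
theorem stokes {η : (Fin (p + 1) → ℝ) → Fm (Fin (p + 1) → ℝ) p} (hη : ContDiff ℝ ∞ η) :
    Ip (extDeriv η) = ∑ i : Fin (p + 2), (-1) ^ ((i : ℕ) + 1) * Ip (pb (δm i) η) := by
  set f : Fin (p + 1) → (Fin (p + 1) → ℝ) → ℝ :=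
    fun j x => η x fun a => Pi.single (j.succAbove a) 1 with hfdef
  have hf : ∀ j, ContDiff ℝ ∞ (f j) := fun j =>
    (ContinuousAlternatingMap.apply ℝ (Fin (p + 1) → ℝ) ℝ
      (fun a : Fin p => (Pi.single (j.succAbove a) 1 : Fin (p + 1) → ℝ))).contDiff.comp hη
  have hd : ∀ j, Continuous fun x => fderiv ℝ (f j) x (Pi.single j 1) := fun j =>
    ((hf j).continuous_fderiv (by simp)).clm_apply continuous_const
  have hL : Ip (extDeriv η) = ∑ j : Fin (p + 1), (-1) ^ (j : ℕ) *
      ((∫ u in So p, f j (δm j.succ u)) - ∫ u in So p, f j (δm j.castSucc u)) := by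
    have e1 : ∀ x, extDeriv η x (fun j => Pi.single j 1)
        = ∑ j : Fin (p + 1), (-1) ^ (j : ℕ) * fderiv ℝ (f j) x (Pi.single j 1) := by
      intro x
      rw [extDeriv_apply (hη.differentiable (by simp) x)]
      refine Finset.sum_congr rfl fun j _ => ?_
      rw [zsmul_eq_mul]
      push_cast
      rfl
    unfold Ip
    simp only [e1]
    rw [integral_finsetSum _ fun j _ => (integrableOn_So (hd j)).const_mul _]
    refine Finset.sum_congr rfl fun j _ => ?_
    rw [integral_const_mul, integral_So_fderiv (hf j)]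
  have hR : ∀ i : Fin (p + 2), Ip (pb (δm i) η) = ∑ j : Fin (p + 1),
      if i = j.succ ∨ i = j.castSucc then ∫ u in So p, f j (δm i u) else 0 := by
    intro i
    unfold Ip
    simp only [pb_δm_apply]
    rw [integral_finsetSum]
    · refine Finset.sum_congr rfl fun j _ => ?_
      split_ifs
      · rfl
      · simp
    · intro j _
      split_ifs
      · exact integrableOn_So ((hf j).continuous.comp (contDiff_δm i).continuous)
      · exact integrable_zero _ _ _
  rw [hL]
  simp only [hR, Finset.mul_sum]
  rw [Finset.sum_comm]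
  refine Finset.sum_congr rfl fun j _ => ?_
  have hne : j.succ ≠ j.castSucc := (Fin.castSucc_lt_succ (i := j)).ne'
  rw [Finset.sum_eq_add (a := j.succ) (b := j.castSucc) hne]
  · rw [if_pos (Or.inl rfl), if_pos (Or.inr rfl), Fin.val_succ, Fin.val_castSucc]
    ring
  · intro i _ hi
    rw [if_neg (not_or.2 hi), mul_zero]
  · simp
  · simp

end Crest.Agent.R192
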