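import Crest.Agent.R192.Rot
import Crest.Agent.R192.Stokes
import Crest.Agent.R192.FormB
import Crest.Agent.R192.Pat

/-! Row 192: identities and bounds for the simplex integrals of a single loop. -/

set_option autoImplicit false
set_option linter.unusedSectionVars false
set_option linter.unusedVariables false

open scoped ContDiff Matrix Topology
open MeasureTheory

noncomputable section

namespace Crest.Agent.R192

section One
variable {p : ℕ} {Λ : Tm p × Tm p → ℝ}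

theorem loc0_hasFDerivAt_gz (u : Fin p → ℝ) :
    HasFDerivAt (gz : (Fin p → ℝ) → Tm p) (fderiv ℝ (gz : (Fin p → ℝ) → Tm p) 0) u := by
  have h1 : fderiv ℝ (gz : (Fin p → ℝ) → Tm p) 0 = fderiv ℝ (gz : (Fin p → ℝ) → Tm p) u :=
    ContinuousLinearMap.ext fun v => by rw [fderiv_gz, fderiv_gz]
  rw [h1]
  exact (contDiff_gz.differentiable (by simp) u).hasFDerivAt

theorem loc0_hasFDerivAt_cov (h : ContDiff ℝ ∞ Λ) (ξ : Tm p) :
    HasFDerivAt (fun ζ => Λ (ξ, ζ)) (cov Λ ξ) ξ :=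
  ((h.comp (contDiff_const.prodMk contDiff_id)).differentiable (by simp) ξ).hasFDerivAt

theorem loc0_diff (h : ContDiff ℝ ∞ Λ) (ξ : Tm p) (u : Fin p → ℝ) :
    DifferentiableAt ℝ (fun u' => Λ (ξ, gz u')) u :=
  (h.comp (contDiff_const.prodMk contDiff_gz)).differentiable (by simp) u

theorem loc0_gA_eq (h : ContDiff ℝ ∞ Λ) :
    gA Λ = fun u => (cov Λ (gz u)).comp (fderiv ℝ (gz : (Fin p → ℝ) → Tm p) 0) :=
  funext fun u => ((loc0_hasFDerivAt_cov h (gz u)).comp u (loc0_hasFDerivAt_gz u)).fderiv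

theorem loc0_fderiv_gA (h : ContDiff ℝ ∞ Λ) (u v w : Fin p → ℝ) :
    fderiv ℝ (gA Λ) u v w = fderiv ℝ (cov Λ) (gz u) (gz v) (gz w) := by
  have h1 := (((contDiff_cov h).differentiable (by simp) (gz u)).hasFDerivAt.comp u
    (loc0_hasFDerivAt_gz u)).clm_comp
    (hasFDerivAt_const (fderiv ℝ (gz : (Fin p → ℝ) → Tm p) 0) u)
  rw [loc0_gA_eq h]
  erw [h1.fderiv]
  simp [fderiv_gz]

theorem loc0_le_prod {r : Tm p} (hr : ∀ l, 1 ≤ r l) (j : Fin (p + 1)) : r j ≤ ∏ l, r l := by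
  rw [← Finset.mul_prod_erase _ _ (Finset.mem_univ j)]
  exact le_mul_of_one_le_right (zero_le_one.trans (hr j)) (Finset.one_le_prod fun l _ => hr l)

theorem loc0_fderiv_gap (u : Fin p → ℝ) :
    fderiv ℝ (gap 0 : (Fin p → ℝ) → ℝ) u = fderiv ℝ (gap 0 : (Fin p → ℝ) → ℝ) 0 := by
  cases p with
  | zero => rw [Subsingleton.elim u 0]
  | succ p =>
    have : (gap 0 : (Fin (p + 1) → ℝ) → ℝ) =
        ContinuousLinearMap.proj (R := ℝ) (φ := fun _ : Fin (p + 1) => ℝ) 0 :=
      funext fun u => gap_zero_succ u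
    rw [this, ContinuousLinearMap.fderiv, ContinuousLinearMap.fderiv]

theorem gA_apply (h : ContDiff ℝ ∞ Λ) (u v : Fin p → ℝ) : gA Λ u v = cov Λ (gz u) (gz v) := by
  rw [loc0_gA_eq h, ContinuousLinearMap.comp_apply, fderiv_gz]

theorem contDiff_gA (h : ContDiff ℝ ∞ Λ) : ContDiff ℝ ∞ (gA Λ) := by
  rw [loc0_gA_eq h]
  exact ((contDiff_cov h).comp contDiff_gz).clm_comp contDiff_const

/-- `fderiv (gA Λ) u v w = fderiv (cov Λ) (gz u) (gz v) (gz w)`; `fderiv_cov_antisymm`,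
`abs_om_le` with the submatrix of `mix` along `Fin.succ` (`CostLe.submatrix`) -/
theorem abs_om_gA_le (h : ContDiff ℝ ∞ Λ) {r : Tm p} (hr : ∀ l, 1 ≤ r l) {ε c : ℝ} (hε : 0 < ε)
    {u : Fin p → ℝ} (hc : CostLe ε (mix Λ r (gz u)) c) (k : ℕ) {σ : Fin (dg k) → Fin p}
    (hσ : Function.Injective σ) :
    |om (gA Λ) k u fun j => Pi.single (σ j) 1| ≤ k.factorial * ε ^ k * Real.exp c * ∏ l, r l := by
  refine (abs_om_le (contDiff_gA h) (r := fun i => r i.succ) (fun i => hr _) hε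
    (hc.submatrix hε (Fin.succ_injective p)) (fun i l => ?_) k hσ).trans ?_
  · rw [loc0_fderiv_gA h, loc0_fderiv_gA h, fderiv_cov_antisymm h, gz_single, gz_single]
    have h1 : r i.succ ≠ 0 := (zero_lt_one.trans_le (hr _)).ne'
    have h2 : r l.succ ≠ 0 := (zero_lt_one.trans_le (hr _)).ne'
    simp only [mix, Matrix.submatrix_apply, Matrix.of_apply]
    field_simp
  · rw [Fin.prod_univ_succ]
    exact mul_le_mul_of_nonneg_left (le_mul_of_one_le_left
      (Finset.prod_nonneg fun i _ => zero_le_one.trans (hr _)) (hr 0)) (by positivity)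

theorem abs_gA_le (h : ContDiff ℝ ∞ Λ) {r : Tm p} (hr : ∀ l, 1 ≤ r l) {B : ℝ} {u : Fin p → ℝ}
    (hB : nrm (covv Λ r (gz u)) ≤ B) (j : Fin p) :
    |gA Λ u (Pi.single j 1)| ≤ B * ∏ l, r l := by
  have h1 : 0 < r j.succ := zero_lt_one.trans_le (hr _)
  have h2 : gA Λ u (Pi.single j 1) = covv Λ r (gz u) j.succ * r j.succ := by
    rw [gA_apply h, gz_single, covv, div_mul_cancel₀ _ h1.ne']
  rw [h2, abs_mul, abs_of_pos h1]
  exact mul_le_mul ((abs_le_nrm _ _).trans hB) (loc0_le_prod hr _) h1.le ((nrm_nonneg _).trans hB)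

end One

variable {G : Type} [Group G] {Λ : Gen G}

/-- chain rule, `gz_δm`, `NatG.face` -/
theorem gA_face (h : NatG Λ) {p : ℕ} (L : Loop G (p + 1)) (i : Fin (p + 2)) :
    gA (Λ p (L.face i)) = fun u => (gA (Λ (p + 1) L) (δm i u)).comp (fderiv ℝ (δm i) u) := by
  funext u
  have e : (fun u' => Λ p (L.face i) (gz u, gz u')) =
      (fun x => Λ (p + 1) L (gz (δm i u), gz x)) ∘ δm i :=
    funext fun u' => by simp only [Function.comp, gz_δm, h.face]
  rw [gA, e, fderiv_comp u (loc0_diff (h.smooth _ L) _ _)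
    ((contDiff_δm i).differentiable (by simp) u)]
  rfl

/-- `Λ L.rot (gz (ρm u), gz (ρm u')) = Λ L (gz u, gz u' - (gap 0 u' - gap 0 u))` by `gz_ρm`,
`NatG.shift`, `nxt_add_const`, `NatG.rot`; differentiate in `u'` at `u` -/
theorem gA_rot (h : NatG Λ) {p : ℕ} (L : Loop G p) (u : Fin p → ℝ) :
    (gA (Λ p L.rot) (ρm u)).comp (fderiv ℝ ρm u)
      = gA (Λ p L) u - en (Λ p L) (gz u) • fderiv ℝ (gap 0) u := by
  have e : (fun x => Λ p L.rot (gz (ρm u), gz x)) ∘ ρm =
      (fun ζ => Λ p L (gz u, ζ)) ∘ fun u' l => gz u' l + (gap 0 u - gap 0 u') := by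
    funext u'
    simp only [Function.comp, gz_ρm]
    rw [← h.rot p L, nxt_add_const, ← h.shift p L.rot _ _ (nxt (gz u) 0)]
    congr 2
    · funext l
      ring
    · funext l
      simp only [gap, gz_zero]
      ring
  have h1 : HasFDerivAt (fun u' l => gz u' l + (gap 0 u - gap 0 u'))
      (fderiv ℝ (gz : (Fin p → ℝ) → Tm p) 0 -
        (fderiv ℝ (gap 0 : (Fin p → ℝ) → ℝ) u).smulRight (fun _ => (1 : ℝ))) u := by
    have h2 := (loc0_hasFDerivAt_gz u).add
      ((((contDiff_gap 0).differentiable (by simp) u).hasFDerivAt.const_sub (gap 0 u)).smul_const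
        (fun _ : Fin (p + 1) => (1 : ℝ)))
    refine (h2.congr_fderiv ?_).congr_of_eventuallyEq (Filter.Eventually.of_forall fun u' => ?_)
    · ext v l
      simp [sub_eq_add_neg]
    · funext l
      simp
  have h3 : HasFDerivAt (fun ζ => Λ p L (gz u, ζ)) (cov (Λ p L) (gz u))
      ((fun u' l => gz u' l + (gap 0 u - gap 0 u')) u) := by
    simpa using loc0_hasFDerivAt_cov (h.smooth p L) (gz u)
  rw [gA, ← fderiv_comp u (loc0_diff (h.smooth _ L.rot) _ _) (contDiff_ρm.differentiable (by simp) u),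
    e, (h3.comp u h1).fderiv]
  refine ContinuousLinearMap.ext fun v => ?_
  simp only [ContinuousLinearMap.comp_apply, sub_apply, map_sub, fderiv_gz,
    ContinuousLinearMap.smulRight_apply, map_smul, smul_apply,
    gA_apply (h.smooth p L), en, smul_eq_mul]
  ring

/-- on the open simplex the pulled back one-form is `gA - lam` with the constant covector
`lam = fderiv (gap 0)`; `om_pb`, `om_congr`, `om_sub_const` -/
theorem om_rot (h : NatG Λ) {p : ℕ} (L : Loop G p) (he : ∀ ξ, Sx ξ → en (Λ p L) ξ = 1) (k : ℕ)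
    {u : Fin p → ℝ} (hu : u ∈ So p) :
    pb ρm (om (gA (Λ p L.rot)) k) u = om (gA (Λ p L)) k u := by
  rw [← om_pb (contDiff_gA (h.smooth p L.rot)) contDiff_ρm,
    ← om_sub_const (contDiff_gA (h.smooth p L)) (fderiv ℝ (gap 0 : (Fin p → ℝ) → ℝ) 0)]
  refine (om_congr ?_ k).eq_of_nhds
  filter_upwards [isOpen_So.mem_nhds hu] with x hx
  rw [gA_rot h, he _ (sx_gz hx), one_smul, loc0_fderiv_gap]

end Crest.Agent.R192
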