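import Crest.Agent.R192.Pair0

/-! Row 192: the pairing of loop functionals with an idempotent. -/

set_option autoImplicit false
set_option linter.unusedSectionVars false
set_option linter.unusedVariables false

open scoped ContDiff Matrix Topology
open MeasureTheory

noncomputable section

namespace Crest.Agent.R192

variable {G : Type} [Group G] {A : Type} [NormedRing A] [NormedAlgebra ℂ A] [CompleteSpace A]
  {τ : A →L[ℂ] ℂ} {e : G → A} {C : Set G} {W : G → ℝ} {p : ℕ}

theorem pair_prod_shift {M : Type} [Monoid M] (a : Fin (p + 1) → M) :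
    (List.ofFn fun l => a (l + 1)).prod = (List.ofFn fun j : Fin p => a j.succ).prod * a 0 := by
  rw [List.ofFn_succ', List.prod_concat]
  simp only [Fin.coeSucc_eq_succ, Fin.last_add_one]

theorem pair_prod_head {M : Type} [Monoid M] (a : Fin (p + 1) → M) :
    (List.ofFn a).prod = a 0 * (List.ofFn fun j : Fin p => a j.succ).prod := by
  rw [List.ofFn_succ, List.prod_cons]

theorem pair_partialProd_last {n : ℕ} (h : Fin n → G) :
    Fin.partialProd h (Fin.last n) = (List.ofFn h).prod := by
  unfold Fin.partialProd
  rw [List.take_of_length_le]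
  simp

theorem pair_loopOf_rot (h : Fin (p + 1) → G) :
    (loopOf h).rot = (loopOf fun l => h (l + 1)).smul (h 0) := by
  have key : ∀ k : Fin (p + 2), h 0 * Fin.partialProd (fun l => h (l + 1)) k =
      Fin.snoc (α := fun _ => G) (loopOf h).x ((loopOf h).g * (loopOf h).x 0) k := by
    intro k
    induction k using Fin.induction with
    | zero =>
      have : (0 : Fin (p + 2)) = (0 : Fin (p + 1)).castSucc := rfl
      rw [Fin.partialProd_zero, mul_one, this, Fin.snoc_castSucc]
      show h 0 = Fin.partialProd h (Fin.succ 0)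
      rw [Fin.partialProd_succ]
      simp
    | succ j ih =>
      rw [Fin.partialProd_succ, ← mul_assoc, ih, Fin.snoc_castSucc]
      induction j using Fin.lastCases with
      | last =>
        rw [Fin.succ_last, Fin.snoc_last, Fin.last_add_one]
        show Fin.partialProd h (Fin.last p).succ * h 0 =
          (List.ofFn h).prod * Fin.partialProd h (Fin.succ 0)
        rw [Fin.succ_last, pair_partialProd_last, Fin.partialProd_succ]
        simp
      | cast i =>
        rw [Fin.succ_castSucc, Fin.snoc_castSucc, Fin.coeSucc_eq_succ]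
        show Fin.partialProd h i.castSucc.succ * h i.succ = Fin.partialProd h i.succ.succ
        rw [Fin.partialProd_succ h i.succ, Fin.succ_castSucc]
  refine Loop.ext ?_ ?_
  · show (List.ofFn h).prod = h 0 * (List.ofFn fun l => h (l + 1)).prod * (h 0)⁻¹
    rw [pair_prod_shift, pair_prod_head h]
    group
  · funext l
    exact (key l.succ).symm

/-- the cyclic shift of the jumps -/
def pairShift (G : Type) (p : ℕ) : (Fin (p + 1) → G) ≃ (Fin (p + 1) → G) where
  toFun h := fun l => h (l + 1)
  invFun h := fun l => h (l - 1)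
  left_inv h := by funext l; simp
  right_inv h := by funext l; simp

/-- `(loopOf h).rot = (loopOf (h ∘ (· + 1))).smul (h 0)`; reindex the sum by the cyclic shift and
use the trace property and the conjugation invariance of `C` -/
theorem pair_rot (hτ : Tracial τ) (hC : ConjInv C) {φ : Loop G p → ℝ}
    (hφ : ∀ L g, φ (Loop.smul g L) = φ L) : pair τ e C (fun L => φ L.rot) = pair τ e C φ := by
  unfold pair
  rw [← (pairShift G p).tsum_eq fun h : Fin (p + 1) → G => τ (List.ofFn fun l => e (h l)).prod *
    (C.indicator (fun _ => φ (loopOf h)) (List.ofFn h).prod : ℝ)]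
  refine tsum_congr fun h => ?_
  show τ (List.ofFn fun l => e (h l)).prod *
      (C.indicator (fun _ => φ (loopOf h).rot) (List.ofFn h).prod : ℝ) =
    τ (List.ofFn fun l => e (h (l + 1))).prod *
      (C.indicator (fun _ => φ (loopOf fun l => h (l + 1)))
        (List.ofFn fun l => h (l + 1)).prod : ℝ)
  rw [pair_loopOf_rot, hφ, pair_prod_shift (fun l => e (h l)), pair_prod_head (fun l => e (h l)),
    hτ]
  congr 2
  have hiff : (List.ofFn h).prod ∈ C ↔ (List.ofFn fun l => h (l + 1)).prod ∈ C := by
    rw [pair_prod_shift, pair_prod_head h]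
    constructor
    · intro hm
      have := hC _ (h 0)⁻¹ hm
      convert this using 1
      group
    · intro hm
      have := hC _ (h 0) hm
      convert this using 1
      group
  by_cases hm : (List.ofFn h).prod ∈ C
  · rw [Set.indicator_of_mem hm, Set.indicator_of_mem (hiff.1 hm)]
  · rw [Set.indicator_of_notMem hm, Set.indicator_of_notMem fun h' => hm (hiff.2 h')]

/-- splitting the first jump -/
def pairSplit (G : Type) [Group G] (p : ℕ) : (Fin (p + 1) → G) × G ≃ (Fin (p + 2) → G) where
  toFun q := Fin.cons (α := fun _ => G) q.2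
    (Fin.cons (α := fun _ => G) (q.2⁻¹ * q.1 0) fun j => q.1 j.succ)
  invFun h := (Fin.cons (α := fun _ => G) (h 0 * h 1) fun j => h j.succ.succ, h 0)
  left_inv q := by
    obtain ⟨h, y⟩ := q
    refine Prod.ext ?_ ?_
    · funext l
      induction l using Fin.cases with
      | zero => simp
      | succ j => simp
    · simp
  right_inv h := by
    funext l
    induction l using Fin.cases with
    | zero => simp
    | succ j =>
      induction j using Fin.cases with
      | zero => simp
      | succ i => simp

theorem pairSplit_zero (h : Fin (p + 1) → G) (y : G) : pairSplit G p (h, y) 0 = y := rfl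
theorem pairSplit_one (h : Fin (p + 1) → G) (y : G) :
    pairSplit G p (h, y) (Fin.succ 0) = y⁻¹ * h 0 := rfl
theorem pairSplit_succ (h : Fin (p + 1) → G) (y : G) (j : Fin p) :
    pairSplit G p (h, y) j.succ.succ = h j.succ := rfl

theorem pairSplit_prod (h : Fin (p + 1) → G) (y : G) :
    (List.ofFn (pairSplit G p (h, y))).prod = (List.ofFn h).prod := by
  rw [pair_prod_head, pair_prod_head (fun j : Fin (p + 1) => pairSplit G p (h, y) j.succ),
    pair_prod_head h]
  simp only [pairSplit_zero, pairSplit_one, pairSplit_succ]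
  group

theorem pairSplit_face (h : Fin (p + 1) → G) (y : G) :
    (loopOf (pairSplit G p (h, y))).face 0 = loopOf h := by
  refine Loop.ext (pairSplit_prod h y) ?_
  funext l
  show Fin.partialProd (pairSplit G p (h, y)) (Fin.succAbove 0 l).succ = Fin.partialProd h l.succ
  rw [Fin.succAbove_zero]
  induction l using Fin.induction with
  | zero =>
    rw [Fin.partialProd_succ, Fin.partialProd_succ h, ← Fin.succ_castSucc, Fin.partialProd_succ]
    simp only [Fin.castSucc_zero, Fin.partialProd_zero, pairSplit_zero, pairSplit_one]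
    group
  | succ j ih =>
    rw [Fin.partialProd_succ, Fin.partialProd_succ h, pairSplit_succ, ← Fin.succ_castSucc,
      ← Fin.succ_castSucc, ih]

/-- For `i = 0`: `(loopOf h).face 0 = loopOf (h 0 * h 1, h 2, …)`; reindex by
`h ↔ (y, h')` with `h 0 = y`, `h 1 = y⁻¹ * h' 0`, sum over `y` first and use `IsIdem`. -/
theorem pair_face_zero (h1 : ∀ x, 1 ≤ W x) (hW : ∀ x y, W (x * y) ≤ W x * W y)
    (hs : Summable fun x => ‖e x‖ * W x) (he : IsIdem e) {ψ : Loop G p → ℝ} (hψ : WB W ψ) :
    pair τ e C (fun L : Loop G (p + 1) => ψ (L.face 0)) = pair τ e C ψ := by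
  have h0 : ∀ x, 0 ≤ W x := fun x => zero_le_one.trans (h1 x)
  have hsum := pair_summable (τ := τ) (C := C) h0 hs (hψ.face h0 hW 0)
  have hn : Summable fun x => ‖e x‖ :=
    hs.of_nonneg_of_le (fun x => norm_nonneg _) fun x => le_mul_of_one_le_right (norm_nonneg _) (h1 x)
  have hconv : ∀ x, Summable fun y => e y * e (y⁻¹ * x) := by
    intro x
    refine Summable.of_norm_bounded (hn.mul_right (∑' z, ‖e z‖)) fun y => ?_
    refine (norm_mul_le _ _).trans (mul_le_mul_of_nonneg_left ?_ (norm_nonneg _))
    exact hn.le_tsum _ fun z _ => norm_nonneg _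
  unfold pair
  rw [← (pairSplit G p).tsum_eq]
  refine ((pairSplit G p).summable_iff.2 hsum).tsum_prod.trans (tsum_congr fun h => ?_)
  have hterm : ∀ y : G, τ (List.ofFn fun l => e (pairSplit G p (h, y) l)).prod *
      (C.indicator (fun _ => ψ ((loopOf (pairSplit G p (h, y))).face 0))
        (List.ofFn (pairSplit G p (h, y))).prod : ℝ) =
      τ (e y * e (y⁻¹ * h 0) * (List.ofFn fun j : Fin p => e (h j.succ)).prod) *
        (C.indicator (fun _ => ψ (loopOf h)) (List.ofFn h).prod : ℝ) := by
    intro y
    rw [pairSplit_face, pairSplit_prod, pair_prod_head,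
      pair_prod_head (fun j : Fin (p + 1) => e (pairSplit G p (h, y) j.succ))]
    simp only [pairSplit_zero, pairSplit_one, pairSplit_succ, mul_assoc]
  refine (tsum_congr hterm).trans ?_
  rw [tsum_mul_right, ← τ.map_tsum ((hconv (h 0)).mul_right _), (hconv (h 0)).tsum_mul_right,
    he (h 0), pair_prod_head (fun l => e (h l))]

theorem face_castSucc_rot (L : Loop G (p + 1)) (j : Fin (p + 1)) :
    L.rot.face j.castSucc = (L.face j.succ).rot := by
  refine Loop.ext rfl ?_
  funext l
  show L.rot.x (j.castSucc.succAbove l) = (L.face j.succ).rot.x l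
  induction l using Fin.lastCases with
  | last =>
    rw [Fin.succAbove_castSucc_of_le _ _ (Fin.le_last j), Fin.succ_last, Loop.rot_x_last,
      Loop.rot_x_last]
    show _ = L.g * L.x (j.succ.succAbove 0)
    rw [Fin.succ_succAbove_zero]
  | cast i =>
    rw [Fin.castSucc_succAbove_castSucc, Loop.rot_x_castSucc, Loop.rot_x_castSucc]
    show _ = L.x (j.succ.succAbove i.succ)
    rw [Fin.succ_succAbove_succ]

/-- the inverse rotation -/
def pairUnrot (L : Loop G p) : Loop G p := ⟨L.g, L.prv⟩

theorem pairUnrot_rot (L : Loop G p) : pairUnrot L.rot = L := by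
  refine Loop.ext rfl ?_
  funext l
  show L.rot.prv l = L.x l
  induction l using Fin.cases with
  | zero => simp
  | succ j => simp

theorem pairRot_unrot (L : Loop G p) : (pairUnrot L).rot = L := by
  refine Loop.ext rfl ?_
  funext l
  induction l using Fin.lastCases with
  | last =>
    rw [Loop.rot_x_last]
    show L.g * L.prv 0 = _
    simp
  | cast j =>
    rw [Loop.rot_x_castSucc]
    show L.prv j.succ = _
    simp

theorem pairUnrot_smul (g : G) (L : Loop G p) :
    pairUnrot (L.smul g) = (pairUnrot L).smul g := by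
  refine Loop.ext rfl ?_
  funext l
  show (L.smul g).prv l = g * L.prv l
  induction l using Fin.cases with
  | zero =>
    rw [Loop.prv_zero, Loop.prv_zero]
    show (g * L.g * g⁻¹)⁻¹ * (g * L.x (Fin.last p)) = _
    group
  | succ j =>
    rw [Loop.prv_succ, Loop.prv_succ]
    rfl

theorem pairUnrot_WB {ψ : Loop G p → ℝ} (hψ : WB W ψ) : WB W fun L => ψ (pairUnrot L) := by
  obtain ⟨c, hc⟩ := hψ
  refine ⟨c, fun L => ?_⟩
  have := hc (pairUnrot L)
  rwa [← prod_jump_rot, pairRot_unrot] at this

/-- Induction on `i` (`Fin.induction`) from `pair_face_zero`, for all invariant `ψ` at once.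
Let `unrot L = ⟨L.g, L.prv⟩`, so `L.rot.unrot = L`, and `ψ' = ψ ∘ unrot` (invariant, `WB`), so
`ψ = ψ' ∘ rot`.  Then `pair (ψ ∘ face (j+1)) = pair (ψ' ∘ face j ∘ rot)` (`face_castSucc_rot`)
`= pair (ψ' ∘ face j) = pair ψ' = pair ψ` (`pair_rot` twice). -/
theorem pair_face (h1 : ∀ x, 1 ≤ W x) (hW : ∀ x y, W (x * y) ≤ W x * W y)
    (hs : Summable fun x => ‖e x‖ * W x) (he : IsIdem e) (hτ : Tracial τ) (hC : ConjInv C)
    {ψ : Loop G p → ℝ} (hψ : WB W ψ) (hi : ∀ L g, ψ (Loop.smul g L) = ψ L) (i : Fin (p + 2)) :
    pair τ e C (fun L : Loop G (p + 1) => ψ (L.face i)) = pair τ e C ψ := by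
  induction i using Fin.induction generalizing ψ with
  | zero => exact pair_face_zero h1 hW hs he hψ
  | succ j ih =>
    have hi' : ∀ (L : Loop G p) g, ψ (pairUnrot (Loop.smul g L)) = ψ (pairUnrot L) := by
      intro L g
      rw [pairUnrot_smul, hi]
    have e1 : (fun L : Loop G (p + 1) => ψ (L.face j.succ)) =
        fun L : Loop G (p + 1) => (fun L' : Loop G (p + 1) =>
          ψ (pairUnrot (L'.face j.castSucc))) L.rot := by
      funext L
      show _ = ψ (pairUnrot (L.rot.face j.castSucc))
      rw [face_castSucc_rot, pairUnrot_rot]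
    rw [e1, pair_rot hτ hC (φ := fun L' : Loop G (p + 1) => ψ (pairUnrot (L'.face j.castSucc)))
      (fun L g => by
        show ψ (pairUnrot ((L.smul g).face j.castSucc)) = _
        rw [Loop.face_smul, hi']),
      ih (ψ := fun L => ψ (pairUnrot L)) (pairUnrot_WB hψ) hi',
      ← pair_rot hτ hC (φ := fun L => ψ (pairUnrot L)) hi']
    simp only [pairUnrot_rot]

end Crest.Agent.R192
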