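import Crest.Agent.R192.Loc
import Crest.Agent.R192.Pair
import Crest.Agent.R192.Gibbs

/-! Row 192: the localisation estimate. -/

set_option autoImplicit false
set_option linter.unusedSectionVars false
set_option linter.unusedVariables false

open scoped ContDiff Matrix Topology
open MeasureTheory

noncomputable section

namespace Crest.Agent.R192

variable {G : Type} [Group G] {A : Type} [NormedRing A] [NormedAlgebra ℂ A] [CompleteSpace A]
  {τ : A →L[ℂ] ℂ} {e : G → A} {C : Set G} {ℓ : G → ℝ}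

theorem one_le_wW (hℓ : IsLen ℓ) {κ : ℝ} (hκ : 0 ≤ κ) (x : G) : 1 ≤ wW ℓ κ x := by
  have h := hℓ.nonneg x
  exact one_le_mul_of_one_le_of_one_le (one_le_pow₀ (by linarith))
    (Real.one_le_exp (mul_nonneg hκ h))

theorem wW_mul (hℓ : IsLen ℓ) {κ : ℝ} (hκ : 0 ≤ κ) (x y : G) :
    wW ℓ κ (x * y) ≤ wW ℓ κ x * wW ℓ κ y := by
  have hx := hℓ.nonneg x
  have hy := hℓ.nonneg y
  have hxy := hℓ.nonneg (x * y)
  have h := hℓ.mul x y
  have e1 : (1 + ℓ (x * y)) ^ 6 ≤ ((1 + ℓ x) * (1 + ℓ y)) ^ 6 :=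
    pow_le_pow_left₀ (by linarith) (by nlinarith [mul_nonneg hx hy]) 6
  have e2 : Real.exp (κ * ℓ (x * y)) ≤ Real.exp (κ * ℓ x) * Real.exp (κ * ℓ y) := by
    rw [← Real.exp_add, ← mul_add]
    exact Real.exp_le_exp.2 (mul_le_mul_of_nonneg_left h hκ)
  unfold wW
  calc _ ≤ ((1 + ℓ x) * (1 + ℓ y)) ^ 6 * (Real.exp (κ * ℓ x) * Real.exp (κ * ℓ y)) :=
        mul_le_mul e1 e2 (Real.exp_pos _).le (by positivity)
    _ = _ := by ring

theorem prod_wW {p : ℕ} (κ : ℝ) (L : Loop G p) :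
    ∏ l, wW ℓ κ (L.jump l) = (∏ l, rr ℓ L l) ^ 6 * Real.exp (κ * tot ℓ L) := by
  unfold wW rr tot
  rw [Finset.prod_mul_distrib, Finset.prod_pow, Finset.mul_sum, Real.exp_sum]

theorem local_one_le_rr (hℓ : IsLen ℓ) {p : ℕ} (L : Loop G p) (l : Fin (p + 1)) :
    1 ≤ rr ℓ L l := by
  have := hℓ.nonneg (L.jump l)
  unfold rr; linarith

theorem local_one_le_prod (hℓ : IsLen ℓ) {p : ℕ} (L : Loop G p) : 1 ≤ ∏ l, rr ℓ L l :=
  Finset.one_le_prod fun l _ => local_one_le_rr hℓ L l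

theorem local_exp_cost (hℓ : IsLen ℓ) {p : ℕ} (L : Loop G p) (c : ℝ) :
    Real.exp (c + 4 * ∑ l, Real.log (rr ℓ L l)) = Real.exp c * (∏ l, rr ℓ L l) ^ 4 := by
  have h0 : ∀ l, 0 < rr ℓ L l := fun l => lt_of_lt_of_le one_pos (local_one_le_rr hℓ L l)
  rw [Real.exp_add, ← Real.log_prod fun l _ => (h0 l).ne']
  congr 1
  rw [show (4 : ℝ) = ((4 : ℕ) : ℝ) by norm_num, Real.exp_nat_mul,
    Real.exp_log (Finset.prod_pos fun l _ => h0 l)]

theorem local_prod_rot {p : ℕ} (L : Loop G p) : ∏ l, rr ℓ L.rot l = ∏ l, rr ℓ L l :=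
  prod_jump_rot (fun x => 1 + ℓ x) L

theorem local_tot_nonneg (hℓ : IsLen ℓ) {p : ℕ} (L : Loop G p) : 0 ≤ tot ℓ L :=
  Finset.sum_nonneg fun l _ => hℓ.nonneg _

theorem local_le_prod (hℓ : IsLen ℓ) {κ : ℝ} (hκ : 0 ≤ κ) {p : ℕ} {φ : Loop G p → ℝ} {a : ℝ}
    (ha : 0 ≤ a) (h : ∀ L, |φ L| ≤ a * (∏ l, rr ℓ L l) ^ 6) (L : Loop G p) :
    |φ L| ≤ a * ∏ l, wW ℓ κ (L.jump l) := by
  refine (h L).trans (mul_le_mul_of_nonneg_left ?_ ha)
  rw [prod_wW]
  have h1 := local_one_le_prod hℓ L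
  exact le_mul_of_one_le_right (by positivity)
    (Real.one_le_exp (mul_nonneg hκ (local_tot_nonneg hℓ L)))

theorem local_wb (hℓ : IsLen ℓ) {κ : ℝ} (hκ : 0 ≤ κ) {p : ℕ} {φ : Loop G p → ℝ} {a : ℝ}
    (ha : 0 ≤ a) (h : ∀ L, |φ L| ≤ a * (∏ l, rr ℓ L l) ^ 6) : WB (wW ℓ κ) φ :=
  ⟨a, local_le_prod hℓ hκ ha h⟩

theorem local_err (hℓ : IsLen ℓ) {κ M : ℝ} (hκ : 0 ≤ κ)
    (hs : Summable fun x => ‖e x‖ * wW ℓ κ x) (hM : ∑' x, ‖e x‖ * wW ℓ κ x ≤ M) {p : ℕ}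
    {φ : Loop G p → ℝ} {a t : ℝ} (ha : 0 ≤ a) (h : ∀ L, |φ L| ≤ a * (∏ l, rr ℓ L l) ^ 6)
    (h0 : ∀ L : Loop G p, L.g ∈ C → tot ℓ L ≤ t → φ L = 0) :
    ‖pair τ e C φ‖ ≤ ‖τ‖ * (a * Real.exp (-(κ * t))) * M ^ (p + 1) := by
  have hW0 : ∀ x, 0 ≤ wW ℓ κ x := fun x => zero_le_one.trans (one_le_wW hℓ hκ x)
  refine norm_pair_le hW0 hs hM (by positivity) fun L hL => ?_
  by_cases ht : tot ℓ L ≤ t
  · rw [h0 L hL ht, abs_zero]
    exact mul_nonneg (by positivity) (Finset.prod_nonneg fun l _ => hW0 _)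
  · refine (h L).trans ?_
    rw [prod_wW, mul_assoc]
    refine mul_le_mul_of_nonneg_left ?_ ha
    have h1 := local_one_le_prod hℓ L
    rw [mul_left_comm, ← Real.exp_add]
    refine le_mul_of_one_le_right (by positivity) (Real.one_le_exp ?_)
    nlinarith [not_le.1 ht]

theorem local_sum_sign (k : ℕ) : ∑ i : Fin (dg k + 1), (-1 : ℂ) ^ (i : ℕ) = 1 := by
  rw [Fin.sum_neg_one_pow, if_neg]
  rw [dg_eq]; simp

/-- the constant in the bounds -/
def localA (ε c : ℝ) (k : ℕ) : ℝ := k.factorial * ε ^ k * Real.exp c / (2 * k).factorial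

section Step
variable {Λ : Gen G} {n : ℕ} {ε c B : ℝ}

theorem local_bounds (hℓ : IsLen ℓ) (hΛ : NatG Λ) (hε : 0 < ε)
    (hF : ∀ p ≤ 2 * n, ∀ (L : Loop G p) (ξ : Tm p), Sx ξ →
      Fine ε (c + 4 * ∑ l, Real.log (rr ℓ L l)) B (Λ p L) (rr ℓ L) ξ) {k : ℕ} (hk : k ≤ n) :
    (∀ L, |pw Λ k L| ≤ localA ε c k * (∏ l, rr ℓ L l) ^ 6) ∧
      ∀ i L, |tw Λ k i L| ≤ localA ε c k * (∏ l, rr ℓ L l) ^ 6 := by
  have hp : dg k ≤ 2 * n := by rw [dg_eq]; omega
  have key : ∀ L : Loop G (dg k), k.factorial * ε ^ k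
      * Real.exp (c + 4 * ∑ l, Real.log (rr ℓ L l)) * (∏ l, rr ℓ L l) / (2 * k).factorial
      ≤ localA ε c k * (∏ l, rr ℓ L l) ^ 6 := by
    intro L
    have h1 := local_one_le_prod hℓ L
    rw [local_exp_cost hℓ]
    calc _ = localA ε c k * (∏ l, rr ℓ L l) ^ 5 := by unfold localA; ring
      _ ≤ _ := mul_le_mul_of_nonneg_left (pow_le_pow_right₀ h1 (by norm_num))
          (by unfold localA; positivity)
  exact ⟨fun L => (abs_pw_le hΛ k L (local_one_le_rr hℓ L) hε (hF _ hp L)).trans (key L),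
    fun i L => (abs_tw_le hΛ k i L (local_one_le_rr hℓ L) hε (hF _ hp L)).trans (key L)⟩

theorem local_bounds' (hℓ : IsLen ℓ) (hΛ : NatG Λ) (hε : 0 < ε) (hB : 1 ≤ B)
    (hF : ∀ p ≤ 2 * n, ∀ (L : Loop G p) (ξ : Tm p), Sx ξ →
      Fine ε (c + 4 * ∑ l, Real.log (rr ℓ L l)) B (Λ p L) (rr ℓ L) ξ) {k : ℕ} (hk : k < n) :
    (∀ L, |jw Λ k L| ≤ B * localA ε c k * (∏ l, rr ℓ L l) ^ 6) ∧
      ∀ L, |kw Λ k L| ≤ B * localA ε c k * (∏ l, rr ℓ L l) ^ 6 := by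
  have hp : dg k + 1 ≤ 2 * n := by rw [dg_eq]; omega
  have hA : 0 ≤ localA ε c k := by unfold localA; positivity
  refine ⟨fun L => (abs_jw_le hΛ k L (local_one_le_rr hℓ L) hε (hF _ hp L)).trans ?_,
    fun L => (abs_kw_le hΛ k L (local_one_le_rr hℓ L) hε (hF _ hp L)).trans ?_⟩
  · rw [local_exp_cost hℓ]
    exact le_of_eq (by unfold localA; ring)
  · have h1 := local_one_le_prod hℓ L
    rw [local_exp_cost hℓ]
    calc _ = localA ε c k * (∏ l, rr ℓ L l) ^ 5 := by unfold localA; ring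
      _ ≤ localA ε c k * (∏ l, rr ℓ L l) ^ 6 :=
          mul_le_mul_of_nonneg_left (pow_le_pow_right₀ h1 (by norm_num)) hA
      _ ≤ _ := mul_le_mul_of_nonneg_right (le_mul_of_one_le_left hA hB) (by positivity)

theorem local_step (hℓ : IsLen ℓ) {κ M : ℝ} (hκ : 0 ≤ κ)
    (hs : Summable fun x => ‖e x‖ * wW ℓ κ x) (hM : ∑' x, ‖e x‖ * wW ℓ κ x ≤ M)
    (he : IsIdem e) (hτ : Tracial τ) (hC : ConjInv C) (hΛ : NatG Λ) {t : ℝ} (hε : 0 < ε)
    (hB : 1 ≤ B)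
    (hF : ∀ p ≤ 2 * n, ∀ (L : Loop G p) (ξ : Tm p), Sx ξ →
      Fine ε (c + 4 * ∑ l, Real.log (rr ℓ L l)) B (Λ p L) (rr ℓ L) ξ)
    (hE : ∀ p ≤ 2 * n, ∀ (L : Loop G p) (ξ : Tm p), Sx ξ → L.g ∈ C → tot ℓ L ≤ t →
      en (Λ p L) ξ = 1) {k : ℕ} (hk : k < n) :
    ‖pair τ e C (pw Λ k)‖ ≤ (2 * k + 1) * (2 * ‖pair τ e C (pw Λ (k + 1))‖
        + ‖τ‖ * (3 * (B * localA ε c k) * Real.exp (-(κ * t))) * M ^ (2 * k + 2))
      + (2 * k + 1) ^ 2 * (‖τ‖ * (2 * localA ε c k * Real.exp (-(κ * t))) * M ^ (2 * k + 1)) := by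
  have hW1 := one_le_wW hℓ hκ
  have hW0 : ∀ x, 0 ≤ wW ℓ κ x := fun x => zero_le_one.trans (hW1 x)
  have hWm := wW_mul hℓ hκ
  have hA : 0 ≤ localA ε c k := by unfold localA; positivity
  have hBA : 0 ≤ B * localA ε c k := mul_nonneg (by linarith) hA
  obtain ⟨-, bt⟩ := local_bounds hℓ hΛ hε hF hk.le
  obtain ⟨bj, bk⟩ := local_bounds' hℓ hΛ hε hB hF hk
  have wt := fun i => local_wb hℓ hκ hA (bt i)
  have wj := local_wb hℓ hκ hBA bj
  have wk := local_wb hℓ hκ hBA bk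
  have hp0 : dg k ≤ 2 * n := by rw [dg_eq]; omega
  have hp1 : dg k + 1 ≤ 2 * n := by rw [dg_eq]; omega
  -- (1)
  have h1 : pair τ e C (pw Λ (k + 1)) = -pair τ e C (jw Λ k) := by
    have e1 : pair τ e C (pw Λ (k + 1)) = pair τ e C (p := dg k + 1 + 1) fun L =>
        ∑ i : Fin (dg k + 1 + 2), (-1) ^ ((i : ℕ) + 1) * jw Λ k (L.face i) :=
      congrArg _ (funext fun L => pw_succ hΛ k L)
    rw [e1, pair_sum hW0 hs _ fun i _ => (wj.face hW0 hWm i).const_mul _]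
    simp only [pair_const_mul, pair_face hW1 hWm hs he hτ hC wj (fun L g => jw_smul hΛ k L g)]
    rw [← Finset.sum_mul]
    have e2 := local_sum_sign (k + 1)
    have e3 : ∑ i : Fin (dg k + 1 + 2), (((-1 : ℝ) ^ ((i : ℕ) + 1) : ℝ) : ℂ) = -1 := by
      rw [← e2, ← Finset.sum_neg_distrib]
      exact Finset.sum_congr rfl fun i _ => by push_cast; ring
    rw [e3]; ring
  -- (2)
  have h2 : ‖2 * pair τ e C (jw Λ k) - pair τ e C (kw Λ k)‖
      ≤ ‖τ‖ * (3 * (B * localA ε c k) * Real.exp (-(κ * t))) * M ^ (2 * k + 2) := by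
    have e1 := local_err (τ := τ) (C := C) (t := t) hℓ hκ hs hM
      (φ := fun L => jw Λ k L.rot + jw Λ k L + (-1) * kw Λ k L) (a := 3 * (B * localA ε c k))
      (by positivity) (fun L => by
        have b1 := bj L.rot
        rw [local_prod_rot] at b1
        have b2 := bj L
        have b3 := bk L
        rw [abs_le] at b1 b2 b3 ⊢
        constructor <;> linarith [b1.1, b1.2, b2.1, b2.2, b3.1, b3.2])
      (fun L hL ht => by
        rw [jw_rot hΛ k L fun ξ hξ => hE _ hp1 L ξ hξ hL ht]; ring)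
    rw [pair_add hW0 hs (wj.rot.add wj) (wk.const_mul _), pair_add hW0 hs wj.rot wj,
      pair_const_mul, pair_rot hτ hC fun L g => jw_smul hΛ k L g] at e1
    have e2 : dg k + 1 + 1 = 2 * k + 2 := by rw [dg_eq]
    rw [e2] at e1
    convert e1 using 2
    push_cast; ring
  -- (3)
  have h3 : pair τ e C (kw Λ k) = pair τ e C (tw Λ k 0) := by
    have e1 : pair τ e C (kw Λ k) = pair τ e C (p := dg k + 1) fun L =>
        ∑ i : Fin (dg k + 1), (-1) ^ (i : ℕ) * tw Λ k 0 (L.face i.succ) :=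
      congrArg _ (funext fun L => kw_eq hΛ k L)
    rw [e1, pair_sum hW0 hs _ fun i _ => ((wt 0).face hW0 hWm _).const_mul _]
    simp only [pair_const_mul,
      pair_face hW1 hWm hs he hτ hC (wt 0) (fun L g => tw_smul hΛ k 0 L g)]
    rw [← Finset.sum_mul]
    have e3 : ∑ i : Fin (dg k + 1), (((-1 : ℝ) ^ (i : ℕ) : ℝ) : ℂ) = 1 := by
      rw [← local_sum_sign k]
      exact Finset.sum_congr rfl fun i _ => by push_cast; ring
    rw [e3, one_mul]
  -- (4)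
  set E₂ : ℝ := ‖τ‖ * (2 * localA ε c k * Real.exp (-(κ * t))) * M ^ (2 * k + 1) with hE₂
  have h4 : ∀ i, ‖pair τ e C (tw Λ k i) - pair τ e C (tw Λ k (i + 1))‖ ≤ E₂ := by
    intro i
    have e1 := local_err (τ := τ) (C := C) (t := t) hℓ hκ hs hM
      (φ := fun L => tw Λ k i L.rot + (-1) * tw Λ k (i + 1) L) (a := 2 * localA ε c k)
      (by positivity) (fun L => by
        have b1 := bt i L.rot
        rw [local_prod_rot] at b1
        have b2 := bt (i + 1) L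
        rw [abs_le] at b1 b2 ⊢
        constructor <;> linarith [b1.1, b1.2, b2.1, b2.2])
      (fun L hL ht => by
        rw [tw_rot hΛ k i L fun ξ hξ => hE _ hp0 L ξ hξ hL ht]; ring)
    rw [pair_add hW0 hs (wt i).rot ((wt _).const_mul _), pair_const_mul,
      pair_rot hτ hC fun L g => tw_smul hΛ k i L g] at e1
    have e2 : dg k + 1 = 2 * k + 1 := by rw [dg_eq]
    rw [hE₂, ← e2]
    convert e1 using 2
    push_cast; ring
  have hE₂0 : 0 ≤ E₂ := (norm_nonneg _).trans (h4 0)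
  have h5 : ∀ i : Fin (dg k + 1),
      ‖pair τ e C (tw Λ k i) - pair τ e C (tw Λ k 0)‖ ≤ (i : ℕ) * E₂ := by
    intro i
    induction i using Fin.induction with
    | zero => simp
    | succ j ih =>
      have e1 := h4 j.castSucc
      rw [Fin.coeSucc_eq_succ, norm_sub_rev] at e1
      have e2 := norm_sub_le_norm_sub_add_norm_sub (pair τ e C (tw Λ k j.succ))
        (pair τ e C (tw Λ k j.castSucc)) (pair τ e C (tw Λ k 0))
      simp only [Fin.val_castSucc, Fin.val_succ] at ih ⊢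
      push_cast
      linarith
  have h6 : pair τ e C (pw Λ k) = ∑ i, pair τ e C (tw Λ k i) := by
    rw [← pair_sum hW0 hs _ fun i _ => wt i]
    exact congrArg _ (funext fun L => (sum_tw hΛ k L).symm)
  have hdg : ((dg k + 1 : ℕ) : ℝ) = 2 * k + 1 := by rw [dg_eq]; push_cast; ring
  have h7 : ‖pair τ e C (pw Λ k)‖
      ≤ (2 * k + 1) * (‖pair τ e C (tw Λ k 0)‖ + (2 * k + 1) * E₂) := by
    rw [h6]
    refine (norm_sum_le _ _).trans ?_
    refine (Finset.sum_le_card_nsmul _ _ (‖pair τ e C (tw Λ k 0)‖ + (2 * k + 1) * E₂)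
      fun i _ => ?_).trans ?_
    · have e1 := norm_sub_norm_le (pair τ e C (tw Λ k i)) (pair τ e C (tw Λ k 0))
      have e2 : ((i : ℕ) : ℝ) ≤ 2 * k + 1 := by rw [← hdg]; exact_mod_cast i.2.le
      have e3 := mul_le_mul_of_nonneg_right e2 hE₂0
      linarith [h5 i]
    · rw [Finset.card_univ, Fintype.card_fin, nsmul_eq_mul, hdg]
  have h8 : ‖pair τ e C (tw Λ k 0)‖ ≤ 2 * ‖pair τ e C (pw Λ (k + 1))‖
      + ‖τ‖ * (3 * (B * localA ε c k) * Real.exp (-(κ * t))) * M ^ (2 * k + 2) := by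
    rw [← h3, h1, norm_neg]
    have e1 := norm_sub_norm_le (pair τ e C (kw Λ k)) (2 * pair τ e C (jw Λ k))
    rw [norm_sub_rev, norm_mul, Complex.norm_two] at e1
    linarith
  have h9 : (0 : ℝ) ≤ 2 * k + 1 := by positivity
  calc _ ≤ _ := h7
    _ ≤ (2 * k + 1) * (2 * ‖pair τ e C (pw Λ (k + 1))‖
        + ‖τ‖ * (3 * (B * localA ε c k) * Real.exp (-(κ * t))) * M ^ (2 * k + 2)
        + (2 * k + 1) * E₂) := mul_le_mul_of_nonneg_left (by linarith) h9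
    _ = _ := by ring

end Step

/-- Localisation.  With `P k = pair (pw k)`, `J k`, `K k`, `T k i`: `P (k+1) = -J k`,
`2 J k = K k + error`, `K k = T k 0`, `T k i = T k (i+1) + error`, `∑ i, T k i = P k`. -/
theorem local_bound (hℓ : IsLen ℓ) {κ M : ℝ} (hκ : 0 ≤ κ)
    (hs : Summable fun x => ‖e x‖ * wW ℓ κ x) (hM : ∑' x, ‖e x‖ * wW ℓ κ x ≤ M) (hM1 : 1 ≤ M)
    (he : IsIdem e) (hτ : Tracial τ) (hC : ConjInv C) {Λ : Gen G} (hΛ : NatG Λ) {n : ℕ}
    {ε c B t : ℝ} (hε : 0 < ε) (hεM : ε * M ^ 2 ≤ 1) (hB : 1 ≤ B)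
    (hF : ∀ p ≤ 2 * n, ∀ (L : Loop G p) (ξ : Tm p), Sx ξ →
      Fine ε (c + 4 * ∑ l, Real.log (rr ℓ L l)) B (Λ p L) (rr ℓ L) ξ)
    (hE : ∀ p ≤ 2 * n, ∀ (L : Loop G p) (ξ : Tm p), Sx ξ → L.g ∈ C → tot ℓ L ≤ t →
      en (Λ p L) ξ = 1) :
    ‖ctr τ e C‖ ≤ ‖τ‖ * Real.exp c *
      ((ε * M ^ 2) ^ n * M + 5 * n * (2 * n + 1) ^ 2 * B * M ^ 2 * Real.exp (-(κ * t))) := by
  have hW0 : ∀ x, 0 ≤ wW ℓ κ x := fun x => zero_le_one.trans (one_le_wW hℓ hκ x)
  set Q : ℕ → ℝ := fun k => (2 * k).factorial / k.factorial * ‖pair τ e C (pw Λ k)‖ with hQ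
  set D : ℝ := ‖τ‖ * Real.exp c * (5 * (2 * n + 1) ^ 2 * B * M ^ 2 * Real.exp (-(κ * t))) with hD
  have hfa : ∀ k : ℕ, ((2 * k).factorial : ℝ) / k.factorial * localA ε c k
      = ε ^ k * Real.exp c := by
    intro k
    have := (Nat.cast_pos (α := ℝ)).2 (Nat.factorial_pos k)
    have := (Nat.cast_pos (α := ℝ)).2 (Nat.factorial_pos (2 * k))
    unfold localA; field_simp
  have hM0 : 0 < M := by linarith
  have step : ∀ k < n, Q k ≤ Q (k + 1) + D := by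
    intro k hk
    have h := local_step hℓ hκ hs hM he hτ hC hΛ hε hB hF hE hk
    have hk1 := (Nat.cast_pos (α := ℝ)).2 (Nat.factorial_pos k)
    have hk2 := (Nat.cast_pos (α := ℝ)).2 (Nat.factorial_pos (2 * k))
    have e0 : (0 : ℝ) ≤ ((2 * k).factorial : ℝ) / k.factorial := by positivity
    have e1 := mul_le_mul_of_nonneg_left h e0
    have e2 : (((2 * (k + 1)).factorial : ℕ) : ℝ) / (k + 1).factorial
        = ((2 * k).factorial : ℝ) / k.factorial * ((2 * k + 1) * 2) := by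
      rw [show 2 * (k + 1) = 2 * k + 1 + 1 by ring, Nat.factorial_succ, Nat.factorial_succ,
        Nat.factorial_succ]
      push_cast; field_simp; ring
    have e3 : (ε * M ^ 2) ^ k ≤ 1 := pow_le_one₀ (by positivity) hεM
    have hkn : (2 * k + 1 : ℝ) ≤ 2 * n + 1 := by
      have : (k : ℝ) ≤ n := by exact_mod_cast hk.le
      linarith
    have hk0 : (1 : ℝ) ≤ 2 * k + 1 := by
      have : (0 : ℝ) ≤ k := Nat.cast_nonneg k
      linarith
    have e4 : (2 * k + 1 : ℝ) * (3 * B * M ^ 2) + (2 * k + 1) ^ 2 * (2 * M)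
        ≤ 5 * (2 * n + 1) ^ 2 * B * M ^ 2 := by
      have a1 : (2 * k + 1 : ℝ) ^ 2 ≤ (2 * n + 1) ^ 2 := pow_le_pow_left₀ (by linarith) hkn 2
      have a2 : (2 * k + 1 : ℝ) ≤ (2 * n + 1) ^ 2 := by nlinarith
      have a3 : M ≤ B * M ^ 2 := by nlinarith [mul_le_mul hB hM1 zero_le_one (by linarith)]
      have a4 : 0 ≤ B * M ^ 2 := by positivity
      have a5 := mul_le_mul_of_nonneg_right a2 a4
      have a6 := mul_le_mul a1 a3 hM0.le (by positivity)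
      nlinarith
    have e5 : ((2 * k).factorial : ℝ) / k.factorial * ((2 * k + 1) *
          (2 * ‖pair τ e C (pw Λ (k + 1))‖
          + ‖τ‖ * (3 * (B * localA ε c k) * Real.exp (-(κ * t))) * M ^ (2 * k + 2))
        + (2 * k + 1) ^ 2 * (‖τ‖ * (2 * localA ε c k * Real.exp (-(κ * t))) * M ^ (2 * k + 1)))
        = Q (k + 1) + ‖τ‖ * (((2 * k).factorial : ℝ) / k.factorial * localA ε c k)
          * (M ^ 2) ^ k * Real.exp (-(κ * t))
          * ((2 * k + 1 : ℝ) * (3 * B * M ^ 2) + (2 * k + 1) ^ 2 * (2 * M)) := by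
      simp only [hQ]
      rw [e2]; ring
    rw [e5, hfa] at e1
    refine e1.trans (add_le_add le_rfl ?_)
    calc ‖τ‖ * (ε ^ k * Real.exp c) * (M ^ 2) ^ k * Real.exp (-(κ * t))
          * ((2 * k + 1 : ℝ) * (3 * B * M ^ 2) + (2 * k + 1) ^ 2 * (2 * M))
        = ‖τ‖ * Real.exp c * Real.exp (-(κ * t)) * ((ε * M ^ 2) ^ k
          * ((2 * k + 1 : ℝ) * (3 * B * M ^ 2) + (2 * k + 1) ^ 2 * (2 * M))) := by ring
      _ ≤ ‖τ‖ * Real.exp c * Real.exp (-(κ * t)) * (1 * (5 * (2 * n + 1) ^ 2 * B * M ^ 2)) :=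
          mul_le_mul_of_nonneg_left (mul_le_mul e3 e4 (by positivity) zero_le_one) (by positivity)
      _ = D := by rw [hD]; ring
  have tele : ∀ k ≤ n, Q 0 ≤ Q k + k * D := by
    intro k
    induction k with
    | zero => intro _; simp
    | succ j ih =>
      intro hj
      have := ih (by omega)
      have := step j (by omega)
      push_cast; linarith
  have h0 : Q 0 = ‖ctr τ e C‖ := by
    have e1 : pair τ e C (pw Λ 0) = ctr τ e C := by
      rw [← pair_zero_one]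
      exact congrArg _ (funext fun L => pw_zero L)
    simp [hQ, e1]
  have hn : Q n ≤ ‖τ‖ * Real.exp c * ((ε * M ^ 2) ^ n * M) := by
    have hA : 0 ≤ localA ε c n := by unfold localA; positivity
    have b := (local_bounds hℓ hΛ hε hF le_rfl).1
    have e1 := norm_pair_le (τ := τ) (C := C) hW0 hs hM hA
      fun L _ => local_le_prod hℓ hκ hA b L
    have e0 : (0 : ℝ) ≤ ((2 * n).factorial : ℝ) / n.factorial := by positivity
    have e2 : dg n + 1 = 2 * n + 1 := by rw [dg_eq]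
    refine (mul_le_mul_of_nonneg_left e1 e0).trans (le_of_eq ?_)
    calc _ = ‖τ‖ * (((2 * n).factorial : ℝ) / n.factorial * localA ε c n) * M ^ (dg n + 1) := by
          ring
      _ = _ := by rw [hfa, e2]; ring
  have := tele n le_rfl
  rw [h0] at this
  calc _ ≤ ‖τ‖ * Real.exp c * ((ε * M ^ 2) ^ n * M) + n * D := by linarith
    _ = _ := by rw [hD]; ring

end Crest.Agent.R192
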