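import Crest.Agent.R192.Reduce
import Crest.Agent.R192.Core
import Crest.Agent.R192.Len

/-! Row 192: the trace theorem with coefficients in a Banach algebra. -/

set_option autoImplicit false
set_option linter.unusedSectionVars false
set_option linter.unusedVariables false

open scoped ContDiff Matrix Topology
open MeasureTheory

noncomputable section

namespace Crest.Agent.R192

variable {G : Type} [Group G] {A : Type} [NormedRing A] [NormedAlgebra ℂ A] [CompleteSpace A]
  [NormOneClass A] {τ : A →L[ℂ] ℂ} {e : G → A}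

theorem main_conjInv {H : Subgroup G} {C : Set G} (hC : ConjInv C) :
    ConjInv (Subtype.val ⁻¹' C : Set H) := fun g h hg => hC g.1 h.1 hg

theorem main_conjInv_carrier (c : ConjClasses G) : ConjInv c.carrier := by
  intro g h hg
  rw [ConjClasses.mem_carrier_iff_mk_eq] at hg ⊢
  rw [← hg, ConjClasses.mk_eq_mk_iff_isConj]
  exact (isConj_iff.2 ⟨h, rfl⟩).symm

/-- `reduce`, `exists_len`, `core`, `exists_far_infinite` -/
theorem bass_inf (hτ : Tracial τ) (hs : Summable fun x => ‖e x‖) (he : IsIdem e) {C : Set G}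
    (hC : ConjInv C) (hinf : ∀ g ∈ C, ¬IsOfFinOrder g) : ctr τ e C = 0 := by
  obtain ⟨H, hH, hred⟩ := reduce hτ hs he
  have : Group.FG H := (Group.fg_iff_subgroup_fg H).2 hH
  obtain ⟨ℓ, hℓ, hZ⟩ := exists_len (G := H)
  obtain ⟨κ, hκ, e', hs', he', htr⟩ := hred ℓ hℓ
  obtain ⟨T, hT, hcore⟩ := core hℓ hZ hκ hs' he' hτ
  obtain ⟨M, hM, hfar⟩ := exists_far_infinite hℓ hZ hT
  rw [htr C hC]
  refine hcore M hM _ (main_conjInv hC) fun g hg => hfar g fun hfin => hinf g.1 hg ?_
  exact H.subtype.isOfFinOrder hfin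

/-- a class that does not meet the finite ball of radius `2 T` of `H` has trace zero
(`far_two`, `finite_ball`) -/
theorem bass_fin (hτ : Tracial τ) (hs : Summable fun x => ‖e x‖) (he : IsIdem e) :
    {c : ConjClasses G | ctr τ e c.carrier ≠ 0}.Finite := by
  obtain ⟨H, hH, hred⟩ := reduce hτ hs he
  have : Group.FG H := (Group.fg_iff_subgroup_fg H).2 hH
  obtain ⟨ℓ, hℓ, hZ⟩ := exists_len (G := H)
  obtain ⟨κ, hκ, e', hs', he', htr⟩ := hred ℓ hℓ
  obtain ⟨T, hT, hcore⟩ := core hℓ hZ hκ hs' he' hτ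
  refine ((finite_ball hZ (2 * T)).image fun x : H => ConjClasses.mk x.1).subset fun c hc => ?_
  by_contra hne
  apply hc
  have hC := main_conjInv_carrier c
  rw [htr _ hC]
  refine hcore 2 (by norm_num) _ (main_conjInv hC) fun g hg => far_two hℓ fun x => ?_
  by_contra hlt
  apply hne
  refine ⟨x⁻¹ * g * x, not_le.1 hlt, ?_⟩
  have := main_conjInv hC g x⁻¹ hg
  rw [inv_inv] at this
  exact ConjClasses.mem_carrier_iff_mk_eq.1 this

end Crest.Agent.R192
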