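import Crest.Agent.R192.Ker1

/-! Row 192: the periodic majorant, convolutions of kernels, comparison of windows. -/

set_option autoImplicit false
set_option linter.unusedSectionVars false
set_option linter.unusedVariables false

open scoped ContDiff Matrix Topology
open MeasureTheory

noncomputable section

namespace Crest.Agent.R192

theorem maj_out {Q : ℝ → ℝ} {h w : ℝ} (hQ : KB Q h w) {u c r : ℝ} (hu : |u - c| ≤ r) (m : ℤ)
    (hm : m ∉ Finset.Icc ⌈c - r - w⌉ ⌊c + r + w⌋) : Q (u - m) = 0 := by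
  refine hQ.2 _ ?_
  rw [Finset.mem_Icc, Int.ceil_le, Int.le_floor, not_and_or, not_le, not_le] at hm
  rw [abs_le] at hu
  rcases hm with hm | hm
  · exact lt_of_lt_of_le (by linarith [hu.1]) (le_abs_self _)
  · exact lt_of_lt_of_le (by linarith [hu.2]) (neg_le_abs _)

theorem maj_kb {w : ℝ} (hw : 0 < w) : KB (fun u => kρ (u / (4 * w))) 1 (3 * w) := by
  refine ⟨fun u => ?_, fun u hu => kρ_zero ?_⟩
  · rw [abs_of_nonneg (kρ_nonneg _)]; exact kρ_le_one _
  · rw [abs_div, abs_of_pos (by positivity : 0 < 4 * w), le_div_iff₀ (by positivity)]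
    linarith

theorem maj_loc {w : ℝ} (hw : 0 < w) {u c r : ℝ} (hu : |u - c| ≤ r) :
    maj w u = ∑ m ∈ Finset.Icc ⌈c - r - 3 * w⌉ ⌊c + r + 3 * w⌋, kρ ((u - m) / (4 * w)) :=
  tsum_eq_sum fun m hm => maj_out (maj_kb hw) hu m hm

theorem maj_cont (w : ℝ) : Continuous fun u => kρ (u / (4 * w)) :=
  contDiff_kρ.continuous.comp (continuous_id.div_const _)

theorem maj_int {w : ℝ} (hw : 0 < w) : ∫ u, kρ (u / (4 * w)) = 4 * w := by
  rw [Measure.integral_comp_div, integral_kρ, abs_of_pos (by positivity), smul_eq_mul, mul_one]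

theorem maj_setInt {Q : ℝ → ℝ} {h w : ℝ} (hQ : KB Q h w) (g : ℝ → ℝ) :
    ∫ v, Q v * g v = ∫ v in Set.Icc (-w) w, Q v * g v := by
  refine (setIntegral_eq_integral_of_forall_compl_eq_zero fun v hv => ?_).symm
  rw [hQ.2 v (lt_of_not_ge fun h => hv (abs_le.1 h)), zero_mul]

theorem KB.finite_support {Q : ℝ → ℝ} {h w : ℝ} (hQ : KB Q h w) (u : ℝ) :
    (Function.support fun m : ℤ => Q (u - m)).Finite := by
  refine (Finset.Icc ⌈u - 0 - w⌉ ⌊u + 0 + w⌋).finite_toSet.subset fun m hm => ?_
  by_contra h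
  exact hm (maj_out hQ (c := u) (r := 0) (by simp) m h)

/-- locally finite sum of continuous functions -/
theorem continuous_maj {w : ℝ} (hw : 0 < w) : Continuous (maj w) := by
  rw [continuous_iff_continuousAt]
  intro c
  have h1 : Continuous fun u : ℝ =>
      ∑ m ∈ Finset.Icc ⌈c - 1 - 3 * w⌉ ⌊c + 1 + 3 * w⌋, kρ ((u - m) / (4 * w)) :=
    continuous_finsetSum _ fun m _ => (maj_cont w).comp (continuous_id.sub continuous_const)
  refine h1.continuousAt.congr ?_
  filter_upwards [Metric.closedBall_mem_nhds c one_pos] with u hu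
  exact (maj_loc hw (by simpa [Real.dist_eq] using hu)).symm

theorem periodic_maj (w : ℝ) : Function.Periodic (maj w) 1 := by
  intro u
  unfold maj
  rw [← (Equiv.addRight (1 : ℤ)).tsum_eq]
  refine tsum_congr fun m => ?_
  simp

theorem maj_nonneg (w u : ℝ) : 0 ≤ maj w u := by
  exact tsum_nonneg fun m => kρ_nonneg _

/-- at most `6 w + 1` integers `m` have `|u - m| < 3 w` -/
theorem maj_le {w : ℝ} (hw : 0 < w) (u : ℝ) : maj w u ≤ 6 * w + 1 := by
  rw [maj_loc hw (c := u) (r := 0) (by simp)]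
  refine (Finset.sum_le_card_nsmul _ _ 1 fun m _ => kρ_le_one _).trans ?_
  rw [nsmul_eq_mul, mul_one, Int.card_Icc]
  have h3 := Int.floor_le (u + 0 + 3 * w)
  have h4 := Int.le_ceil (u - 0 - 3 * w)
  rcases le_total (⌊u + 0 + 3 * w⌋ + 1 - ⌈u - 0 - 3 * w⌉) 0 with h | h
  · rw [Int.toNat_eq_zero.2 h]; simp; linarith
  · have h5 : (((⌊u + 0 + 3 * w⌋ + 1 - ⌈u - 0 - 3 * w⌉).toNat : ℤ) : ℝ) =
        ((⌊u + 0 + 3 * w⌋ + 1 - ⌈u - 0 - 3 * w⌉ : ℤ) : ℝ) := by rw [Int.toNat_of_nonneg h]
    rw [Int.cast_natCast] at h5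
    rw [h5]; push_cast; linarith

/-- unfolding: the integral over one period of the periodisation is the integral over the line -/
theorem integral_maj {w : ℝ} (hw : 0 < w) (c : ℝ) :
    ∫ s in (0 : ℝ)..1, maj w (s - c) = 4 * w := by
  have hr : ∀ s ∈ Set.uIcc (0 : ℝ) 1, |s - c - -c| ≤ 1 := fun s hs => by
    rw [Set.uIcc_of_le zero_le_one] at hs
    rw [abs_le]; constructor <;> linarith [hs.1, hs.2]
  have hG : Integrable fun x => kρ ((x - c) / (4 * w)) :=
    ((maj_kb hw).integrable (maj_cont w)).comp_sub_right c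
  have h1 := (Equiv.neg ℤ).hasSum_iff.2 hG.hasSum_intervalIntegral_comp_add_int
  rw [integral_sub_right_eq_self (fun x => kρ (x / (4 * w))) c, maj_int hw] at h1
  have h2 : ((fun n : ℤ => ∫ x in (0 : ℝ)..1, kρ ((x + n - c) / (4 * w))) ∘ Equiv.neg ℤ) =
      fun m : ℤ => ∫ x in (0 : ℝ)..1, kρ ((x - c - m) / (4 * w)) := by
    ext m
    simp only [Function.comp, Equiv.neg_apply, Int.cast_neg]
    congr 1
    ext x
    congr 2
    ring
  rw [h2] at h1
  rw [intervalIntegral.integral_congr fun s hs => maj_loc hw (hr s hs),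
    intervalIntegral.integral_finsetSum (f := fun (m : ℤ) (s : ℝ) => kρ ((s - c - m) / (4 * w)))
      fun m _ => ((maj_cont w).comp
        (by fun_prop : Continuous fun s : ℝ => s - c - m)).intervalIntegrable _ _]
  refine (hasSum_sum_of_ne_finset_zero fun m hm => ?_).unique h1
  rw [intervalIntegral.integral_congr (g := fun _ => 0) fun s hs =>
    maj_out (maj_kb hw) (hr s hs) m hm]
  simp

/-- `|Q t| ≤ h * kρ (t / (4 w))` -/
theorem KB.tsum_abs_le {Q : ℝ → ℝ} {h w : ℝ} (hQ : KB Q h w) (hw : 0 < w) (u : ℝ) :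
    ∑' m : ℤ, |Q (u - m)| ≤ h * maj w u := by
  unfold maj
  rw [← tsum_mul_left]
  have h1 : Summable fun m : ℤ => kρ ((u - m) / (4 * w)) :=
    summable_of_hasFiniteSupport ((maj_kb hw).finite_support u)
  refine Summable.tsum_le_tsum (fun m => ?_)
    (summable_of_hasFiniteSupport (hQ.finite_support u)).abs (h1.mul_left h)
  rcases le_or_gt |u - m| w with h2 | h2
  · rw [kρ_one, mul_one]
    · exact hQ.1 _
    · rw [abs_div, abs_of_pos (by positivity : 0 < 4 * w), div_le_iff₀ (by positivity)]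
      linarith
  · rw [hQ.2 _ h2, abs_zero]
    exact mul_nonneg hQ.nonneg (kρ_nonneg _)

/-- for each `m`, `∫ |Q v| kρ ((t - v) / (4 w')) dv ≤ h * 4 w'`, and it vanishes for
`|t| > w + 3 w'`; the sum over `m` is finite, uniformly for `|v| ≤ w` -/
theorem conv_maj {Q : ℝ → ℝ} {h w w' : ℝ} (hQ : KB Q h w) (hc : Continuous Q) (hw : 0 ≤ w)
    (hw' : 0 < w') (u : ℝ) :
    ∫ v, |Q v| * maj w' (u - v) ≤ h * (4 * w') * maj (w + 3 * w') u := by
  have hh := hQ.nonneg
  have hw2 : 0 < w + 3 * w' := by linarith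
  have h1 : ∀ v, |Q v| * maj w' (u - v) =
      ∑ m ∈ Finset.Icc ⌈u - w - 3 * w'⌉ ⌊u + w + 3 * w'⌋,
        |Q v| * kρ ((u - v - m) / (4 * w')) := fun v => by
    rcases le_or_gt |v| w with h2 | h2
    · rw [maj_loc hw' (c := u) (r := w) (by simpa using h2), Finset.mul_sum]
    · simp [hQ.2 v h2]
  have h2 : ∀ m : ℤ, Integrable fun v => kρ ((u - v - m) / (4 * w')) := fun m => by
    have := ((maj_kb hw').integrable (maj_cont w')).comp_sub_left (u - m)
    refine this.congr (Filter.Eventually.of_forall fun v => ?_)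
    simp only
    congr 2
    ring
  have h3 : ∀ m : ℤ, Integrable fun v => |Q v| * kρ ((u - v - m) / (4 * w')) := fun m =>
    (h2 m).bdd_mul (c := h) hc.abs.aestronglyMeasurable
      (Filter.Eventually.of_forall fun v => by simpa using hQ.1 v)
  simp only [h1]
  rw [integral_finsetSum _ fun m _ => h3 m]
  unfold maj
  rw [← tsum_mul_left]
  have h4 : Summable fun m : ℤ => kρ ((u - m) / (4 * (w + 3 * w'))) :=
    summable_of_hasFiniteSupport ((maj_kb hw2).finite_support u)
  refine le_trans (Finset.sum_le_sum fun m _ => ?_) ((h4.mul_left (h * (4 * w'))).sum_le_tsum _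
    fun m _ => mul_nonneg (by positivity) (kρ_nonneg _))
  rcases le_or_gt |u - m| (w + 3 * w') with h5 | h5
  · rw [kρ_one, mul_one]
    · have h6 : ∫ v, kρ ((u - v - m) / (4 * w')) = 4 * w' := by
        refine Eq.trans ?_ ((integral_sub_left_eq_self (fun x => kρ (x / (4 * w'))) volume
          (u - m)).trans (maj_int hw'))
        congr 1
        ext v
        congr 2
        ring
      refine (integral_mono (h3 m) ((h2 m).const_mul h) fun v =>
        mul_le_mul_of_nonneg_right (hQ.1 v) (kρ_nonneg _)).trans (le_of_eq ?_)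
      rw [integral_const_mul, h6]
    · rw [abs_div, abs_of_pos (by positivity : 0 < 4 * (w + 3 * w')), div_le_iff₀ (by positivity)]
      linarith
  · have h6 : ∀ v, |Q v| * kρ ((u - v - m) / (4 * w')) = 0 := fun v => by
      rcases le_or_gt |v| w with h7 | h7
      · have h8 : 3 * w' < |u - v - m| := by
          have := abs_add_le (u - v - m) v
          rw [show u - v - m + v = u - m by ring] at this
          linarith
        exact mul_eq_zero_of_right _ ((maj_kb hw').2 _ h8)
      · simp [hQ.2 v h7]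
    simp only [h6, integral_zero]
    exact mul_nonneg (by positivity) (kρ_nonneg _)

theorem continuous_conv {Q f : ℝ → ℝ} {h w : ℝ} (hQ : KB Q h w) (hc : Continuous Q)
    (hf : Continuous f) : Continuous fun s => ∫ v, Q v * f (s - v) := by
  simp only [maj_setInt hQ]
  exact continuous_parametric_integral_of_continuous (f := fun s v => Q v * f (s - v))
    (by unfold Function.uncurry; fun_prop) isCompact_Icc

/-- Fubini on `[0,1] × [-w,w]` and translation invariance of the integral over a period -/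
theorem integral_conv_periodic {Q f : ℝ → ℝ} {h w : ℝ} (hQ : KB Q h w) (hc : Continuous Q)
    (hf : Continuous f) (hp : Function.Periodic f 1) :
    ∫ s in (0 : ℝ)..1, ∫ v, Q v * f (s - v) = (∫ v, Q v) * ∫ s in (0 : ℝ)..1, f s := by
  simp only [maj_setInt hQ]
  rw [intervalIntegral_integral_swap, ← integral_mul_const, maj_setInt hQ]
  · congr 1
    ext v
    rw [intervalIntegral.integral_const_mul, intervalIntegral.integral_comp_sub_right]
    have := hp.intervalIntegral_add_eq (0 - v) 0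
    rw [zero_add, show 0 - v + 1 = 1 - v by ring] at this
    rw [this]
  · rw [Measure.prod_restrict]
    have h1 : Continuous (Function.uncurry fun s v => Q v * f (s - v)) := by
      unfold Function.uncurry; fun_prop
    exact (h1.continuousOn.integrableOn_compact (isCompact_uIcc.prod isCompact_Icc)).mono_set
      (Set.prod_mono Set.uIoc_subset_uIcc subset_rfl)

/-- Overlap of enlarged cells.  With `k = ⌈w n⌉₊ ≤ w n + 1`, the enlarged cell `I` lies in the
union of the cells `I + d`, `|d| ≤ k`, and for fixed `d` these cells tile one period. -/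
theorem overlap {f : ℝ → ℝ} (hf : Continuous f) (hp : Function.Periodic f 1) (h0 : ∀ u, 0 ≤ f u)
    {n : ℕ} (hn : 1 ≤ n) {w : ℝ} (hw : 0 ≤ w) :
    ∑ I ∈ Finset.range n, ∫ u in ((I : ℝ) / n - w)..(((I : ℝ) + 1) / n + w), f u
      ≤ (2 * w * n + 3) * ∫ s in (0 : ℝ)..1, f s := by
  have hi : ∀ a b, IntervalIntegrable f volume a b := fun a b => hf.intervalIntegrable a b
  have hn0 : (0 : ℝ) < n := by exact_mod_cast hn
  set k : ℕ := ⌈w * n⌉₊ with hk
  have hk1 : w ≤ k / n := by rw [le_div_iff₀ hn0]; exact Nat.le_ceil _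
  have hk2 : (k : ℝ) ≤ w * n + 1 := (Nat.ceil_lt_add_one (by positivity)).le
  set Φ : ℕ → ℝ := fun j => ∫ u in (0 : ℝ)..(((j : ℝ) - k) / n), f u with hΦ
  have hc0 : 0 ≤ ∫ s in (0 : ℝ)..1, f s :=
    intervalIntegral.integral_nonneg zero_le_one fun u _ => h0 u
  have h1 : ∀ I : ℕ, ∫ u in ((I : ℝ) / n - w)..(((I : ℝ) + 1) / n + w), f u ≤
      ∑ d ∈ Finset.range (2 * k + 1), (Φ (I + (d + 1)) - Φ (I + d)) := fun I => by
    rw [Finset.sum_range_sub (fun d => Φ (I + d)), hΦ]
    simp only
    rw [intervalIntegral.integral_interval_sub_left (hi _ _) (hi _ _)]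
    have e1 : (((I + 0 : ℕ) : ℝ) - k) / n = I / n - k / n := by push_cast; ring
    have e2 : (((I + (2 * k + 1) : ℕ) : ℝ) - k) / n = (I + 1) / n + k / n := by push_cast; ring
    have e3 : (I : ℝ) / n ≤ (I + 1) / n := by gcongr; linarith
    rw [e1, e2]
    exact intervalIntegral.integral_mono_interval (by linarith) (by linarith) (by linarith)
      (Filter.Eventually.of_forall h0) (hi _ _)
  refine (Finset.sum_le_sum fun I _ => h1 I).trans ?_
  rw [Finset.sum_comm]
  have h2 : ∀ d : ℕ, ∑ I ∈ Finset.range n, (Φ (I + (d + 1)) - Φ (I + d)) =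
      ∫ s in (0 : ℝ)..1, f s := fun d => by
    have e1 : ∀ I : ℕ, I + (d + 1) = I + 1 + d := fun I => by ring
    simp only [e1]
    rw [Finset.sum_range_sub (fun I => Φ (I + d)), hΦ]
    simp only
    rw [intervalIntegral.integral_interval_sub_left (hi _ _) (hi _ _)]
    have e2 : (((n + d : ℕ) : ℝ) - k) / n = (((0 + d : ℕ) : ℝ) - k) / n + 1 := by
      push_cast; field_simp; ring
    rw [e2, hp.intervalIntegral_add_eq _ 0, zero_add]
  simp only [h2, Finset.sum_const, Finset.card_range, nsmul_eq_mul]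
  refine mul_le_mul_of_nonneg_right ?_ hc0
  push_cast
  linarith

end Crest.Agent.R192
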