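import Crest.Agent.R192.Defs

/-! Row 192: idempotents in Banach algebras. -/

set_option autoImplicit false
set_option linter.unusedSectionVars false
set_option linter.unusedVariables false

open scoped ContDiff Matrix Topology
open MeasureTheory

noncomputable section

namespace Crest.Agent.R192

variable {B : Type} [NormedRing B] [CompleteSpace B]

/-- Let `q = a² - a`, `c = -q (1 + 4 q)⁻¹` (Neumann series, `‖c‖ ≤ 2 δ`; `c` commutes with `a`).
Solve `y = c - y²` in the complete set `{y | Commute a y, Commute c y, ‖y‖ ≤ 4 δ}` by contraction.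
Then `e = a + (2 a - 1) y` satisfies `e² - e = q + (1 + 4 q) (y + y²) = 0`. -/
theorem exists_idem_near [NormOneClass B] {a : B} {δ : ℝ} (hδ : ‖a * a - a‖ ≤ δ)
    (hδ' : δ ≤ 1 / 16) : ∃ e : B, e * e = e ∧ ‖e - a‖ ≤ (2 * ‖a‖ + 1) * (4 * δ) := by
  obtain ⟨q, hq⟩ : ∃ q : B, q = a * a - a := ⟨_, rfl⟩
  rw [← hq] at hδ
  have hδ0 : 0 ≤ δ := (norm_nonneg _).trans hδ
  have haq : Commute a q := by
    rw [hq]; exact ((Commute.refl a).mul_right (Commute.refl a)).sub_right (Commute.refl a)
  let Φ : B → B := fun y => -q - y * y - (4 : ℕ) • (q * (y + y * y))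
  let S : Set B := {y | Commute a y ∧ ‖y‖ ≤ 4 * δ}
  have hS : IsClosed S := by
    refine IsClosed.inter (isClosed_eq (f := fun y => a * y) (g := fun y => y * a) ?_ ?_)
      (isClosed_le continuous_norm continuous_const) <;> fun_prop
  have h4 : ∀ x : B, ‖(4 : ℕ) • x‖ ≤ 4 * ‖x‖ := fun x => by
    simpa using (norm_nsmul_le (n := 4) (a := x))
  have hmaps : Set.MapsTo Φ S S := by
    rintro y ⟨hy1, hy2⟩
    refine ⟨(haq.neg_right.sub_right (hy1.mul_right hy1)).sub_right
      ((haq.mul_right (hy1.add_right (hy1.mul_right hy1))).smul_right _), ?_⟩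
    have hy0 := norm_nonneg y
    have h1 : ‖y * y‖ ≤ δ := (norm_mul_le _ _).trans (by nlinarith)
    have h2 : ‖y + y * y‖ ≤ 5 * δ := (norm_add_le _ _).trans (by linarith)
    have h3 : ‖q * (y + y * y)‖ ≤ δ * (5 * δ) :=
      (norm_mul_le _ _).trans (mul_le_mul hδ h2 (norm_nonneg _) hδ0)
    have h5 := h4 (q * (y + y * y))
    have h6 := norm_sub_le (-q - y * y) ((4 : ℕ) • (q * (y + y * y)))
    have h7 := norm_sub_le (-q) (y * y)
    rw [norm_neg] at h7
    change ‖-q - y * y - (4 : ℕ) • (q * (y + y * y))‖ ≤ 4 * δ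
    nlinarith
  have hcon : ContractingWith (7 / 8 : NNReal) (hmaps.restrict Φ S S) := by
    refine ⟨by rw [← NNReal.coe_lt_coe]; norm_num, LipschitzWith.of_dist_le_mul ?_⟩
    rintro ⟨y, hy1, hy2⟩ ⟨z, hz1, hz2⟩
    change dist (Φ y) (Φ z) ≤ ((7 / 8 : NNReal) : ℝ) * dist y z
    rw [dist_eq_norm, dist_eq_norm]
    have hd := norm_nonneg (y - z)
    have e1 : y * y - z * z = y * (y - z) + (y - z) * z := by noncomm_ring
    have h1 : ‖y * y - z * z‖ ≤ 1 / 2 * ‖y - z‖ := by
      rw [e1]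
      refine (norm_add_le _ _).trans ((add_le_add (norm_mul_le _ _) (norm_mul_le _ _)).trans ?_)
      nlinarith
    have e2 : Φ y - Φ z = -(y * y - z * z) - (4 : ℕ) • (q * ((y - z) + (y * y - z * z))) := by
      simp only [Φ]
      noncomm_ring
    have h2 : ‖(y - z) + (y * y - z * z)‖ ≤ 3 / 2 * ‖y - z‖ :=
      (norm_add_le _ _).trans (by linarith)
    have h3 : ‖q * ((y - z) + (y * y - z * z))‖ ≤ 1 / 16 * (3 / 2 * ‖y - z‖) :=
      (norm_mul_le _ _).trans (mul_le_mul (hδ.trans hδ') h2 (norm_nonneg _) (by norm_num))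
    have h5 := h4 (q * ((y - z) + (y * y - z * z)))
    have h6 := norm_sub_le (-(y * y - z * z)) ((4 : ℕ) • (q * ((y - z) + (y * y - z * z))))
    rw [norm_neg] at h6
    rw [e2]
    push_cast
    linarith
  have h0 : (0 : B) ∈ S := ⟨Commute.zero_right a, by rw [norm_zero]; positivity⟩
  obtain ⟨y, ⟨hy1, hy2⟩, hfix, -⟩ := hcon.exists_fixedPoint' hS.isComplete hmaps h0 (edist_ne_top _ _)
  have hfix' : -q - y * y - (4 : ℕ) • (q * (y + y * y)) = y := hfix
  obtain ⟨b, hb⟩ : ∃ b : B, b = a + a - 1 := ⟨_, rfl⟩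
  have hby : Commute b y := by
    rw [hb]; exact (hy1.add_left hy1).sub_left (Commute.one_left y)
  refine ⟨a + b * y, ?_, ?_⟩
  · have e1 : b * y * a = b * a * y := by rw [mul_assoc, ← hy1.eq, mul_assoc]
    have e2 : b * y * (b * y) = b * b * (y * y) := by
      rw [mul_assoc, ← mul_assoc y, ← hby.eq]
      simp only [mul_assoc]
    have e3 : a * b + b * a - b = b * b := by rw [hb]; noncomm_ring
    have e4 : b * b = 1 + (4 : ℕ) • q := by rw [hb, hq]; noncomm_ring
    have e5 : (a + b * y) * (a + b * y) - (a + b * y) =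
        (a * a - a) + (a * b + b * a - b) * y + b * b * (y * y) := by
      rw [← e2]
      have : (a * b + b * a - b) * y = a * (b * y) + b * y * a - b * y := by
        rw [e1]; noncomm_ring
      rw [this]
      noncomm_ring
    rw [e3, e4, ← hq] at e5
    have e6 : q + (1 + (4 : ℕ) • q) * y + (1 + (4 : ℕ) • q) * (y * y) =
        y - (-q - y * y - (4 : ℕ) • (q * (y + y * y))) := by noncomm_ring
    rw [e6, hfix', sub_self] at e5
    exact sub_eq_zero.1 e5
  · rw [add_sub_cancel_left]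
    refine (norm_mul_le _ _).trans (mul_le_mul ?_ hy2 (norm_nonneg _) (by positivity))
    rw [hb]
    refine (norm_sub_le _ _).trans ?_
    rw [norm_one]
    linarith [norm_add_le a a]

/-- With `D = e - e'`, `S = e + e' - 1`: `D S = - S D` and `D² + S² = 1`.  For odd `k`,
`τ (D^k S²) = τ (S D^k S) = -τ (D^k S²)`, so `τ (D^k) = τ (D^(k+2))`, and `D^k → 0`. -/
theorem trace_eq_of_near [NormedAlgebra ℂ B] {τ : B →L[ℂ] ℂ} (hτ : Tracial τ) {e e' : B}
    (he : e * e = e) (he' : e' * e' = e') (h : ‖e - e'‖ < 1) : τ e = τ e' := by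
  obtain ⟨D, hD⟩ : ∃ D : B, D = e - e' := ⟨_, rfl⟩
  obtain ⟨S, hS⟩ : ∃ S : B, S = e + e' - 1 := ⟨_, rfl⟩
  have h1 : S * D = -(D * S) := by
    have : S * D + D * S = (e * e - e) + (e * e - e) - (e' * e' - e') - (e' * e' - e') := by
      rw [hD, hS]; noncomm_ring
    rw [he, he'] at this
    simp only [sub_self, add_zero] at this
    exact eq_neg_of_add_eq_zero_left this
  have h2 : D * D + S * S = 1 := by
    have : D * D + S * S = 1 + ((e * e - e) + (e * e - e) + (e' * e' - e') + (e' * e' - e')) := by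
      rw [hD, hS]; noncomm_ring
    rw [he, he'] at this
    simpa using this
  have h3 : ∀ j : ℕ, S * D ^ (2 * j + 1) = -(D ^ (2 * j + 1) * S) := by
    intro j
    induction j with
    | zero => simpa using h1
    | succ j ih =>
      have e1 : D ^ (2 * (j + 1) + 1) = D ^ (2 * j + 1) * D * D := by
        rw [← pow_succ, ← pow_succ]; rfl
      rw [e1, ← mul_assoc, ← mul_assoc, ih]
      have e2 : S * D * D = D * D * S := by
        rw [h1, neg_mul, mul_assoc, h1]; noncomm_ring
      calc -(D ^ (2 * j + 1) * S) * D * D = -(D ^ (2 * j + 1) * (S * D * D)) := by noncomm_ring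
        _ = _ := by rw [e2]; noncomm_ring
  have h4 : ∀ j : ℕ, τ (D ^ (2 * j + 1) * (S * S)) = 0 := by
    intro j
    have e1 : τ (D ^ (2 * j + 1) * (S * S)) = τ (S * (D ^ (2 * j + 1) * S)) := by
      rw [← mul_assoc, hτ]
    have e2 : S * (D ^ (2 * j + 1) * S) = -(D ^ (2 * j + 1) * (S * S)) := by
      rw [← mul_assoc, h3, neg_mul, mul_assoc]
    rw [e2, map_neg] at e1
    linear_combination e1 / 2
  have h5 : ∀ j : ℕ, τ (D ^ (2 * j + 1)) = τ D := by
    intro j
    induction j with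
    | zero => simp
    | succ j ih =>
      have e1 : D ^ (2 * (j + 1) + 1) = D ^ (2 * j + 1) * (D * D) := by
        rw [← mul_assoc, ← pow_succ, ← pow_succ]; rfl
      have e2 : D ^ (2 * j + 1) = D ^ (2 * j + 1) * (D * D) + D ^ (2 * j + 1) * (S * S) := by
        rw [← mul_add, h2, mul_one]
      rw [e1, ← ih]
      conv_rhs => rw [e2, map_add, h4, add_zero]
  rw [← hD] at h
  have h6 : Filter.Tendsto (fun j : ℕ => τ (D ^ (2 * j + 1))) Filter.atTop (𝓝 (τ 0)) := by
    refine (τ.continuous.tendsto 0).comp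
      ((tendsto_pow_atTop_nhds_zero_of_norm_lt_one h).comp ?_)
    exact Filter.tendsto_atTop_mono (fun j => by simp only [id]; omega) Filter.tendsto_id
  simp only [h5, map_zero] at h6
  have h7 : τ D = 0 := tendsto_nhds_unique tendsto_const_nhds h6
  rw [hD, map_sub] at h7
  exact sub_eq_zero.1 h7

end Crest.Agent.R192
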