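import Crest.Agent.R192.Tim

/-! Row 192: the pairing of loop functionals with an idempotent. -/

set_option autoImplicit false
set_option linter.unusedSectionVars false
set_option linter.unusedVariables false

open scoped ContDiff Matrix Topology
open MeasureTheory

noncomputable section

namespace Crest.Agent.R192

variable {G : Type} [Group G] {A : Type} [NormedRing A] [NormedAlgebra ℂ A] [CompleteSpace A]
  {τ : A →L[ℂ] ℂ} {e : G → A} {C : Set G} {W : G → ℝ} {p : ℕ}

/-- induction on `n` with `Fin.consEquiv` / `Fin.insertNthEquiv` and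
`Summable.mul_of_nonneg`, `Summable.tsum_mul_tsum` -/
theorem summable_pi_prod {f : G → ℝ} (h0 : ∀ x, 0 ≤ f x) (hf : Summable f) (n : ℕ) :
    (Summable fun h : Fin n → G => ∏ l, f (h l)) ∧
      ∑' h : Fin n → G, ∏ l, f (h l) = (∑' x, f x) ^ n := by
  induction n with
  | zero => exact ⟨Summable.of_finite, by simp⟩
  | succ n ih =>
    have hm : Summable fun q : G × (Fin n → G) => f q.1 * ∏ l, f (q.2 l) :=
      Summable.mul_of_nonneg hf ih.1 (fun x => h0 x)
        fun h => Finset.prod_nonneg fun l _ => h0 _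
    have he : ∀ q : G × (Fin n → G), ∏ l, f (Fin.consEquiv (fun _ : Fin (n + 1) => G) q l) =
        f q.1 * ∏ l, f (q.2 l) := by
      intro q
      rw [Fin.prod_univ_succ]
      rfl
    constructor
    · rw [← (Fin.consEquiv fun _ : Fin (n + 1) => G).summable_iff]
      exact hm.congr fun q => (he q).symm
    · rw [← (Fin.consEquiv fun _ : Fin (n + 1) => G).tsum_eq, tsum_congr he,
        ← hf.tsum_mul_tsum ih.1 hm, ih.2, pow_succ']

theorem norm_ofFn_prod_le (a : Fin (p + 1) → A) : ‖(List.ofFn a).prod‖ ≤ ∏ l, ‖a l‖ := by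
  have h := List.norm_prod_le' (l := List.ofFn a) (by simp)
  rwa [List.map_ofFn, List.prod_ofFn] at h

theorem pair0_term_le {c : ℝ} {φ : Loop G p → ℝ} (h : Fin (p + 1) → G)
    (hc : 0 ≤ c * ∏ l, W (h l))
    (hφ : ∀ L : Loop G p, L.g ∈ C → |φ L| ≤ c * ∏ l, W (L.jump l)) :
    ‖τ (List.ofFn fun l => e (h l)).prod *
      (C.indicator (fun _ => φ (loopOf h)) (List.ofFn h).prod : ℝ)‖ ≤
      ‖τ‖ * c * ∏ l, (‖e (h l)‖ * W (h l)) := by
  have h1 : ‖τ (List.ofFn fun l => e (h l)).prod‖ ≤ ‖τ‖ * ∏ l, ‖e (h l)‖ :=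
    (τ.le_opNorm _).trans (mul_le_mul_of_nonneg_left (norm_ofFn_prod_le _) (norm_nonneg _))
  have h2 : |C.indicator (fun _ => φ (loopOf h)) (List.ofFn h).prod| ≤ c * ∏ l, W (h l) := by
    by_cases hm : (List.ofFn h).prod ∈ C
    · rw [Set.indicator_of_mem hm]
      have := hφ (loopOf h) hm
      rwa [jump_loopOf] at this
    · rw [Set.indicator_of_notMem hm, abs_zero]
      exact hc
  rw [norm_mul, Complex.norm_real, Real.norm_eq_abs, Finset.prod_mul_distrib]
  calc _ ≤ (‖τ‖ * ∏ l, ‖e (h l)‖) * (c * ∏ l, W (h l)) :=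
        mul_le_mul h1 h2 (abs_nonneg _) ((norm_nonneg _).trans h1)
    _ = _ := by ring

theorem pair_summable (h0 : ∀ x, 0 ≤ W x) (hs : Summable fun x => ‖e x‖ * W x)
    {φ : Loop G p → ℝ} (hφ : WB W φ) :
    Summable fun h : Fin (p + 1) → G => τ (List.ofFn fun l => e (h l)).prod *
      (C.indicator (fun _ => φ (loopOf h)) (List.ofFn h).prod : ℝ) := by
  obtain ⟨c, hc⟩ := hφ
  have hsum := (summable_pi_prod (f := fun x => ‖e x‖ * W x)
    (fun x => mul_nonneg (norm_nonneg _) (h0 x)) hs (p + 1)).1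
  refine Summable.of_norm_bounded (hsum.mul_left (‖τ‖ * c)) fun h => ?_
  refine pair0_term_le h ?_ fun L _ => hc L
  have := (abs_nonneg _).trans (hc (loopOf h))
  rwa [jump_loopOf] at this

theorem norm_pair_le (h0 : ∀ x, 0 ≤ W x) (hs : Summable fun x => ‖e x‖ * W x) {M c : ℝ}
    (hM : ∑' x, ‖e x‖ * W x ≤ M) (hc : 0 ≤ c) {φ : Loop G p → ℝ}
    (hφ : ∀ L : Loop G p, L.g ∈ C → |φ L| ≤ c * ∏ l, W (L.jump l)) :
    ‖pair τ e C φ‖ ≤ ‖τ‖ * c * M ^ (p + 1) := by
  obtain ⟨hsum, hval⟩ := summable_pi_prod (f := fun x => ‖e x‖ * W x)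
    (fun x => mul_nonneg (norm_nonneg _) (h0 x)) hs (p + 1)
  have hb := tsum_of_norm_bounded (hsum.mul_left (‖τ‖ * c)).hasSum fun h =>
    pair0_term_le (τ := τ) (e := e) (C := C) (φ := φ) h
      (mul_nonneg hc (Finset.prod_nonneg fun l _ => h0 _)) hφ
  refine hb.trans ?_
  rw [tsum_mul_left, hval]
  exact mul_le_mul_of_nonneg_left
    (pow_le_pow_left₀ (tsum_nonneg fun x => mul_nonneg (norm_nonneg _) (h0 x)) hM _)
    (mul_nonneg (norm_nonneg _) hc)

theorem WB.add {φ ψ : Loop G p → ℝ} (hφ : WB W φ) (hψ : WB W ψ) :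
    WB W fun L => φ L + ψ L := by
  obtain ⟨c, hc⟩ := hφ
  obtain ⟨d, hd⟩ := hψ
  refine ⟨c + d, fun L => (abs_add_le _ _).trans ?_⟩
  rw [add_mul]
  exact add_le_add (hc L) (hd L)

theorem WB.const_mul {φ : Loop G p → ℝ} (hφ : WB W φ) (t : ℝ) : WB W fun L => t * φ L := by
  obtain ⟨c, hc⟩ := hφ
  refine ⟨|t| * c, fun L => ?_⟩
  rw [abs_mul, mul_assoc]
  exact mul_le_mul_of_nonneg_left (hc L) (abs_nonneg _)

theorem WB.rot {φ : Loop G p → ℝ} (hφ : WB W φ) : WB W fun L : Loop G p => φ L.rot := by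
  obtain ⟨c, hc⟩ := hφ
  refine ⟨c, fun L => ?_⟩
  rw [← prod_jump_rot]
  exact hc _

theorem WB.face (h0 : ∀ x, 0 ≤ W x) (hW : ∀ x y, W (x * y) ≤ W x * W y) {φ : Loop G p → ℝ}
    (hφ : WB W φ) (i : Fin (p + 2)) : WB W fun L : Loop G (p + 1) => φ (L.face i) := by
  obtain ⟨c, hc⟩ := hφ
  refine ⟨|c|, fun L => (hc _).trans ?_⟩
  calc c * ∏ l, W ((L.face i).jump l) ≤ |c| * ∏ l, W ((L.face i).jump l) :=
        mul_le_mul_of_nonneg_right (le_abs_self c) (Finset.prod_nonneg fun l _ => h0 _)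
    _ ≤ _ := mul_le_mul_of_nonneg_left (prod_jump_face_le h0 hW i L) (abs_nonneg c)

theorem pair_add (h0 : ∀ x, 0 ≤ W x) (hs : Summable fun x => ‖e x‖ * W x) {φ ψ : Loop G p → ℝ}
    (hφ : WB W φ) (hψ : WB W ψ) :
    pair τ e C (fun L => φ L + ψ L) = pair τ e C φ + pair τ e C ψ := by
  unfold pair
  rw [← (pair_summable h0 hs hφ).tsum_add (pair_summable h0 hs hψ)]
  refine tsum_congr fun h => ?_
  by_cases hm : (List.ofFn h).prod ∈ C
  · simp only [Set.indicator_of_mem hm, Complex.ofReal_add, mul_add]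
  · simp only [Set.indicator_of_notMem hm, Complex.ofReal_zero, mul_zero, add_zero]

theorem pair_const_mul (t : ℝ) (φ : Loop G p → ℝ) :
    pair τ e C (fun L => t * φ L) = t * pair τ e C φ := by
  unfold pair
  rw [← tsum_mul_left]
  refine tsum_congr fun h => ?_
  by_cases hm : (List.ofFn h).prod ∈ C
  · simp only [Set.indicator_of_mem hm, Complex.ofReal_mul]
    ring
  · simp only [Set.indicator_of_notMem hm, Complex.ofReal_zero, mul_zero]

theorem pair0_WB_zero : WB W fun _ : Loop G p => (0 : ℝ) := ⟨0, fun L => by simp⟩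

theorem pair0_WB_sum {ι : Type} (s : Finset ι) {φ : ι → Loop G p → ℝ}
    (hφ : ∀ i ∈ s, WB W (φ i)) : WB W fun L => ∑ i ∈ s, φ i L := by
  classical
  induction s using Finset.induction_on with
  | empty => simpa using pair0_WB_zero
  | insert a s ha ih =>
    simp only [Finset.sum_insert ha]
    exact (hφ a (Finset.mem_insert_self _ _)).add
      (ih fun i hi => hφ i (Finset.mem_insert_of_mem hi))

theorem pair_sum (h0 : ∀ x, 0 ≤ W x) (hs : Summable fun x => ‖e x‖ * W x) {ι : Type}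
    (s : Finset ι) {φ : ι → Loop G p → ℝ} (hφ : ∀ i ∈ s, WB W (φ i)) :
    pair τ e C (fun L => ∑ i ∈ s, φ i L) = ∑ i ∈ s, pair τ e C (φ i) := by
  classical
  induction s using Finset.induction_on with
  | empty => simp [pair]
  | insert a s ha ih =>
    simp only [Finset.sum_insert ha]
    rw [pair_add h0 hs (hφ a (Finset.mem_insert_self _ _))
      (pair0_WB_sum s fun i hi => hφ i (Finset.mem_insert_of_mem hi)),
      ih fun i hi => hφ i (Finset.mem_insert_of_mem hi)]

theorem pair_zero_one : pair τ e C (p := 0) (fun _ => 1) = ctr τ e C := by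
  unfold pair ctr
  rw [← (Equiv.funUnique (Fin 1) G).symm.tsum_eq]
  refine tsum_congr fun x => ?_
  by_cases hm : x ∈ C
  · simp [Set.indicator_of_mem hm]
  · simp [Set.indicator_of_notMem hm]

end Crest.Agent.R192
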