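import Crest.Agent.R192.Defs

/-! Row 192: integrals depending smoothly on parameters (copied from row 240). -/

set_option autoImplicit false
set_option linter.unusedSectionVars false

open scoped ContDiff Topology
open MeasureTheory Set Filter

noncomputable section

namespace Crest.Agent.R192

section
variable {P α E F : Type} [NormedAddCommGroup P] [NormedSpace ℝ P] [FiniteDimensional ℝ P]
  [NormedAddCommGroup α] [NormedSpace ℝ α] [FiniteDimensional ℝ α] [MeasurableSpace α]
  [BorelSpace α] [NormedAddCommGroup E] [NormedSpace ℝ E] [NormedAddCommGroup F] [NormedSpace ℝ F]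
  [CompleteSpace F]

omit [CompleteSpace F] in
theorem param_aesm (μ : Measure α) {u : α → E}
    (hu : Integrable u μ) {κ : α → E →L[ℝ] F}
    (hκ : Continuous κ) : AEStronglyMeasurable (fun x => κ x (u x)) μ := by
  have : ProperSpace α := FiniteDimensional.proper_real α
  have h1 : AEStronglyMeasurable κ μ := hκ.aestronglyMeasurable
  exact (ContinuousLinearMap.id ℝ (E →L[ℝ] F)).aestronglyMeasurable_comp₂ h1
    hu.aestronglyMeasurable

omit [CompleteSpace F] in
theorem param_integrable (μ : Measure α) {K : Set α} (hK : IsCompact K) {u : α → E}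
    (hu : Integrable u μ) (huK : ∀ᵐ x ∂μ, x ∉ K → u x = 0) {κ : α → E →L[ℝ] F}
    (hκ : Continuous κ) : Integrable (fun x => κ x (u x)) μ := by
  obtain ⟨C, hC⟩ := hK.exists_bound_of_continuousOn hκ.continuousOn
  refine Integrable.mono' (hu.norm.const_mul C) (param_aesm μ hu hκ) ?_
  filter_upwards [huK] with x hx
  by_cases hxK : x ∈ K
  · exact ((κ x).le_opNorm _).trans (mul_le_mul_of_nonneg_right (hC x hxK) (norm_nonneg _))
  · simp [hx hxK]

/-- derivative under the integral sign -/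
theorem hasFDerivAt_param_integral (μ : Measure α) {K : Set α} (hK : IsCompact K) {u : α → E}
    (hu : Integrable u μ) (huK : ∀ᵐ x ∂μ, x ∉ K → u x = 0) {κ : P × α → E →L[ℝ] F}
    (hκ : ContDiff ℝ ∞ κ) (p : P) :
    DifferentiableAt ℝ (fun q => ∫ x, κ (q, x) (u x) ∂μ) p ∧
      ∀ v, fderiv ℝ (fun q => ∫ x, κ (q, x) (u x) ∂μ) p v
        = ∫ x, fderiv ℝ κ (p, x) (v, 0) (u x) ∂μ := by
  have : ProperSpace P := FiniteDimensional.proper_real P
  have hd : Differentiable ℝ κ := hκ.differentiable (by simp)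
  have hc : Continuous (fderiv ℝ κ) := hκ.continuous_fderiv (by simp)
  set κ' : P × α → E →L[ℝ] (P →L[ℝ] F) := fun z =>
    ((fderiv ℝ κ z).comp (ContinuousLinearMap.inl ℝ P α)).flip with hκ'
  have hc' : Continuous κ' := by
    have h1 : Continuous fun z : P × α => (fderiv ℝ κ z).comp (ContinuousLinearMap.inl ℝ P α) :=
      hc.clm_comp continuous_const
    exact (ContinuousLinearMap.flipₗᵢ ℝ P E F).continuous.comp h1
  obtain ⟨C, hC⟩ := ((isCompact_closedBall p 1).prod hK).exists_bound_of_continuousOn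
    (E := E →L[ℝ] (P →L[ℝ] F)) (f := κ') hc'.continuousOn
  have hint : Integrable (fun x => κ' (p, x) (u x)) μ :=
    param_integrable μ hK hu huK (κ := fun x => κ' (p, x)) (hc'.comp (by fun_prop))
  have key : HasFDerivAt (fun q => ∫ x, κ (q, x) (u x) ∂μ) (∫ x, κ' (p, x) (u x) ∂μ) p := by
    refine hasFDerivAt_integral_of_dominated_of_fderiv_le (F := fun q x => κ (q, x) (u x))
      (F' := fun q x => κ' (q, x) (u x)) (bound := fun x => C * ‖u x‖)
      (Metric.closedBall_mem_nhds p one_pos) ?_ ?_ hint.aestronglyMeasurable ?_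
      (hu.norm.const_mul C) ?_
    · exact Eventually.of_forall fun q =>
        param_aesm μ hu (κ := fun x => κ (q, x)) (hκ.continuous.comp (by fun_prop))
    · exact param_integrable μ hK hu huK (κ := fun x => κ (p, x))
        (hκ.continuous.comp (by fun_prop))
    · filter_upwards [huK] with x hx q hq
      by_cases hxK : x ∈ K
      · exact ((κ' (q, x)).le_opNorm _).trans
          (mul_le_mul_of_nonneg_right (hC (q, x) ⟨hq, hxK⟩) (norm_nonneg _))
      · simp [hx hxK]
    · refine Eventually.of_forall fun x q _ => ?_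
      have h1 : HasFDerivAt (fun q : P => κ (q, x))
          ((fderiv ℝ κ (q, x)).comp (ContinuousLinearMap.inl ℝ P α)) q :=
        (hd (q, x)).hasFDerivAt.comp q (hasFDerivAt_prodMk_left q x)
      have h2 := (ContinuousLinearMap.apply ℝ F (u x)).hasFDerivAt.comp q h1
      refine h2.congr_fderiv ?_
      ext v
      simp [hκ']
  refine ⟨key.differentiableAt, fun v => ?_⟩
  rw [key.fderiv, ContinuousLinearMap.integral_apply hint]
  simp [hκ']

theorem integrable_param (μ : Measure α) {K : Set α} (hK : IsCompact K) {u : α → E}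
    (hu : Integrable u μ) (huK : ∀ᵐ x ∂μ, x ∉ K → u x = 0) {κ : α → E →L[ℝ] F}
    (hκ : Continuous κ) : Integrable (fun x => κ x (u x)) μ :=
  param_integrable μ hK hu huK hκ

theorem param_contDiff_nat (μ : Measure α) {K : Set α} (hK : IsCompact K) {u : α → E}
    (hu : Integrable u μ) (huK : ∀ᵐ x ∂μ, x ∉ K → u x = 0) (n : ℕ) :
    ∀ {κ : P × α → E →L[ℝ] F}, ContDiff ℝ ∞ κ →
      ContDiff ℝ n fun q => ∫ x, κ (q, x) (u x) ∂μ := by
  induction n with
  | zero =>
    intro κ hκ
    have : Differentiable ℝ fun q => ∫ x, κ (q, x) (u x) ∂μ := fun p =>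
      (hasFDerivAt_param_integral μ hK hu huK hκ p).1
    simpa using this.continuous
  | succ n ih =>
    intro κ hκ
    rw [Nat.cast_succ, contDiff_succ_iff_fderiv_apply]
    refine ⟨fun p => (hasFDerivAt_param_integral μ hK hu huK hκ p).1, by simp, fun v => ?_⟩
    have h1 : ContDiff ℝ ∞ fun z : P × α => fderiv ℝ κ z (v, 0) :=
      (hκ.fderiv_right (m := ∞) (by simp)).clm_apply contDiff_const
    have h2 := ih h1
    have h3 : (fun p => fderiv ℝ (fun q => ∫ x, κ (q, x) (u x) ∂μ) p v)
        = fun q => ∫ x, fderiv ℝ κ (q, x) (v, 0) (u x) ∂μ :=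
      funext fun p => (hasFDerivAt_param_integral μ hK hu huK hκ p).2 v
    rw [h3]
    exact h2

/-- smoothness of parameter integrals -/
theorem contDiff_param_integral (μ : Measure α) {K : Set α} (hK : IsCompact K) {u : α → E}
    (hu : Integrable u μ) (huK : ∀ᵐ x ∂μ, x ∉ K → u x = 0) {κ : P × α → E →L[ℝ] F}
    (hκ : ContDiff ℝ ∞ κ) : ContDiff ℝ ∞ fun q => ∫ x, κ (q, x) (u x) ∂μ :=
  contDiff_infty.2 fun n => param_contDiff_nat μ hK hu huK n hκ

theorem param_scalar (μ : Measure α) {K : Set α} (hK : IsCompact K)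
    {f : α → ℝ} (hf : Integrable f μ) (hfK : ∀ᵐ x ∂μ, x ∉ K → f x = 0)
    {Φ : P × α → F} (hΦ : ContDiff ℝ ∞ Φ) :
    ContDiff ℝ ∞ (fun q => ∫ x, f x • Φ (q, x) ∂μ) ∧
      ∀ p v, fderiv ℝ (fun q => ∫ x, f x • Φ (q, x) ∂μ) p v
        = ∫ x, f x • fderiv ℝ Φ (p, x) (v, 0) ∂μ := by
  set T : F →L[ℝ] ℝ →L[ℝ] F := (ContinuousLinearMap.lsmul ℝ ℝ : ℝ →L[ℝ] F →L[ℝ] F).flip with hT
  have hTa : ∀ (y : F) (c : ℝ), T y c = c • y := fun y c => by simp [hT]
  have hκ : ContDiff ℝ ∞ fun z => T (Φ z) := T.contDiff.comp hΦ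
  have h1 := contDiff_param_integral μ hK hf hfK hκ
  have h2 := fun p => (hasFDerivAt_param_integral μ hK hf hfK hκ p).2
  simp only [hTa] at h1 h2
  refine ⟨h1, fun p v => ?_⟩
  rw [h2 p v]
  refine integral_congr_ae (Eventually.of_forall fun x => ?_)
  have h3 : HasFDerivAt (fun z => T (Φ z)) (T.comp (fderiv ℝ Φ (p, x))) (p, x) :=
    T.hasFDerivAt.comp (p, x) (hΦ.differentiable (by simp) (p, x)).hasFDerivAt
  simp only [h3.fderiv, ContinuousLinearMap.comp_apply, hTa]

end

end Crest.Agent.R192
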