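import Crest.Agent.R192.Lin
import Crest.Agent.R192.Tim
import Crest.Agent.R192.Ker1

/-! Row 192: sums and patching of generating functions. -/

set_option autoImplicit false
set_option linter.unusedSectionVars false
set_option linter.unusedVariables false

open scoped ContDiff Matrix Topology
open MeasureTheory

noncomputable section

namespace Crest.Agent.R192

section One
variable {p : ℕ} {Λ Λ' : Tm p × Tm p → ℝ}

theorem pat0_diff (h : ContDiff ℝ ∞ Λ) : Differentiable ℝ Λ := h.differentiable (by simp)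

theorem pat0_cd (h : ContDiff ℝ ∞ Λ) : ContDiff ℝ ∞ (fderiv ℝ Λ) :=
  h.fderiv_right (m := ∞) (by simp)

theorem pat0_part (h : ContDiff ℝ ∞ Λ) (a b : Tm p) :
    fderiv ℝ (fun ζ => Λ (a, ζ)) b =
      (fderiv ℝ Λ (a, b)).comp (ContinuousLinearMap.inr ℝ (Tm p) (Tm p)) :=
  ((pat0_diff h (a, b)).hasFDerivAt.comp b (hasFDerivAt_prodMk_right a b)).fderiv

theorem pat0_part_apply (h : ContDiff ℝ ∞ Λ) (a b c : Tm p) :
    fderiv ℝ (fun ζ => Λ (a, ζ)) b c = fderiv ℝ Λ (a, b) (0, c) := by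
  rw [pat0_part h]; rfl

theorem pat0_cov_apply (h : ContDiff ℝ ∞ Λ) (ξ c : Tm p) :
    cov Λ ξ c = fderiv ℝ Λ (ξ, ξ) (0, c) := pat0_part_apply h ξ ξ c

theorem pat0_D {E : Type} [NormedAddCommGroup E] [NormedSpace ℝ E] (h : ContDiff ℝ ∞ Λ)
    {φ : E → Tm p × Tm p} {L : E →L[ℝ] Tm p × Tm p} {x : E} (hφ : HasFDerivAt φ L x)
    (v : Tm p × Tm p) (c : E) :
    fderiv ℝ (fun y => fderiv ℝ Λ (φ y) v) x c = fderiv ℝ (fderiv ℝ Λ) (φ x) (L c) v := by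
  have h1 := (((pat0_cd h).differentiable (by simp)) (φ x)).hasFDerivAt.comp x hφ
  have h2 := (ContinuousLinearMap.apply ℝ ℝ v).hasFDerivAt.comp x h1
  exact congrArg (fun T : E →L[ℝ] ℝ => T c) h2.fderiv

theorem pat0_symm (h : ContDiff ℝ ∞ Λ) (w u v : Tm p × Tm p) :
    fderiv ℝ (fderiv ℝ Λ) w u v = fderiv ℝ (fderiv ℝ Λ) w v u :=
  (h.contDiffAt (x := w)).isSymmSndFDerivAt
    (by rw [minSmoothness_of_isRCLikeNormedField]; exact WithTop.coe_le_coe.2 (le_top : (2 : ℕ∞) ≤ ⊤)) u v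

theorem pat0_diag (ξ : Tm p) : HasFDerivAt (fun x : Tm p => (x, x))
    ((ContinuousLinearMap.id ℝ (Tm p)).prod (ContinuousLinearMap.id ℝ (Tm p))) ξ :=
  (hasFDerivAt_id ξ).prodMk (hasFDerivAt_id ξ)

theorem pat0_split (T : (Tm p × Tm p) →L[ℝ] (Tm p × Tm p) →L[ℝ] ℝ) (c : Tm p) (v : Tm p × Tm p) :
    T (c, c) v = T (c, 0) v + T (0, c) v := by
  rw [← ContinuousLinearMap.add_apply, ← map_add]; simp

theorem contDiff_cov (h : ContDiff ℝ ∞ Λ) : ContDiff ℝ ∞ (cov Λ) := by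
  have : cov Λ = fun ξ => (fderiv ℝ Λ (ξ, ξ)).comp (ContinuousLinearMap.inr ℝ (Tm p) (Tm p)) :=
    funext fun ξ => pat0_part h ξ ξ
  rw [this]
  exact ((pat0_cd h).comp (contDiff_id.prodMk contDiff_id)).clm_comp contDiff_const

theorem contDiff_en (h : ContDiff ℝ ∞ Λ) : ContDiff ℝ ∞ (en Λ) := by
  exact (contDiff_cov h).clm_apply contDiff_const

/-- in terms of `D = fderiv ℝ (fderiv ℝ Λ) (ξ, ξ)`: `mixF Λ ξ c c' = D (c, 0) (0, c')` -/
theorem mixF_eq (h : ContDiff ℝ ∞ Λ) (ξ c c' : Tm p) :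
    mixF Λ ξ c c' = fderiv ℝ (fderiv ℝ Λ) (ξ, ξ) (c, 0) (0, c') := by
  unfold mixF
  simp_rw [pat0_part_apply h]
  exact pat0_D h (hasFDerivAt_prodMk_left ξ ξ) (0, c') c

theorem pat0_fderiv_cov' (h : ContDiff ℝ ∞ Λ) (ξ c c' : Tm p) :
    fderiv ℝ (fun x => cov Λ x c') ξ c =
      mixF Λ ξ c c' + fderiv ℝ (fderiv ℝ Λ) (ξ, ξ) (0, c) (0, c') := by
  simp_rw [pat0_cov_apply h]
  rw [pat0_D h (pat0_diag ξ), mixF_eq h]
  exact pat0_split _ c _

theorem pat0_fderiv_cov (h : ContDiff ℝ ∞ Λ) (ξ c c' : Tm p) :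
    fderiv ℝ (cov Λ) ξ c c' =
      mixF Λ ξ c c' + fderiv ℝ (fderiv ℝ Λ) (ξ, ξ) (0, c) (0, c') := by
  rw [← pat0_fderiv_cov' h]
  have h1 := ((contDiff_cov h).differentiable (by simp) ξ).hasFDerivAt
  have h2 := (ContinuousLinearMap.apply ℝ ℝ c').hasFDerivAt.comp ξ h1
  exact (congrArg (fun T : Tm p →L[ℝ] ℝ => T c) h2.fderiv).symm

/-- the derivative of `cov Λ` is `D (c, c) (0, c') = D (c, 0) (0, c') + D (0, c) (0, c')` and the
last term is symmetric (`ContDiffAt.isSymmSndFDerivAt`) -/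
theorem fderiv_cov_antisymm (h : ContDiff ℝ ∞ Λ) (ξ c c' : Tm p) :
    fderiv ℝ (cov Λ) ξ c c' - fderiv ℝ (cov Λ) ξ c' c = mixF Λ ξ c c' - mixF Λ ξ c' c := by
  rw [pat0_fderiv_cov h, pat0_fderiv_cov h, pat0_symm h _ (0, c) (0, c')]
  ring

/-- shift invariance gives `fderiv Λ w (1, 1) = 0` for all `w`, hence
`D (0, c) (0, 1) = - D (0, c) (1, 0) = - D (1, 0) (0, c)` -/
theorem fderiv_en (h : ContDiff ℝ ∞ Λ)
    (hs : ∀ (ξ ζ : Tm p) (t : ℝ), Λ (fun l => ξ l + t, fun l => ζ l + t) = Λ (ξ, ζ))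
    (ξ c : Tm p) :
    fderiv ℝ (en Λ) ξ c = mixF Λ ξ c (fun _ => 1) - mixF Λ ξ (fun _ => 1) c := by
  have h1 : ∀ w : Tm p × Tm p, fderiv ℝ Λ w (fun _ => 1, fun _ => 1) = 0 := by
    intro w
    have a1 : HasDerivAt (fun t : ℝ => w + t • ((fun _ => 1, fun _ => 1) : Tm p × Tm p))
        ((fun _ => 1, fun _ => 1) : Tm p × Tm p) 0 := by
      simpa using ((hasDerivAt_id (0 : ℝ)).smul_const
        ((fun _ => 1, fun _ => 1) : Tm p × Tm p)).const_add w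
    have a2 := (pat0_diff h _).hasFDerivAt.comp_hasDerivAt (0 : ℝ) a1
    have a3 : (Λ ∘ fun t : ℝ => w + t • ((fun _ => 1, fun _ => 1) : Tm p × Tm p)) =
        fun _ => Λ w := by
      funext t
      rw [← hs w.1 w.2 t, Function.comp_apply]
      congr 1
      ext l <;> simp
    rw [a3] at a2
    simpa using a2.unique (hasDerivAt_const (0 : ℝ) (Λ w))
  have h2 : fderiv ℝ (fderiv ℝ Λ) (ξ, ξ) (0, c) (fun _ => 1, fun _ => 1) = 0 := by
    have := pat0_D h (hasFDerivAt_id (ξ, ξ)) (fun _ => 1, fun _ => 1) (0, c)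
    simp only [id, h1, ContinuousLinearMap.id_apply] at this
    rw [← this]; simp
  have h3 := pat0_fderiv_cov' h ξ c (fun _ => 1)
  rw [pat0_symm h, pat0_split, ← mixF_eq h, pat0_symm h] at h2
  change fderiv ℝ (fun x => cov Λ x fun _ => 1) ξ c = _
  linarith

/-- the normalised gradient of the energy is `M r - Mᵀ r` with `M = mix Λ r ξ` -/
theorem nrm_fderiv_en_le (h : ContDiff ℝ ∞ Λ)
    (hs : ∀ (ξ ζ : Tm p) (t : ℝ), Λ (fun l => ξ l + t, fun l => ζ l + t) = Λ (ξ, ζ))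
    {r ξ : Tm p} (hr : ∀ l, 0 < r l) {B : ℝ} (hB : NucLe (mix Λ r ξ) B) :
    nrm (fun i => fderiv ℝ (en Λ) ξ (Pi.single i 1) / r i) ≤ 2 * B * nrm r := by
  have hone : (fun _ => 1 : Tm p) = ∑ l, Pi.single l 1 := by
    funext j; simp [Finset.sum_apply, Pi.single_apply]
  have hl : ∀ c : Tm p, mixF Λ ξ c (fun _ => 1) = ∑ l, mixF Λ ξ c (Pi.single l 1) := by
    intro c
    simp_rw [mixF_eq h]
    rw [← map_sum, hone]
    congr 1
    ext j <;> simp [Prod.fst_sum, Prod.snd_sum]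
  have hr' : ∀ c : Tm p, mixF Λ ξ (fun _ => 1) c = ∑ l, mixF Λ ξ (Pi.single l 1) c := by
    intro c
    simp_rw [mixF_eq h]
    rw [← ContinuousLinearMap.sum_apply, ← map_sum, hone]
    congr 2
    ext j <;> simp [Prod.fst_sum, Prod.snd_sum]
  have key : (fun i => fderiv ℝ (en Λ) ξ (Pi.single i 1) / r i) =
      mix Λ r ξ *ᵥ r + -((mix Λ r ξ)ᵀ *ᵥ r) := by
    funext i
    rw [fderiv_en h hs, hl, hr']
    simp only [Pi.add_apply, Pi.neg_apply, Matrix.mulVec, dotProduct, mix, Matrix.transpose_apply,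
      Matrix.of_apply, sub_div, Finset.sum_div, ← sub_eq_add_neg]
    congr 1
    · refine Finset.sum_congr rfl fun l _ => ?_
      have := (hr l).ne'
      have := (hr i).ne'
      field_simp
    · refine Finset.sum_congr rfl fun l _ => ?_
      have := (hr l).ne'
      have := (hr i).ne'
      field_simp
  rw [key]
  have a1 := hB.nrm_mulVec_le r
  have a2 := hB.transpose.nrm_mulVec_le r
  have a3 := nrm_add_le (mix Λ r ξ *ᵥ r) (-((mix Λ r ξ)ᵀ *ᵥ r))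
  rw [nrm_neg] at a3
  linarith

theorem pat0_fderiv_add (h : ContDiff ℝ ∞ Λ) (h' : ContDiff ℝ ∞ Λ') :
    fderiv ℝ (Λ + Λ') = fderiv ℝ Λ + fderiv ℝ Λ' :=
  funext fun w => fderiv_add (pat0_diff h w) (pat0_diff h' w)

theorem pat0_fderiv_smul (h : ContDiff ℝ ∞ Λ) (t : ℝ) : fderiv ℝ (t • Λ) = t • fderiv ℝ Λ :=
  funext fun w => fderiv_const_smul (pat0_diff h w) t

theorem pat0_cov_add (h : ContDiff ℝ ∞ Λ) (h' : ContDiff ℝ ∞ Λ') (ξ c : Tm p) :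
    cov (Λ + Λ') ξ c = cov Λ ξ c + cov Λ' ξ c := by
  rw [pat0_cov_apply (Λ := Λ + Λ') (h.add h'), pat0_cov_apply h, pat0_cov_apply h',
    pat0_fderiv_add h h']
  rfl

theorem pat0_cov_smul (h : ContDiff ℝ ∞ Λ) (t : ℝ) (ξ c : Tm p) :
    cov (t • Λ) ξ c = t * cov Λ ξ c := by
  rw [pat0_cov_apply (Λ := t • Λ) (h.const_smul t), pat0_cov_apply h, pat0_fderiv_smul h]
  rfl

theorem pat0_cov_zero (ξ c : Tm p) : cov (0 : Tm p × Tm p → ℝ) ξ c = 0 := by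
  simp [cov]

theorem en_add (h : ContDiff ℝ ∞ Λ) (h' : ContDiff ℝ ∞ Λ') (ξ : Tm p) :
    en (Λ + Λ') ξ = en Λ ξ + en Λ' ξ := by
  exact pat0_cov_add h h' ξ _

theorem mix_add (h : ContDiff ℝ ∞ Λ) (h' : ContDiff ℝ ∞ Λ') (r ξ : Tm p) :
    mix (Λ + Λ') r ξ = mix Λ r ξ + mix Λ' r ξ := by
  ext i l
  simp only [mix, Matrix.of_apply, Matrix.add_apply]
  rw [mixF_eq (Λ := Λ + Λ') (h.add h'), mixF_eq h, mixF_eq h', pat0_fderiv_add h h',
    fderiv_add ((pat0_cd h).differentiable (by simp) _) ((pat0_cd h').differentiable (by simp) _),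
    ← add_div]
  rfl

theorem covv_add (h : ContDiff ℝ ∞ Λ) (h' : ContDiff ℝ ∞ Λ') (r ξ : Tm p) :
    covv (Λ + Λ') r ξ = covv Λ r ξ + covv Λ' r ξ := by
  funext l
  simp only [covv, Pi.add_apply, pat0_cov_add h h', add_div]

theorem en_smul (h : ContDiff ℝ ∞ Λ) (t : ℝ) (ξ : Tm p) : en (t • Λ) ξ = t * en Λ ξ := by
  exact pat0_cov_smul h t ξ _

theorem mix_smul (h : ContDiff ℝ ∞ Λ) (t : ℝ) (r ξ : Tm p) :
    mix (t • Λ) r ξ = t • mix Λ r ξ := by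
  ext i l
  simp only [mix, Matrix.of_apply, Matrix.smul_apply, smul_eq_mul]
  rw [mixF_eq (Λ := t • Λ) (h.const_smul t), mixF_eq h, pat0_fderiv_smul h,
    fderiv_const_smul ((pat0_cd h).differentiable (by simp) _), ← mul_div_assoc]
  rfl

theorem covv_smul (h : ContDiff ℝ ∞ Λ) (t : ℝ) (r ξ : Tm p) :
    covv (t • Λ) r ξ = t • covv Λ r ξ := by
  funext l
  simp only [covv, Pi.smul_apply, pat0_cov_smul h, smul_eq_mul, mul_div_assoc]

theorem en_zero (ξ : Tm p) : en (0 : Tm p × Tm p → ℝ) ξ = 0 := by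
  exact pat0_cov_zero ξ _

theorem mix_zero (r ξ : Tm p) : mix (0 : Tm p × Tm p → ℝ) r ξ = 0 := by
  ext i l
  simp [mix, mixF]

theorem covv_zero (r ξ : Tm p) : covv (0 : Tm p × Tm p → ℝ) r ξ = 0 := by
  funext l
  simp [covv, pat0_cov_zero]

theorem Fine.mono {ε c c' B B' : ℝ} {r ξ : Tm p} (h : Fine ε c B Λ r ξ) (hc : c ≤ c')
    (hB : B ≤ B') : Fine ε c' B' Λ r ξ := by
  exact ⟨h.cost.mono hc, h.cov.trans hB⟩

theorem Good.mono {ε c c' B B' : ℝ} {r ξ : Tm p} (h : Good ε c B Λ r ξ) (hc : c ≤ c')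
    (hB : B ≤ B') : Good ε c' B' Λ r ξ := by
  exact ⟨h.toFine.mono hc hB, h.nuc.mono hB⟩

theorem fine_zero (ε : ℝ) (r ξ : Tm p) : Fine ε 0 0 (0 : Tm p × Tm p → ℝ) r ξ := by
  refine ⟨?_, ?_⟩
  · rw [mix_zero]; exact costLe_zero ε
  · rw [covv_zero]; simp [nrm]

end One

end Crest.Agent.R192
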