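import Crest.Agent.R192.L1
import Crest.Agent.R192.Gibbs

/-! Row 192: reduction to a weighted idempotent over a finitely generated subgroup. -/

set_option autoImplicit false
set_option linter.unusedSectionVars false
set_option linter.unusedVariables false

open scoped ContDiff Matrix Topology
open MeasureTheory

noncomputable section

namespace Crest.Agent.R192

variable {G : Type} [Group G] {A : Type} [NormedRing A] [NormedAlgebra ℂ A] [CompleteSpace A]
  [NormOneClass A]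

theorem reduce_ext_mem {H : Subgroup G} (e : H → A) (x : H) :
    (Function.extend Subtype.val e 0 : G → A) x = e x :=
  Subtype.val_injective.extend_apply e 0 x

theorem reduce_ext_not {H : Subgroup G} (e : H → A) {x : G} (hx : x ∉ H) :
    (Function.extend Subtype.val e 0 : G → A) x = 0 := by
  rw [Function.extend_apply' _ _ _ (by rintro ⟨y, rfl⟩; exact hx y.2)]; rfl

/-- a sum over `G` of a function vanishing outside `H` is a sum over `H` -/
theorem reduce_tsum {M : Type} [AddCommMonoid M] [TopologicalSpace M] {H : Subgroup G}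
    {f : G → M} (hf : ∀ x, x ∉ H → f x = 0) : ∑' x : H, f x = ∑' x, f x := by
  refine Subtype.val_injective.tsum_eq fun x hx => ?_
  by_contra hcon
  exact hx (hf x fun hxH => hcon ⟨⟨x, hxH⟩, rfl⟩)

theorem reduce_summable {H : Subgroup G} {f : G → ℝ} (hf : ∀ x, x ∉ H → f x = 0)
    (hs : Summable fun x : H => f x) : Summable f := by
  refine (Subtype.val_injective.summable_iff (f := f) fun x hx => ?_).1 hs
  exact hf x fun hxH => hx ⟨⟨x, hxH⟩, rfl⟩

/-- `Function.Injective.tsum_eq` / `tsum_subtype`; for `x ∉ H` every term vanishes -/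
theorem IsIdem.extend {H : Subgroup G} {e : H → A} (he : IsIdem e) :
    IsIdem (Function.extend Subtype.val e 0 : G → A) := by
  intro x
  rw [← reduce_tsum (H := H) (fun y hy => by rw [reduce_ext_not e hy, zero_mul])]
  by_cases hx : x ∈ H
  · have := he ⟨x, hx⟩
    rw [show (Function.extend Subtype.val e 0 : G → A) x = e ⟨x, hx⟩ from reduce_ext_mem e ⟨x, hx⟩,
      ← this]
    refine tsum_congr fun y => ?_
    rw [reduce_ext_mem, ← reduce_ext_mem e (y⁻¹ * ⟨x, hx⟩)]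
    rfl
  · rw [reduce_ext_not e hx]
    refine (tsum_congr fun y => ?_).trans tsum_zero
    rw [reduce_ext_not e (x := (y : G)⁻¹ * x) (fun h => hx (by simpa using H.mul_mem y.2 h)),
      mul_zero]

theorem ctr_extend (τ : A →L[ℂ] ℂ) {H : Subgroup G} (e : H → A) (C : Set G) :
    ctr τ (Function.extend Subtype.val e 0 : G → A) C = ctr τ e (Subtype.val ⁻¹' C) := by
  unfold ctr
  rw [← reduce_tsum (H := H) (fun y hy => by
    simp [Set.indicator, reduce_ext_not e hy])]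
  refine tsum_congr fun y => ?_
  by_cases hy : (y : G) ∈ C
  · rw [Set.indicator_of_mem hy, Set.indicator_of_mem (show y ∈ Subtype.val ⁻¹' C from hy),
      reduce_ext_mem]
  · rw [Set.indicator_of_notMem hy, Set.indicator_of_notMem (show y ∉ Subtype.val ⁻¹' C from hy)]

/-- the shear `(x, y) ↦ (y, y⁻¹ x)` -/
def reduce_shear (G : Type) [Group G] : G × G ≃ G × G where
  toFun p := (p.2, p.2⁻¹ * p.1)
  invFun q := (q.1 * q.2, q.1)
  left_inv p := by simp
  right_inv q := by simp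

/-- Young's inequality -/
theorem reduce_young {f k : G → A} (hf : Summable fun x => ‖f x‖) (hk : Summable fun x => ‖k x‖) :
    (∀ x, Summable fun y => f y * k (y⁻¹ * x)) ∧
    (Summable fun x => ‖∑' y, f y * k (y⁻¹ * x)‖) ∧
    ∑' x, ‖∑' y, f y * k (y⁻¹ * x)‖ ≤ (∑' x, ‖f x‖) * ∑' x, ‖k x‖ := by
  have h0 : Summable fun q : G × G => ‖f q.1‖ * ‖k q.2‖ :=
    hf.mul_of_nonneg hk (fun _ => norm_nonneg _) fun _ => norm_nonneg _
  have h1 : Summable fun p : G × G => ‖f p.2‖ * ‖k (p.2⁻¹ * p.1)‖ :=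
    (reduce_shear G).summable_iff.2 h0
  have h2 : ∑' p : G × G, ‖f p.2‖ * ‖k (p.2⁻¹ * p.1)‖ = (∑' x, ‖f x‖) * ∑' x, ‖k x‖ := by
    rw [hf.tsum_mul_tsum hk h0]
    exact (reduce_shear G).tsum_eq fun q : G × G => ‖f q.1‖ * ‖k q.2‖
  have h3 : ∀ x, Summable fun y => ‖f y‖ * ‖k (y⁻¹ * x)‖ := fun x => h1.prod_factor x
  have h4 : ∀ x, Summable fun y => ‖f y * k (y⁻¹ * x)‖ := fun x =>
    Summable.of_nonneg_of_le (fun _ => norm_nonneg _) (fun _ => norm_mul_le _ _) (h3 x)
  have h5 : ∀ x, ‖∑' y, f y * k (y⁻¹ * x)‖ ≤ ∑' y, ‖f y‖ * ‖k (y⁻¹ * x)‖ := fun x =>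
    le_trans (norm_tsum_le_tsum_norm (h4 x))
      ((h4 x).tsum_le_tsum (fun _ => norm_mul_le _ _) (h3 x))
  have h6 : Summable fun x => ∑' y, ‖f y‖ * ‖k (y⁻¹ * x)‖ := h1.prod
  have h7 : Summable fun x => ‖∑' y, f y * k (y⁻¹ * x)‖ :=
    Summable.of_nonneg_of_le (fun _ => norm_nonneg _) h5 h6
  refine ⟨fun x => (h4 x).of_norm, h7, ?_⟩
  rw [← h2, h1.tsum_prod]
  exact h7.tsum_le_tsum h5 h6

theorem reduce_sub_summable {ι : Type} {a e : ι → A} (ha : Summable fun x => ‖a x‖)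
    (he : Summable fun x => ‖e x‖) : Summable fun x => ‖a x - e x‖ :=
  Summable.of_nonneg_of_le (fun _ => norm_nonneg _) (fun _ => norm_sub_le _ _) (ha.add he)

/-- Young's inequality applied to `a * a - a = a * (a - e) + (a - e) * e + (e - a)` -/
theorem tsum_norm_conv_sub_le {e a : G → A} (hs : Summable fun x => ‖e x‖) (he : IsIdem e)
    (ha : Summable fun x => ‖a x‖) :
    (Summable fun x => ‖(∑' y, a y * a (y⁻¹ * x)) - a x‖) ∧
    ∑' x, ‖(∑' y, a y * a (y⁻¹ * x)) - a x‖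
      ≤ (∑' x, ‖a x - e x‖) * (∑' x, ‖a x‖ + ∑' x, ‖e x‖ + 1) := by
  have hd : Summable fun x => ‖a x - e x‖ := reduce_sub_summable ha hs
  obtain ⟨p1, p2, p3⟩ := reduce_young (f := a) (k := fun x => a x - e x) ha hd
  obtain ⟨q1, q2, q3⟩ := reduce_young (f := fun x => a x - e x) (k := e) hd hs
  obtain ⟨r1, -, -⟩ := reduce_young (f := e) (k := e) hs hs
  have key : ∀ x, (∑' y, a y * a (y⁻¹ * x)) - a x =
      (∑' y, a y * (a (y⁻¹ * x) - e (y⁻¹ * x))) + (∑' y, (a y - e y) * e (y⁻¹ * x))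
        - (a x - e x) := by
    intro x
    have : ∑' y, a y * a (y⁻¹ * x) = (∑' y, a y * (a (y⁻¹ * x) - e (y⁻¹ * x)))
        + (∑' y, (a y - e y) * e (y⁻¹ * x)) + ∑' y, e y * e (y⁻¹ * x) := by
      rw [← (p1 x).tsum_add (q1 x), ← ((p1 x).add (q1 x)).tsum_add (r1 x)]
      refine tsum_congr fun y => ?_
      noncomm_ring
    rw [this, he x]; abel
  have hle : ∀ x, ‖(∑' y, a y * a (y⁻¹ * x)) - a x‖ ≤
      ‖∑' y, a y * (a (y⁻¹ * x) - e (y⁻¹ * x))‖ + ‖∑' y, (a y - e y) * e (y⁻¹ * x)‖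
        + ‖a x - e x‖ := fun x => by
    rw [key x]
    exact le_trans (norm_sub_le _ _) (add_le_add (norm_add_le _ _) le_rfl)
  have hsum := (p2.add q2).add hd
  have hS : Summable fun x => ‖(∑' y, a y * a (y⁻¹ * x)) - a x‖ :=
    Summable.of_nonneg_of_le (fun _ => norm_nonneg _) hle hsum
  refine ⟨hS, le_trans (hS.tsum_le_tsum hle hsum) ?_⟩
  rw [(p2.add q2).tsum_add hd, p2.tsum_add q2]
  nlinarith

/-- Let `E = ∑' ‖e‖`, choose a finite `F` with `∑' x ∉ F, ‖e x‖ ≤ η`, `a = indicator F e`,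
`H = closure F`.  Given `ℓ` choose `κ > 0` with `exp (κ ℓ) ≤ 2` on `F ∪ F * F`, which contains the
supports of `a` and `a * a - a`.  `exists_isIdem_near` on `H` with `δ = 2 η (2 E + 1)` gives `e'`
with `‖e' - a‖₁ ≤ (4 E + 1) * 4 δ`; for small `η`, `ctr_eq_of_near` applies to `e` and the
extension by zero of `e'`. -/
theorem reduce {τ : A →L[ℂ] ℂ} (hτ : Tracial τ) {e : G → A} (hs : Summable fun x => ‖e x‖)
    (he : IsIdem e) : ∃ H : Subgroup G, H.FG ∧ ∀ ℓ : H → ℝ, IsLen ℓ → ∃ κ : ℝ, 0 < κ ∧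
      ∃ e' : H → A, (Summable fun x => ‖e' x‖ * Real.exp (κ * ℓ x)) ∧ IsIdem e' ∧
        ∀ C : Set G, ConjInv C → ctr τ e C = ctr τ e' (Subtype.val ⁻¹' C) := by
  classical
  set E := ∑' x, ‖e x‖ with hE
  have hE0 : 0 ≤ E := tsum_nonneg fun _ => norm_nonneg _
  set M := 4 * E + 1 with hM
  have hM1 : 1 ≤ M := by linarith
  set η := 1 / (32 * M ^ 2) with hη
  have hη0 : 0 < η := by positivity
  have hηM : η * M ^ 2 = 1 / 32 := by rw [hη]; field_simp
  obtain ⟨F, hF⟩ : ∃ F : Finset G, ∑' x : {x // x ∉ F}, ‖e x‖ ≤ η :=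
    ((tendsto_tsum_compl_atTop_zero fun x => ‖e x‖).eventually (ge_mem_nhds hη0)).exists
  set a : G → A := fun x => if x ∈ F then e x else 0 with ha
  have haF : ∀ x, x ∉ F → a x = 0 := fun x hx => by simp [ha, hx]
  have hale : ∀ x, ‖a x‖ ≤ ‖e x‖ := fun x => by
    by_cases hx : x ∈ F <;> simp [ha, hx]
  have has : Summable fun x => ‖a x‖ := Summable.of_nonneg_of_le (fun _ => norm_nonneg _) hale hs
  have haE : ∑' x, ‖a x‖ ≤ E := has.tsum_le_tsum hale hs
  have hae : ∑' x, ‖a x - e x‖ ≤ η := by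
    refine le_trans (le_of_eq ?_) hF
    have := tsum_subtype (({x | x ∉ F}) : Set G) fun x => ‖e x‖
    refine Eq.trans (tsum_congr fun x => ?_) this.symm
    by_cases hx : x ∈ F
    · simp [ha, hx]
    · simp [ha, hx]
  obtain ⟨hc1, hc2⟩ := tsum_norm_conv_sub_le hs he has
  set H : Subgroup G := Subgroup.closure (F : Set G) with hH
  have hFH : ∀ x ∈ F, x ∈ H := fun x hx => Subgroup.subset_closure hx
  have haH : ∀ x, x ∉ H → a x = 0 := fun x hx => haF x fun h => hx (hFH x h)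
  refine ⟨H, ⟨F, rfl⟩, fun ℓ hℓ => ?_⟩
  have hℓ0 : ∀ x, 0 ≤ ℓ x := fun x => by
    have := hℓ.mul x x⁻¹
    rw [mul_inv_cancel, hℓ.one, hℓ.inv] at this
    linarith
  set K : Finset G := F ∪ Finset.image₂ (· * ·) F F with hK
  set K' : Finset H := K.preimage Subtype.val Subtype.val_injective.injOn with hK'
  set L := ∑ x ∈ K', ℓ x + 1 with hL
  have hL0 : 0 < L := by
    have : 0 ≤ ∑ x ∈ K', ℓ x := Finset.sum_nonneg fun x _ => hℓ0 x
    linarith
  have hlog : 0 < Real.log 2 := Real.log_pos (by norm_num)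
  set κ := Real.log 2 / L with hκ
  have hκ0 : 0 < κ := div_pos hlog hL0
  have hw2 : ∀ x : H, (x : G) ∈ K → Real.exp (κ * ℓ x) ≤ 2 := fun x hx => by
    have h1 : ℓ x ≤ L := by
      have := Finset.single_le_sum (f := ℓ) (fun y _ => hℓ0 y)
        (show x ∈ K' from Finset.mem_preimage.2 hx)
      linarith
    have h2 : κ * ℓ x ≤ Real.log 2 := by
      calc κ * ℓ x ≤ κ * L := mul_le_mul_of_nonneg_left h1 hκ0.le
        _ = Real.log 2 := by rw [hκ]; field_simp
    calc Real.exp (κ * ℓ x) ≤ Real.exp (Real.log 2) := Real.exp_le_exp.2 h2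
      _ = 2 := Real.exp_log (by norm_num)
  have hw1 : ∀ x : H, 1 ≤ Real.exp (κ * ℓ x) := fun x =>
    Real.one_le_exp (mul_nonneg hκ0.le (hℓ0 x))
  have hconv : ∀ x : H, ∑' y : H, a y * a ((y⁻¹ * x : H) : G) = ∑' y, a y * a (y⁻¹ * x) := fun x =>
    reduce_tsum (H := H) (f := fun y => a y * a (y⁻¹ * x)) fun y hy => by rw [haH y hy, zero_mul]
  have hasH : Summable fun x : H => ‖a x‖ := has.subtype _
  have hb1 : ∀ x : H, ‖a x‖ * Real.exp (κ * ℓ x) ≤ 2 * ‖a x‖ := fun x => by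
    by_cases hx : (x : G) ∈ F
    · rw [mul_comm]
      exact mul_le_mul_of_nonneg_right (hw2 x (Finset.mem_union_left _ hx)) (norm_nonneg _)
    · simp [haF x hx]
  have hasw : Summable fun x : H => ‖a x‖ * Real.exp (κ * ℓ x) :=
    Summable.of_nonneg_of_le (fun x => by positivity) hb1 (hasH.mul_left 2)
  have hasw' : ∑' x : H, ‖a x‖ * Real.exp (κ * ℓ x) ≤ 2 * E := by
    refine le_trans (hasw.tsum_le_tsum hb1 (hasH.mul_left 2)) ?_
    rw [tsum_mul_left, reduce_tsum (H := H) (f := fun x => ‖a x‖) fun x hx => by simp [haH x hx]]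
    linarith
  have hb2 : ∀ x : H, ‖(∑' y : H, a y * a ((y⁻¹ * x : H) : G)) - a x‖ * Real.exp (κ * ℓ x) ≤
      2 * ‖(∑' y, a y * a (y⁻¹ * x)) - a x‖ := fun x => by
    rw [hconv]
    by_cases hx : (x : G) ∈ K
    · rw [mul_comm]
      exact mul_le_mul_of_nonneg_right (hw2 x hx) (norm_nonneg _)
    · have h1 : a x = 0 := haF x fun h => hx (Finset.mem_union_left _ h)
      have h2 : ∀ y : G, a y * a (y⁻¹ * x) = 0 := fun y => by
        by_cases hy : y ∈ F
        · rw [haF (y⁻¹ * x) fun h => hx (Finset.mem_union_right _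
            (Finset.mem_image₂.2 ⟨y, hy, _, h, by simp⟩)), mul_zero]
        · rw [haF y hy, zero_mul]
      simp [h1, h2]
  have hc1H : Summable fun x : H => ‖(∑' y, a y * a (y⁻¹ * x)) - a x‖ := hc1.subtype _
  have hδ : ∑' x : H, ‖(∑' y : H, a y * a ((y⁻¹ * x : H) : G)) - a x‖ * Real.exp (κ * ℓ x) ≤
      2 * η * M := by
    refine le_trans ((Summable.of_nonneg_of_le (fun x => by positivity) hb2
      (hc1H.mul_left 2)).tsum_le_tsum hb2 (hc1H.mul_left 2)) ?_
    rw [tsum_mul_left]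
    have h1 : ∑' x : H, ‖(∑' y, a y * a (y⁻¹ * x)) - a x‖ ≤
        ∑' x, ‖(∑' y, a y * a (y⁻¹ * x)) - a x‖ :=
      hc1.tsum_subtype_le _ _ (fun _ => norm_nonneg _)
    have h2 : (∑' x, ‖a x - e x‖) * (∑' x, ‖a x‖ + E + 1) ≤ η * M :=
      mul_le_mul hae (by linarith) (by
        have : 0 ≤ ∑' x, ‖a x‖ := tsum_nonneg fun _ => norm_nonneg _
        linarith) hη0.le
    linarith
  have hηM1 : η * M ≤ 1 / 32 := by nlinarith
  obtain ⟨e', he1, he2, he3⟩ := exists_isIdem_near (G := H) (a := fun x => a x)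
    (w := fun x => Real.exp (κ * ℓ x)) (by simp [hℓ.one]) hw1
    (fun x y => by
      rw [← Real.exp_add, ← mul_add]
      exact Real.exp_le_exp.2 (mul_le_mul_of_nonneg_left (hℓ.mul x y) hκ0.le))
    hasw hδ (by linarith)
  refine ⟨κ, hκ0, e', he1, he2, fun C hC => ?_⟩
  have he's : Summable fun x => ‖e' x‖ :=
    Summable.of_nonneg_of_le (fun _ => norm_nonneg _)
      (fun x => le_mul_of_one_le_right (norm_nonneg _) (hw1 x)) he1
  set f : G → A := Function.extend Subtype.val e' 0 with hf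
  have hfH : ∀ x, x ∉ H → f x = 0 := fun x hx => reduce_ext_not e' hx
  have hfm : ∀ x : H, f x = e' x := fun x => reduce_ext_mem e' x
  have hfs : Summable fun x => ‖f x‖ :=
    reduce_summable (H := H) (fun x hx => by simp [hfH x hx]) (by simpa [hfm] using he's)
  rw [← ctr_extend τ e' C]
  refine ctr_eq_of_near hτ hs hfs he he2.extend ?_ hC
  have hd1 := reduce_sub_summable has hs
  have hd2 := reduce_sub_summable hfs has
  have hle : ∀ x, ‖e x - f x‖ ≤ ‖a x - e x‖ + ‖f x - a x‖ := fun x => by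
    calc ‖e x - f x‖ = ‖-((a x - e x) + (f x - a x))‖ := by congr 1; abel
      _ ≤ ‖a x - e x‖ + ‖f x - a x‖ := by rw [norm_neg]; exact norm_add_le _ _
  have h1 : ∑' x, ‖e x - f x‖ ≤ ∑' x, ‖a x - e x‖ + ∑' x, ‖f x - a x‖ := by
    rw [← hd1.tsum_add hd2]
    exact (reduce_sub_summable hs hfs).tsum_le_tsum hle (hd1.add hd2)
  have hsw : Summable fun x : H => ‖e' x - a x‖ * Real.exp (κ * ℓ x) :=
    Summable.of_nonneg_of_le (fun x => by positivity)
      (fun x => by
        rw [← add_mul]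
        exact mul_le_mul_of_nonneg_right (norm_sub_le _ _) (Real.exp_pos _).le) (he1.add hasw)
  have h2 : ∑' x, ‖f x - a x‖ ≤ ∑' x : H, ‖e' x - a x‖ * Real.exp (κ * ℓ x) := by
    rw [← reduce_tsum (H := H) (f := fun x => ‖f x - a x‖) fun x hx => by
      simp [hfH x hx, haH x hx]]
    refine (hd2.subtype _).tsum_le_tsum (fun x => ?_) hsw
    simp only [hfm]
    exact le_mul_of_one_le_right (norm_nonneg _) (hw1 x)
  have h3 : (2 * ∑' x : H, ‖a x‖ * Real.exp (κ * ℓ x) + 1) * (4 * (2 * η * M)) ≤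
      M * (4 * (2 * η * M)) :=
    mul_le_mul_of_nonneg_right (by linarith) (by positivity)
  have h4 : M * (4 * (2 * η * M)) = 1 / 4 := by
    calc M * (4 * (2 * η * M)) = 8 * (η * M ^ 2) := by ring
      _ = 1 / 4 := by rw [hηM]; norm_num
  have h5 : η ≤ 1 / 32 := by nlinarith
  linarith

end Crest.Agent.R192
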