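import Crest.Agent.R192.Stokes0

/-! Row 192: rotation of the simplex. -/

set_option autoImplicit false
set_option linter.unusedSectionVars false
set_option linter.unusedVariables false

open scoped ContDiff Matrix Topology
open MeasureTheory

noncomputable section

namespace Crest.Agent.R192

variable {p : ℕ}

/-- the linear part of `ρm` -/
def rotL (p : ℕ) : (Fin p → ℝ) →L[ℝ] (Fin p → ℝ) :=
  LinearMap.toContinuousLinearMap
    { toFun := fun v => ρm v - ρm 0
      map_add' := fun u v => by
        funext j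
        cases p with
        | zero => exact j.elim0
        | succ m =>
          have h0 : ∀ u : Fin (m + 1) → ℝ, nxt (gz u) 0 = u 0 := fun u => by
            rw [← Fin.castSucc_zero, nxt_castSucc, gz_succ]
          simp only [ρm, Pi.sub_apply, Pi.add_apply, h0]
          refine Fin.lastCases ?_ (fun i => ?_) j
          · simp only [Fin.succ_last, nxt_last, gz_zero, Pi.zero_apply]; ring
          · simp only [Fin.succ_castSucc, nxt_castSucc, gz_succ, Pi.add_apply, Pi.zero_apply]; ring
      map_smul' := fun c v => by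
        funext j
        cases p with
        | zero => exact j.elim0
        | succ m =>
          have h0 : ∀ u : Fin (m + 1) → ℝ, nxt (gz u) 0 = u 0 := fun u => by
            rw [← Fin.castSucc_zero, nxt_castSucc, gz_succ]
          simp only [ρm, Pi.sub_apply, Pi.smul_apply, h0, RingHom.id_apply, smul_eq_mul]
          refine Fin.lastCases ?_ (fun i => ?_) j
          · simp only [Fin.succ_last, nxt_last, gz_zero, Pi.zero_apply]; ring
          · simp only [Fin.succ_castSucc, nxt_castSucc, gz_succ, Pi.smul_apply, Pi.zero_apply,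
              smul_eq_mul]; ring }

theorem rot_apply (v : Fin p → ℝ) : rotL p v = ρm v - ρm 0 := rfl

theorem rot_eq : (ρm : (Fin p → ℝ) → Fin p → ℝ) = fun u => rotL p u + ρm 0 := by
  funext u
  rw [rot_apply, sub_add_cancel]

theorem rot_hasFDerivAt (u : Fin p → ℝ) : HasFDerivAt ρm (rotL p) u := by
  rw [rot_eq]
  exact (rotL p).hasFDerivAt.add_const _

theorem rot_last {m : ℕ} (v : Fin (m + 1) → ℝ) : rotL (m + 1) v (Fin.last m) = -v 0 := by
  have h0 : ∀ u : Fin (m + 1) → ℝ, nxt (gz u) 0 = u 0 := fun u => by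
    rw [← Fin.castSucc_zero, nxt_castSucc, gz_succ]
  simp only [rot_apply, ρm, Pi.sub_apply, h0, Fin.succ_last, nxt_last, gz_zero, Pi.zero_apply]
  ring

theorem rot_castSucc {m : ℕ} (v : Fin (m + 1) → ℝ) (i : Fin m) :
    rotL (m + 1) v i.castSucc = v i.succ - v 0 := by
  have h0 : ∀ u : Fin (m + 1) → ℝ, nxt (gz u) 0 = u 0 := fun u => by
    rw [← Fin.castSucc_zero, nxt_castSucc, gz_succ]
  simp only [rot_apply, ρm, Pi.sub_apply, h0, Fin.succ_castSucc, nxt_castSucc, gz_succ,
    Pi.zero_apply]
  ring

theorem rot_form (η : (Fin p → ℝ) [⋀^Fin p]→ₗ[ℝ] ℝ) :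
    (η fun j => rotL p (Pi.single j 1)) = (-1) ^ p * η fun j => Pi.single j 1 := by
  cases p with
  | zero =>
    rw [pow_zero, one_mul]
    congr 1
    funext j
    exact j.elim0
  | succ m =>
    set e : Fin (m + 1) → Fin (m + 1) → ℝ := fun j => Pi.single j 1 with he
    set w : Fin (m + 1) → Fin (m + 1) → ℝ := e ∘ (finRotate (m + 1)).symm with hw
    have hw1 : ∀ i : Fin m, w i.succ = e i.castSucc := by
      intro i
      simp only [hw, Function.comp]
      congr 1
      rw [Equiv.symm_apply_eq, finRotate_apply, Fin.coeSucc_eq_succ]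
    have h1 : (fun j => rotL (m + 1) (Pi.single j 1)) =
        Function.update w 0 ((-1 : ℝ) • ∑ l, w l) := by
      funext j
      refine Fin.cases ?_ (fun i => ?_) j
      · rw [Function.update_self]
        have : ∑ l, w l = ∑ l, e l := Equiv.sum_comp (finRotate (m + 1)).symm e
        rw [this]
        funext k
        simp only [he, Pi.smul_apply, Finset.sum_apply, Pi.single_apply, Finset.sum_ite_eq,
          Finset.mem_univ, if_true, smul_eq_mul, mul_one]
        refine Fin.lastCases ?_ (fun i => ?_) k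
        · rw [rot_last]; simp
        · rw [rot_castSucc]; simp
      · rw [Function.update_of_ne (Fin.succ_ne_zero i), hw1]
        funext k
        refine Fin.lastCases ?_ (fun i' => ?_) k
        · rw [rot_last]
          simp [he, Pi.single_apply, (Fin.succ_ne_zero i).symm, (Fin.castSucc_ne_last i).symm]
        · rw [rot_castSucc]
          simp [he, Pi.single_apply, (Fin.succ_ne_zero i).symm]
    rw [h1, AlternatingMap.map_update_smul, AlternatingMap.map_update_sum,
      Finset.sum_eq_single 0 (fun l _ hl => η.map_update_self w hl.symm) (by simp),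
      Function.update_eq_self, hw, AlternatingMap.map_perm, Equiv.Perm.sign_symm, sign_finRotate]
    simp [pow_succ, Units.smul_def]

theorem rot_det : LinearMap.det (rotL p : (Fin p → ℝ) →ₗ[ℝ] (Fin p → ℝ)) = (-1) ^ p := by
  have h1 := (Pi.basisFun ℝ (Fin p)).det_comp (rotL p : (Fin p → ℝ) →ₗ[ℝ] (Fin p → ℝ))
    (Pi.basisFun ℝ (Fin p))
  have h2 := rot_form (Pi.basisFun ℝ (Fin p)).det
  have h3 : (fun j => Pi.single j (1 : ℝ)) = ⇑(Pi.basisFun ℝ (Fin p)) := by
    funext j; simp
  rw [h3, Module.Basis.det_self, mul_one] at h2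
  rw [Module.Basis.det_self, mul_one] at h1
  rw [← h1, ← h2]
  congr 1
  funext j
  simp

theorem rot_bijective : Function.Bijective (ρm : (Fin p → ℝ) → Fin p → ℝ) := by
  have hu : IsUnit (rotL p : (Fin p → ℝ) →ₗ[ℝ] (Fin p → ℝ)) := by
    rw [LinearMap.isUnit_iff_isUnit_det, rot_det]
    exact (isUnit_neg_one.pow p)
  have hb := (Module.End.isUnit_iff _).1 hu
  rw [rot_eq]
  exact (Equiv.addRight (ρm (0 : Fin p → ℝ))).bijective.comp hb

/-- `u ∈ So p` iff all gaps are positive; use `gap_ρm` -/
theorem ρm_mem_iff (u : Fin p → ℝ) : ρm u ∈ So p ↔ u ∈ So p := by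
  have h : ∀ v : Fin p → ℝ, v ∈ So p ↔ ∀ i, 0 < gap i v := fun v =>
    forall_congr' fun i => sub_pos.symm
  rw [h, h]
  simp only [gap_ρm]
  exact ⟨fun H i => by simpa using H (i - 1), fun H i => H _⟩

/-- for `p = m + 1` the linear part sends `e_0 ↦ -∑ e_l` and `e_{j+1} ↦ e_j`, so
`η (-∑ e, e_0, …, e_{m-1}) = -η (e_m, e_0, …, e_{m-1}) = (-1)^(m+1) η (e)` -/
theorem form_fderiv_ρm (η : Fm (Fin p → ℝ) p) (u : Fin p → ℝ) :
    (η fun j => fderiv ℝ ρm u (Pi.single j 1)) = (-1) ^ p * η fun j => Pi.single j 1 := by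
  rw [(rot_hasFDerivAt u).fderiv]
  exact rot_form η.toAlternatingMap

/-- `ρm` is an affine bijection whose linear part has determinant `±1` (apply the previous
computation to the determinant form), hence it preserves the volume -/
theorem integral_comp_ρm (f : (Fin p → ℝ) → ℝ) : ∫ u in So p, f (ρm u) = ∫ u in So p, f u := by
  have himg : ρm '' So p = So p := by
    ext v
    constructor
    · rintro ⟨u, hu, rfl⟩
      exact (ρm_mem_iff u).2 hu
    · intro hv
      obtain ⟨u, rfl⟩ := rot_bijective.2 v
      exact ⟨u, (ρm_mem_iff u).1 hv, rfl⟩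
  have h := integral_image_eq_integral_abs_det_fderiv_smul volume measurableSet_So
    (fun u _ => (rot_hasFDerivAt u).hasFDerivWithinAt) rot_bijective.1.injOn f
  rw [himg] at h
  rw [h]
  have : (rotL p).det = (-1) ^ p := rot_det
  simp [this]

theorem Ip_pb_ρm (η : (Fin p → ℝ) → Fm (Fin p → ℝ) p) : Ip (pb ρm η) = (-1) ^ p * Ip η := by
  unfold Ip
  rw [← integral_comp_ρm (fun u => η u fun j => Pi.single j 1), ← integral_const_mul]
  congr 1
  funext u
  exact form_fderiv_ρm (η (ρm u)) u

end Crest.Agent.R192
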