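import Crest.Agent.R192.Sm0

/-! Row 192: calculus of smooth families of bounded functions and of Gibbs averages. -/

set_option autoImplicit false
set_option linter.unusedSectionVars false
set_option linter.unusedVariables false

open scoped ContDiff Matrix Topology
open MeasureTheory

noncomputable section

namespace Crest.Agent.R192

variable {G : Type} {E E' : Type} [NormedAddCommGroup E] [NormedSpace ℝ E]
  [NormedAddCommGroup E'] [NormedSpace ℝ E']

section SmAux

/-- evaluation as a ring homomorphism -/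
def smEv (z : G) : Bd G →+* ℝ where
  toFun u := u z
  map_one' := rfl
  map_mul' _ _ := rfl
  map_zero' := rfl
  map_add' _ _ := rfl

theorem sm_exp_apply (u : Bd G) (z : G) : (NormedSpace.exp u : Bd G) z = Real.exp (u z) := by
  have hc : Continuous (smEv z) :=
    (BoundedContinuousFunction.evalCLM ℝ (show Dc G from z) : Bd G →L[ℝ] ℝ).continuous
  have := NormedSpace.map_exp_of_mem_ball (𝕂 := ℝ) (smEv z) hc u
    ((NormedSpace.expSeries_radius_eq_top ℝ (Bd G)).symm ▸ edist_lt_top _ _)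
  rw [Real.exp_eq_exp_ℝ]
  exact this

theorem sm_exp {f : E → G → ℝ} (hf : SmF f) : SmF fun x z => Real.exp (f x z) := by
  obtain ⟨F, hF, hFf⟩ := hf
  have he : ContDiff ℝ ∞ (NormedSpace.exp : Bd G → Bd G) :=
    contDiff_iff_contDiffAt.2 fun u => (NormedSpace.exp_analytic (𝕂 := ℝ) u).contDiffAt
  exact ⟨fun x => NormedSpace.exp (F x), he.comp hF, fun x z => by rw [sm_exp_apply, hFf]⟩

theorem sm_summable {w u : G → ℝ} (hw : Summable w) (hu : Bdd u) :
    Summable fun z => w z * u z := by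
  obtain ⟨C, hC⟩ := hu
  refine Summable.of_norm_bounded (g := fun z => |w z| * C) (hw.abs.mul_right C) fun z => ?_
  rw [Real.norm_eq_abs, abs_mul]
  exact mul_le_mul_of_nonneg_left (hC z) (abs_nonneg _)

theorem sm_abs_tsum_le {w u : G → ℝ} (hw : Summable w) {C : ℝ} (hC : ∀ z, |u z| ≤ C) :
    |∑' z, w z * u z| ≤ (∑' z, |w z|) * C := by
  rw [← Real.norm_eq_abs]
  refine tsum_of_norm_bounded (hw.abs.hasSum.mul_right C) fun z => ?_
  rw [Real.norm_eq_abs, abs_mul]
  exact mul_le_mul_of_nonneg_left (hC z) (abs_nonneg _)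

theorem sm_abs_apply_le (u : Bd G) (z : G) : |u z| ≤ ‖u‖ :=
  BoundedContinuousFunction.norm_coe_le_norm u z

theorem sm_exists_K {w : G → ℝ} (hw : Summable w) {k : G → G → ℝ}
    (hk : ∃ C : ℝ, ∀ y z, |k y z| ≤ C) :
    ∃ K : Bd G →L[ℝ] Bd G, ∀ (u : Bd G) (z : G), K u z = ∑' y : G, w y * (u y * k y z) := by
  obtain ⟨C0, hC0⟩ := hk
  obtain ⟨C, hC, hCn⟩ : ∃ C : ℝ, (∀ y z, |k y z| ≤ C) ∧ 0 ≤ C :=
    ⟨max C0 0, fun y z => (hC0 y z).trans (le_max_left _ _), le_max_right _ _⟩
  have hb : ∀ (u : Bd G) (z y : G), |u y * k y z| ≤ ‖u‖ * C := fun u z y => by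
    rw [abs_mul]
    exact mul_le_mul (sm_abs_apply_le u y) (hC y z) (abs_nonneg _) (norm_nonneg _)
  have hs : ∀ (u : Bd G) (z : G), Summable fun y : G => w y * (u y * k y z) := fun u z =>
    sm_summable hw ⟨_, hb u z⟩
  let K0 : Bd G → Bd G := fun u =>
    BoundedContinuousFunction.ofNormedAddCommGroupDiscrete (α := Dc G)
      (fun z : G => ∑' y : G, w y * (u y * k y z)) ((∑' z, |w z|) * (‖u‖ * C))
      fun z => sm_abs_tsum_le hw (hb u z)
  have hK0 : ∀ (u : Bd G) (z : G), K0 u z = ∑' y : G, w y * (u y * k y z) := fun u z => rfl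
  let K1 : Bd G →ₗ[ℝ] Bd G :=
    { toFun := K0
      map_add' := fun u v => by
        ext z
        change K0 (u + v) z = K0 u z + K0 v z
        rw [hK0, hK0, hK0, ← (hs u z).tsum_add (hs v z)]
        refine tsum_congr fun y => ?_
        change w y * ((u y + v y) * k y z) = _
        ring
      map_smul' := fun c u => by
        ext z
        change K0 (c • u) z = c * K0 u z
        rw [hK0, hK0, ← tsum_mul_left]
        refine tsum_congr fun y => ?_
        change w y * ((c * u y) * k y z) = _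
        ring }
  refine ⟨K1.mkContinuous ((∑' z, |w z|) * C) fun u => ?_, fun u z => rfl⟩
  have h0 : 0 ≤ ∑' z, |w z| := tsum_nonneg fun z => abs_nonneg _
  refine (BoundedContinuousFunction.norm_le (by positivity)).2 fun z => ?_
  refine (sm_abs_tsum_le hw (hb u z)).trans (le_of_eq ?_)
  ring

theorem sm_exists_T [Nonempty G] {w : G → ℝ} (hw : Summable w) :
    ∃ T : Bd G →L[ℝ] ℝ, ∀ u : Bd G, T u = ∑' y : G, w y * u y := by
  obtain ⟨K, hK⟩ := sm_exists_K hw (k := fun _ _ => 1) ⟨1, fun _ _ => by simp⟩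
  obtain ⟨z⟩ := ‹Nonempty G›
  refine ⟨(BoundedContinuousFunction.evalCLM ℝ (show Dc G from z) : Bd G →L[ℝ] ℝ).comp K,
    fun u => ?_⟩
  change K u z = _
  simp only [hK, mul_one]

theorem sm_fderiv_apply {F : E → Bd G} (hF : ContDiff ℝ ∞ F) (x c : E) (z : G) :
    fderiv ℝ F x c z = fderiv ℝ (fun x => F x z) x c := by
  have h1 := (hF.differentiable (by simp) x).hasFDerivAt
  have h2 := (BoundedContinuousFunction.evalCLM ℝ (show Dc G from z) :
    Bd G →L[ℝ] ℝ).hasFDerivAt.comp x h1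
  have h3 : fderiv ℝ (fun x => F x z) x = _ := h2.fderiv
  rw [h3]
  rfl

/-- sums against a fixed summable weight -/
theorem sm_tsum [Nonempty G] {w : G → ℝ} (hw : Summable w) {f : E → G → ℝ} (hf : SmF f) :
    (ContDiff ℝ ∞ fun x => ∑' z, w z * f x z) ∧ ∀ x c,
      fderiv ℝ (fun x => ∑' z, w z * f x z) x c = ∑' z, w z * fderiv ℝ (fun x => f x z) x c := by
  obtain ⟨F, hF, hFf⟩ := hf
  obtain ⟨T, hT⟩ := sm_exists_T hw
  have e : (fun x => ∑' z, w z * f x z) = fun x => T (F x) := by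
    funext x
    simp only [hT, hFf]
  rw [e]
  refine ⟨T.contDiff.comp hF, fun x c => ?_⟩
  have h1 := (hF.differentiable (by simp) x).hasFDerivAt
  have h3 : fderiv ℝ (fun x => T (F x)) x = _ := (T.hasFDerivAt.comp x h1).fderiv
  rw [h3]
  change T (fderiv ℝ F x c) = _
  rw [hT]
  refine tsum_congr fun z => ?_
  rw [sm_fderiv_apply hF]
  simp only [hFf]

theorem sm_Ef_eq (V f : G → ℝ) : Ef V f = (∑' z, Real.exp (-V z) * f z) / Zf V := by
  unfold Ef Ex gibbs
  rw [← tsum_div_const]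
  refine tsum_congr fun z => ?_
  ring

end SmAux

section SmP
variable [Nonempty G] {V f : E → G → ℝ}

theorem SmP.summable (hV : SmP V) (x : E) : Summable fun z => Real.exp (-V x z) := by
  obtain ⟨b, hb, hs⟩ := hV
  exact summable_exp_of_bdd hb (hs.bdd x)

theorem SmP.add (hV : SmP V) (hf : SmF f) : SmP fun x z => V x z + f x z := by
  obtain ⟨b, hb, hs⟩ := hV
  refine ⟨b, hb, ?_⟩
  have := hs.add hf
  convert this using 3
  ring

theorem SmP.comp (hV : SmP V) {T : E' → E} (hT : ContDiff ℝ ∞ T) : SmP fun x => V (T x) := by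
  obtain ⟨b, hb, hs⟩ := hV
  exact ⟨b, hb, hs.comp hT⟩

theorem SmP.contDiff_apply (hV : SmP V) (z : G) : ContDiff ℝ ∞ fun x => V x z := by
  obtain ⟨b, hb, hs⟩ := hV
  have := (hs.contDiff_apply z).add (contDiff_const (c := b z))
  simpa using this

theorem SmP.fderiv (hV : SmP V) (c : E) :
    SmF fun x z => fderiv ℝ (fun x => V x z) x c := by
  obtain ⟨b, hb, hs⟩ := hV
  have := hs.fderiv c
  simpa only [fderiv_sub_const] using this

/-- the unnormalised Gibbs sums -/
theorem SmP.sm_N (hV : SmP V) (hf : SmF f) :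
    (ContDiff ℝ ∞ fun x => ∑' z, Real.exp (-V x z) * f x z) ∧ ∀ x c,
      _root_.fderiv ℝ (fun x => ∑' z, Real.exp (-V x z) * f x z) x c =
        ∑' z, Real.exp (-V x z) * (_root_.fderiv ℝ (fun x => f x z) x c -
          _root_.fderiv ℝ (fun x => V x z) x c * f x z) := by
  have hV' := hV
  obtain ⟨b, hb, hs⟩ := hV
  have h1 := sm_tsum hb ((sm_exp hs.neg).mul hf)
  have e0 : ∀ x z, Real.exp (-b z) * Real.exp (-(V x z - b z)) = Real.exp (-V x z) := by
    intro x z
    rw [← Real.exp_add]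
    congr 1
    ring
  have e : (fun x => ∑' z, Real.exp (-V x z) * f x z) =
      fun x => ∑' z, Real.exp (-b z) * (Real.exp (-(V x z - b z)) * f x z) := by
    funext x
    refine tsum_congr fun z => ?_
    rw [← mul_assoc, e0]
  rw [e]
  refine ⟨h1.1, fun x c => ?_⟩
  rw [h1.2]
  refine tsum_congr fun z => ?_
  have h2 := ((hV'.contDiff_apply z).differentiable (by simp) x).hasFDerivAt
  have h3 := ((hf.contDiff_apply z).differentiable (by simp) x).hasFDerivAt
  have h4 := (((h2.sub_const (b z)).neg.exp).mul h3).fderiv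
  have h5 : _root_.fderiv ℝ (fun x => Real.exp (-(V x z - b z)) * f x z) x = _ := h4
  rw [h5, ← e0 x z]
  simp only [ContinuousLinearMap.add_apply, ContinuousLinearMap.smul_apply,
    ContinuousLinearMap.neg_apply, smul_eq_mul, Pi.neg_apply]
  ring

theorem SmP.sm_Z (hV : SmP V) :
    (ContDiff ℝ ∞ fun x => Zf (V x)) ∧ ∀ x c, _root_.fderiv ℝ (fun x => Zf (V x)) x c =
      -(Zf (V x) * Ef (V x) fun z => _root_.fderiv ℝ (fun x => V x z) x c) := by
  have h := hV.sm_N (SmF.const (E := E) (Bdd.const (G := G) 1))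
  simp only [mul_one] at h
  refine ⟨h.1, fun x c => ?_⟩
  have hZ := (Zf_pos (hV.summable x)).ne'
  rw [sm_Ef_eq, mul_div_cancel₀ _ hZ, ← tsum_neg]
  refine (h.2 x c).trans (tsum_congr fun z => ?_)
  simp

/-- `Zf (V x) = T (exp (-(F x)))` where `exp` is the exponential of the Banach algebra `Bd G`
(`NormedSpace.exp`, analytic; evaluation commutes with it by `NormedSpace.map_exp`) and
`T u = ∑' z, exp (-b z) * u z` is a continuous linear form -/
theorem SmP.contDiff_Zf (hV : SmP V) : ContDiff ℝ ∞ fun x => Zf (V x) := by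
  exact hV.sm_Z.1

theorem SmP.contDiff_Ff (hV : SmP V) : ContDiff ℝ ∞ fun x => Ff (V x) := by
  exact (hV.contDiff_Zf.log fun x => (Zf_pos (hV.summable x)).ne').neg

theorem SmP.contDiff_Ef (hV : SmP V) (hf : SmF f) : ContDiff ℝ ∞ fun x => Ef (V x) (f x) := by
  simp only [sm_Ef_eq]
  exact (hV.sm_N hf).1.div hV.contDiff_Zf fun x => (Zf_pos (hV.summable x)).ne'

theorem SmP.fderiv_Ff (hV : SmP V) (x c : E) :
    _root_.fderiv ℝ (fun x => Ff (V x)) x c
      = Ef (V x) fun z => _root_.fderiv ℝ (fun x => V x z) x c := by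
  have hZ := (Zf_pos (hV.summable x)).ne'
  have h1 := (hV.contDiff_Zf.differentiable (by simp) x).hasFDerivAt
  have h2 : _root_.fderiv ℝ (fun x => Ff (V x)) x = _ := (h1.log hZ).neg.fderiv
  rw [h2]
  simp only [ContinuousLinearMap.neg_apply, ContinuousLinearMap.smul_apply, smul_eq_mul]
  rw [hV.sm_Z.2]
  field_simp

theorem SmP.fderiv_Ef (hV : SmP V) (hf : SmF f) (x c : E) :
    _root_.fderiv ℝ (fun x => Ef (V x) (f x)) x c
      = (Ef (V x) fun z => _root_.fderiv ℝ (fun x => f x z) x c)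
        - Cv (V x) (fun z => _root_.fderiv ℝ (fun x => V x z) x c) (f x) := by
  have hZ : ∀ x, Zf (V x) ≠ 0 := fun x => (Zf_pos (hV.summable x)).ne'
  have h1 := (hV.contDiff_Zf.differentiable (by simp) x).hasFDerivAt
  have h2 := ((hV.contDiff_Ef hf).differentiable (by simp) x).hasFDerivAt
  have h3 : _root_.fderiv ℝ (fun x => Zf (V x) * Ef (V x) (f x)) x = _ := (h1.mul h2).fderiv
  have e : (fun x => Zf (V x) * Ef (V x) (f x)) = fun x => ∑' z, Real.exp (-V x z) * f x z := by
    funext x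
    rw [sm_Ef_eq, mul_div_cancel₀ _ (hZ x)]
  have h4 := (hV.sm_N hf).2 x c
  rw [← e, h3] at h4
  simp only [ContinuousLinearMap.add_apply, ContinuousLinearMap.smul_apply, smul_eq_mul] at h4
  rw [hV.sm_Z.2] at h4
  have hp := prob_gibbs (hV.summable x)
  have h5 : (Ef (V x) fun z => _root_.fderiv ℝ (fun x => f x z) x c -
      _root_.fderiv ℝ (fun x => V x z) x c * f x z) =
      (Ef (V x) fun z => _root_.fderiv ℝ (fun x => f x z) x c) -
        Ef (V x) fun z => _root_.fderiv ℝ (fun x => V x z) x c * f x z :=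
    ex_sub (hp.summable_mul ((hf.fderiv c).bdd x))
      (hp.summable_mul (((hV.fderiv c).bdd x).mul (hf.bdd x)))
  rw [sm_Ef_eq, div_eq_iff (hZ x), ← h4] at h5
  unfold Cv
  refine mul_left_cancel₀ (hZ x) ?_
  linarith

/-- a bounded kernel defines a continuous linear map `Bd G → Bd G`,
`u ↦ (z ↦ ∑' y, exp (-b y) * u y * k y z)` -/
theorem SmP.smF_ker (hV : SmP V) {k : G → G → ℝ} (hk : ∃ C : ℝ, ∀ y z, |k y z| ≤ C) :
    SmF fun x z => Ef (V x) fun y => k y z := by
  have hZ : ∀ x, Zf (V x) ≠ 0 := fun x => (Zf_pos (hV.summable x)).ne'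
  have h0 := SmF.scalar (G := G) (hV.contDiff_Zf.inv hZ)
  obtain ⟨b, hb, hs⟩ := hV
  obtain ⟨K, hK⟩ := sm_exists_K hb hk
  obtain ⟨F, hF, hFf⟩ := sm_exp hs.neg
  have h1 : SmF fun x z => ∑' y, Real.exp (-V x y) * k y z := by
    refine ⟨fun x => K (F x), K.contDiff.comp hF, fun x z => ?_⟩
    rw [hK]
    refine tsum_congr fun y => ?_
    rw [hFf, ← mul_assoc, ← Real.exp_add]
    congr 2
    ring
  have := h1.mul h0
  simpa only [sm_Ef_eq, div_eq_mul_inv, Pi.inv_apply] using this

end SmP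

end Crest.Agent.R192
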