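import Crest.Agent.R192.Gibbs

/-! Row 192: calculus of smooth families of bounded functions and of Gibbs averages. -/

set_option autoImplicit false
set_option linter.unusedSectionVars false
set_option linter.unusedVariables false

open scoped ContDiff Matrix Topology
open MeasureTheory

noncomputable section

namespace Crest.Agent.R192

variable {G : Type} {E E' : Type} [NormedAddCommGroup E] [NormedSpace ℝ E]
  [NormedAddCommGroup E'] [NormedSpace ℝ E']

theorem sm0_abs_le (F : Bd G) (z : G) : |F z| ≤ ‖F‖ := F.norm_coe_le_norm z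

theorem sm0_bdd (F : Bd G) : Bdd fun z : G => F z := ⟨‖F‖, sm0_abs_le F⟩

theorem sm0_lift {b : G → ℝ} (hb : Bdd b) : ∃ B : Bd G, ∀ z : G, B z = b z := by
  obtain ⟨C, hC⟩ := hb
  exact ⟨BoundedContinuousFunction.ofNormedAddCommGroupDiscrete (α := Dc G) b C hC, fun _ => rfl⟩

/-- evaluation at a point -/
def sm0_ev (z : G) : Bd G →L[ℝ] ℝ := BoundedContinuousFunction.evalCLM ℝ (show Dc G from z)

theorem sm0_ev_apply (z : G) (F : Bd G) : sm0_ev z F = F z := rfl

section SmF
variable {f k : E → G → ℝ}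

theorem SmF.bdd (hf : SmF f) (x : E) : Bdd (f x) := by
  obtain ⟨F, -, h⟩ := hf
  exact ⟨‖F x‖, fun z => h x z ▸ sm0_abs_le (F x) z⟩

theorem SmF.contDiff_apply (hf : SmF f) (z : G) : ContDiff ℝ ∞ fun x => f x z := by
  obtain ⟨F, hF, h⟩ := hf
  have h1 : (fun x => f x z) = fun x => sm0_ev z (F x) := funext fun x => (h x z).symm
  rw [h1]
  exact (sm0_ev z).contDiff.comp hF

/-- use `BoundedContinuousFunction.ofNormedAddCommGroupDiscrete` -/
theorem SmF.const {b : G → ℝ} (hb : Bdd b) : SmF fun (_ : E) z => b z := by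
  obtain ⟨B, hB⟩ := sm0_lift hb
  exact ⟨fun _ => B, contDiff_const, fun _ z => hB z⟩

theorem SmF.scalar {a : E → ℝ} (ha : ContDiff ℝ ∞ a) : SmF fun x (_ : G) => a x := by
  refine ⟨fun x => a x • (1 : Bd G), ha.smul contDiff_const, fun x z => ?_⟩
  show a x * 1 = a x
  rw [mul_one]

theorem SmF.add (hf : SmF f) (hk : SmF k) : SmF fun x z => f x z + k x z := by
  obtain ⟨F, hF, h⟩ := hf
  obtain ⟨K, hK, h'⟩ := hk
  exact ⟨fun x => F x + K x, hF.add hK, fun x z => congrArg₂ (· + ·) (h x z) (h' x z)⟩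

theorem SmF.sub (hf : SmF f) (hk : SmF k) : SmF fun x z => f x z - k x z := by
  obtain ⟨F, hF, h⟩ := hf
  obtain ⟨K, hK, h'⟩ := hk
  exact ⟨fun x => F x - K x, hF.sub hK, fun x z => congrArg₂ (· - ·) (h x z) (h' x z)⟩

theorem SmF.neg (hf : SmF f) : SmF fun x z => -f x z := by
  obtain ⟨F, hF, h⟩ := hf
  exact ⟨fun x => -F x, hF.neg, fun x z => congrArg (fun t : ℝ => -t) (h x z)⟩

theorem SmF.mul (hf : SmF f) (hk : SmF k) : SmF fun x z => f x z * k x z := by
  obtain ⟨F, hF, h⟩ := hf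
  obtain ⟨K, hK, h'⟩ := hk
  exact ⟨fun x => F x * K x, hF.mul hK, fun x z => congrArg₂ (· * ·) (h x z) (h' x z)⟩

theorem SmF.sum {ι : Type} (s : Finset ι) {f : ι → E → G → ℝ} (hf : ∀ i ∈ s, SmF (f i)) :
    SmF fun x z => ∑ i ∈ s, f i x z := by
  classical
  induction s using Finset.induction_on with
  | empty => simpa using SmF.const (E := E) (Bdd.const (G := G) 0)
  | insert a s ha ih =>
    simp only [Finset.sum_insert ha]
    exact (hf a (Finset.mem_insert_self _ _)).add
      (ih fun i hi => hf i (Finset.mem_insert_of_mem hi))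

theorem SmF.comp (hf : SmF f) {T : E' → E} (hT : ContDiff ℝ ∞ T) : SmF fun x => f (T x) := by
  obtain ⟨F, hF, h⟩ := hf
  exact ⟨fun x => F (T x), hF.comp hT, fun x z => h _ z⟩

/-- the lift is `x ↦ fderiv ℝ F x c`; evaluation at `z` is a continuous linear map -/
theorem SmF.fderiv (hf : SmF f) (c : E) :
    SmF fun x z => fderiv ℝ (fun x => f x z) x c := by
  obtain ⟨F, hF, h⟩ := hf
  refine ⟨fun x => _root_.fderiv ℝ F x c,
    (hF.fderiv_right (m := ∞) (by simp)).clm_apply contDiff_const, fun x z => ?_⟩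
  have h1 : (fun x => f x z) = fun x => sm0_ev z (F x) := funext fun x => (h x z).symm
  have h2 : HasFDerivAt (fun x => sm0_ev z (F x)) ((sm0_ev z).comp (_root_.fderiv ℝ F x)) x :=
    (sm0_ev z).hasFDerivAt.comp x (hF.differentiable (by simp) x).hasFDerivAt
  show _ = _root_.fderiv ℝ (fun x => f x z) x c
  rw [h1, h2.fderiv]
  rfl

theorem SmF.bdd_compact (hf : SmF f) {K : Set E} (hK : IsCompact K) :
    ∃ C : ℝ, ∀ x ∈ K, ∀ z, |f x z| ≤ C := by
  obtain ⟨F, hF, h⟩ := hf
  obtain ⟨C, hC⟩ := hK.exists_bound_of_continuousOn hF.continuous.continuousOn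
  exact ⟨C, fun x hx z => h x z ▸ (sm0_abs_le (F x) z).trans (hC x hx)⟩

/-- locally finite sums: near each point the lift is a finite sum -/
theorem SmF.tsum_loc {ι : Type} {a : ι → E → ℝ} {b : ι → G → ℝ} (ha : ∀ i, ContDiff ℝ ∞ (a i))
    (hb : ∀ i, Bdd (b i))
    (hloc : ∀ x, ∃ s : Finset ι, ∀ᶠ y in 𝓝 x, ∀ i ∉ s, a i y = 0) :
    SmF fun x z => ∑' i, a i x * b i z := by
  choose B hB using fun i => sm0_lift (hb i)
  choose s hs using hloc
  refine ⟨fun x => ∑' i, a i x • B i, contDiff_iff_contDiffAt.2 fun x => ?_, fun x z => ?_⟩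
  · have h1 : ContDiff ℝ ∞ fun y => ∑ i ∈ s x, a i y • B i :=
      ContDiff.sum fun i _ => (ha i).smul contDiff_const
    refine h1.contDiffAt.congr_of_eventuallyEq ?_
    filter_upwards [hs x] with y hy
    exact tsum_eq_sum fun i hi => by rw [hy i hi, zero_smul]
  · have hy := (hs x).self_of_nhds
    have h1 : ∑' i, a i x • B i = ∑ i ∈ s x, a i x • B i :=
      tsum_eq_sum fun i hi => by rw [hy i hi, zero_smul]
    have h2 : ∑' i, a i x * b i z = ∑ i ∈ s x, a i x * b i z :=
      tsum_eq_sum fun i hi => by rw [hy i hi, zero_mul]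
    show sm0_ev z (∑' i, a i x • B i) = ∑' i, a i x * b i z
    rw [h1, h2, map_sum]
    exact Finset.sum_congr rfl fun i _ => by rw [map_smul, sm0_ev_apply, hB, smul_eq_mul]

/-- a fixed probability weight defines a continuous linear form on `Bd G` -/
theorem SmF.contDiff_Ex (hf : SmF f) {μ : G → ℝ} (hμ : Prob μ) :
    ContDiff ℝ ∞ fun x => Ex μ (f x) := by
  obtain ⟨F, hF, h⟩ := hf
  let T : Bd G →ₗ[ℝ] ℝ :=
    { toFun := fun B => Ex μ fun z : G => B z
      map_add' := fun B B' => ex_add (hμ.summable_mul (sm0_bdd B)) (hμ.summable_mul (sm0_bdd B'))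
      map_smul' := fun c B => ex_const_mul (μ := μ) (f := fun z : G => B z) c }
  have hT : ∀ B, ‖T B‖ ≤ 1 * ‖B‖ := fun B => by
    rw [one_mul]
    exact hμ.abs_ex_le (sm0_abs_le B)
  have h1 : (fun x => Ex μ (f x)) = fun x => T.mkContinuous 1 hT (F x) := funext fun x => by
    show Ex μ (f x) = Ex μ fun z : G => F x z
    simp only [h]
  rw [h1]
  exact (T.mkContinuous 1 hT).contDiff.comp hF

end SmF

end Crest.Agent.R192
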