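import Crest.Agent.R192.Sm
import Crest.Agent.R192.Param
import Crest.Agent.R192.Ker2

/-! Row 192: time integrals of smooth families; convolution and Gibbs averages of fields. -/

set_option autoImplicit false
set_option linter.unusedSectionVars false
set_option linter.unusedVariables false

open scoped ContDiff Matrix Topology
open MeasureTheory

noncomputable section

namespace Crest.Agent.R192

section
variable {P F : Type} [NormedAddCommGroup P] [NormedSpace ℝ P] [FiniteDimensional ℝ P]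
  [NormedAddCommGroup F] [NormedSpace ℝ F] [CompleteSpace F]

theorem smint0_int01_eq (g : ℝ → F) : ∫ s in (0 : ℝ)..1, g s
    = ∫ s, (Set.Ioc (0 : ℝ) 1).indicator (fun _ => (1 : ℝ)) s • g s := by
  rw [intervalIntegral.integral_of_le zero_le_one, ← integral_indicator measurableSet_Ioc]
  refine integral_congr_ae (Filter.Eventually.of_forall fun s => ?_)
  by_cases hs : s ∈ Set.Ioc (0 : ℝ) 1 <;> simp [hs]

theorem smint0_fderiv_left {α : Type} [NormedAddCommGroup α] [NormedSpace ℝ α] {Ψ : P × α → F}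
    (hΨ : ContDiff ℝ ∞ Ψ) (x : P) (a : α) (v : P) :
    fderiv ℝ (fun y => Ψ (y, a)) x v = fderiv ℝ Ψ (x, a) (v, 0) := by
  have h1 : HasFDerivAt (fun y : P => Ψ (y, a))
      ((fderiv ℝ Ψ (x, a)).comp (ContinuousLinearMap.inl ℝ P α)) x :=
    (hΨ.differentiable (by simp) (x, a)).hasFDerivAt.comp x (hasFDerivAt_prodMk_left x a)
  rw [h1.fderiv]
  simp

theorem smint0_fderiv_right {α : Type} [NormedAddCommGroup α] [NormedSpace ℝ α] {Ψ : α × P → F}
    (hΨ : ContDiff ℝ ∞ Ψ) (x : P) (a : α) (v : P) :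
    fderiv ℝ (fun y => Ψ (a, y)) x v = fderiv ℝ Ψ (a, x) (0, v) := by
  have h1 : HasFDerivAt (fun y : P => Ψ (a, y))
      ((fderiv ℝ Ψ (a, x)).comp (ContinuousLinearMap.inr ℝ α P)) x :=
    (hΨ.differentiable (by simp) (a, x)).hasFDerivAt.comp x (hasFDerivAt_prodMk_right a x)
  rw [h1.fderiv]
  simp

theorem smint0_param {Φ : ℝ × P → F} (hΦ : ContDiff ℝ ∞ Φ) :
    ContDiff ℝ ∞ (fun x : P =>
      ∫ s, (Set.Ioc (0 : ℝ) 1).indicator (fun _ => (1 : ℝ)) s • Φ (s, x)) ∧
      ∀ x v, fderiv ℝ (fun x : P =>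
        ∫ s, (Set.Ioc (0 : ℝ) 1).indicator (fun _ => (1 : ℝ)) s • Φ (s, x)) x v
        = ∫ s, (Set.Ioc (0 : ℝ) 1).indicator (fun _ => (1 : ℝ)) s •
          fderiv ℝ (fun y : P × ℝ => Φ (y.2, y.1)) (x, s) (v, 0) := by
  have h1 : ContDiff ℝ ∞ fun y : P × ℝ => Φ (y.2, y.1) :=
    hΦ.comp (contDiff_snd.prodMk contDiff_fst)
  refine param_scalar (volume : Measure ℝ) (isCompact_Icc (a := (0 : ℝ)) (b := 1)) ?_ ?_ h1
  · exact (integrable_indicator_iff measurableSet_Ioc).2 (integrableOn_const (by simp))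
  · refine Filter.Eventually.of_forall fun s hs => ?_
    exact Set.indicator_of_notMem (fun h => hs (Set.Ioc_subset_Icc_self h)) _

/-- `param_scalar` with the indicator of `Ioc 0 1` and `Φ ∘ swap` -/
theorem contDiff_int01 {Φ : ℝ × P → F} (hΦ : ContDiff ℝ ∞ Φ) :
    ContDiff ℝ ∞ fun x => ∫ s in (0 : ℝ)..1, Φ (s, x) := by
  simp only [smint0_int01_eq]
  exact (smint0_param hΦ).1

theorem fderiv_int01 {Φ : ℝ × P → F} (hΦ : ContDiff ℝ ∞ Φ) (x c : P) :
    fderiv ℝ (fun x => ∫ s in (0 : ℝ)..1, Φ (s, x)) x c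
      = ∫ s in (0 : ℝ)..1, fderiv ℝ (fun x => Φ (s, x)) x c := by
  simp only [smint0_int01_eq]
  rw [(smint0_param hΦ).2 x c]
  refine integral_congr_ae (Filter.Eventually.of_forall fun s => ?_)
  have h1 : ContDiff ℝ ∞ fun y : P × ℝ => Φ (y.2, y.1) :=
    hΦ.comp (contDiff_snd.prodMk contDiff_fst)
  have h2 := smint0_fderiv_left h1 x s c
  simp only at h2 ⊢
  rw [h2]

end

variable {G : Type} {p : ℕ}

theorem smint0_dF_eq {f : ℝ × Tm p → G → ℝ} {z : G} (hf : ContDiff ℝ ∞ fun q => f q z)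
    (q : ℝ × Tm p) (c : Tm p) :
    dF f q c z = fderiv ℝ (fun x => f x z) q ((0, c) : ℝ × Tm p) :=
  smint0_fderiv_right hf q.2 q.1 c

theorem smint0_dv {f : ℝ × Tm p → G → ℝ} {l : Fin (p + 1)}
    (hf : SmF fun q => dF f q (Pi.single l 1)) (r ξ : Tm p) :
    SmF fun s z => dv f r ξ s z l := by
  have h1 := hf.comp (T := fun s : ℝ => ((s, ξ) : ℝ × Tm p)) (contDiff_id.prodMk contDiff_const)
  have h2 : SmF fun (_ : ℝ) (_ : G) => (r l)⁻¹ := SmF.scalar contDiff_const
  have h3 := h1.mul h2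
  simpa only [dv, div_eq_mul_inv] using h3

theorem smint0_kb_ae {Q : ℝ → ℝ} {h w : ℝ} (hQ : KB Q h w) :
    ∀ᵐ x ∂(volume : Measure ℝ), x ∉ Set.Icc (-w) w → Q x = 0 := by
  refine Filter.Eventually.of_forall fun x hx => hQ.2 x ?_
  by_contra hc
  exact hx (abs_le.1 (not_lt.1 hc))

theorem smint0_kb_hcs {Q : ℝ → ℝ} {h w : ℝ} (hQ : KB Q h w) : HasCompactSupport Q := by
  refine HasCompactSupport.intro (isCompact_Icc (a := -w) (b := w)) fun x hx => hQ.2 x ?_
  by_contra hc
  exact hx (abs_le.1 (not_lt.1 hc))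

theorem SmF.dF {f : ℝ × Tm p → G → ℝ} (hf : SmF f) (c : Tm p) : SmF fun q => dF f q c := by
  have h1 := hf.fderiv ((0, c) : ℝ × Tm p)
  have h2 : (fun q => R192.dF f q c)
      = fun x z => _root_.fderiv ℝ (fun x => f x z) x ((0, c) : ℝ × Tm p) := by
    funext q z
    exact smint0_dF_eq (hf.contDiff_apply z) q c
  rw [h2]
  exact h1

theorem SmP.dF [Nonempty G] {f : ℝ × Tm p → G → ℝ} (hf : SmP f) (c : Tm p) :
    SmF fun q => dF f q c := by
  have h1 := hf.fderiv ((0, c) : ℝ × Tm p)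
  have h2 : (fun q => R192.dF f q c)
      = fun x z => _root_.fderiv ℝ (fun x => f x z) x ((0, c) : ℝ × Tm p) := by
    funext q z
    exact smint0_dF_eq (hf.contDiff_apply z) q c
  rw [h2]
  exact h1

theorem SmF.dv {f : ℝ × Tm p → G → ℝ} (hf : SmF f) (r ξ : Tm p) (l : Fin (p + 1)) :
    SmF fun s z => dv f r ξ s z l := by
  exact smint0_dv (hf.dF _) r ξ

theorem SmP.dv [Nonempty G] {f : ℝ × Tm p → G → ℝ} (hf : SmP f) (r ξ : Tm p) (l : Fin (p + 1)) :
    SmF fun s z => dv f r ξ s z l := by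
  exact smint0_dv (hf.dF _) r ξ

/-- linearity of the derivative in the direction -/
theorem dotProduct_dv (f : ℝ × Tm p → G → ℝ) (r ξ c : Tm p) (s : ℝ) (z : G) :
    c ⬝ᵥ dv f r ξ s z = dF f (s, ξ) (fun l => c l / r l) z := by
  have h1 : (fun l => c l / r l : Tm p) = ∑ l, (c l / r l) • (Pi.single l 1 : Tm p) := by
    funext i
    simp [Finset.sum_apply, Pi.single_apply]
  rw [h1]
  simp only [dF, dv, dotProduct, map_sum, map_smul, smul_eq_mul]
  refine Finset.sum_congr rfl fun l _ => ?_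
  ring

theorem dF_add {f k : ℝ × Tm p → G → ℝ} {z : G} (hf : ContDiff ℝ ∞ fun q => f q z)
    (hk : ContDiff ℝ ∞ fun q => k q z) (q : ℝ × Tm p) (c : Tm p) :
    dF (fun q z => f q z + k q z) q c z = dF f q c z + dF k q c z := by
  have h1 : DifferentiableAt ℝ (fun ξ => f (q.1, ξ) z) q.2 :=
    ((hf.comp (contDiff_const.prodMk contDiff_id)).differentiable (by simp)) q.2
  have h2 : DifferentiableAt ℝ (fun ξ => k (q.1, ξ) z) q.2 :=
    ((hk.comp (contDiff_const.prodMk contDiff_id)).differentiable (by simp)) q.2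
  simp only [dF]
  rw [fderiv_fun_add h1 h2]
  rfl

variable [Group G] {V : Fam G} {L : Loop G p} {Q : ℝ → ℝ} {h w : ℝ}

/-- `param_scalar` with values in `Bd G`; evaluation commutes with the Bochner integral -/
theorem SmF.cv (hV : SmF (V p L)) (hQ : KB Q h w) (hc : Continuous Q) : SmF (cv Q V p L) := by
  obtain ⟨F, hF, hFz⟩ := hV
  have hΦ : ContDiff ℝ ∞ fun y : (ℝ × Tm p) × ℝ => F (y.1.1 - y.2, y.1.2) :=
    hF.comp ((contDiff_fst.fst.sub contDiff_snd).prodMk contDiff_fst.snd)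
  have h1 := (param_scalar (volume : Measure ℝ) (isCompact_Icc (a := -w) (b := w))
    (hQ.integrable hc) (smint0_kb_ae hQ) hΦ).1
  refine ⟨_, h1, fun q z => ?_⟩
  have hint : Integrable fun v : ℝ => Q v • F (q.1 - v, q.2) := by
    refine Continuous.integrable_of_hasCompactSupport
      (hc.smul (hF.continuous.comp (by fun_prop))) ?_
    exact (smint0_kb_hcs hQ).smul_right
  have h2 := (BoundedContinuousFunction.evalCLM ℝ (α := Dc G) (β := ℝ) z).integral_comp_comm hint
  refine Eq.trans h2.symm ?_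
  refine integral_congr_ae (Filter.Eventually.of_forall fun v => ?_)
  exact congrArg (fun t => Q v * t) (hFz (q.1 - v, q.2) z)

theorem dF_cv (hV : SmF (V p L)) (hQ : KB Q h w) (hc : Continuous Q) (q : ℝ × Tm p) (c : Tm p)
    (z : G) : dF (cv Q V p L) q c z = ∫ v, Q v * dF (V p L) (q.1 - v, q.2) c z := by
  have hz := hV.contDiff_apply z
  have hΦ : ContDiff ℝ ∞ fun y : Tm p × ℝ => V p L (q.1 - y.2, y.1) z :=
    hz.comp ((contDiff_const.sub contDiff_snd).prodMk contDiff_fst)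
  have h1 := (param_scalar (volume : Measure ℝ) (isCompact_Icc (a := -w) (b := w))
    (hQ.integrable hc) (smint0_kb_ae hQ) hΦ).2 q.2 c
  simp only [smul_eq_mul] at h1
  simp only [dF, cv]
  rw [h1]
  refine integral_congr_ae (Filter.Eventually.of_forall fun v => ?_)
  have h2 := smint0_fderiv_left hΦ q.2 v c
  simp only at h2 ⊢
  rw [h2]

/-- By shift invariance `cv Q V (s, ξ + t) = ∫ v, Q v * V (s - t - v, ξ)
= ∫ v, Q (v - t) * V (s - v, ξ)`; differentiate under the integral at `t = 0`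
(e.g. `param_loc`-style, or `hasDerivAt_integral_of_dominated_loc_of_deriv_le`). -/
theorem dF_cv_one (hE : Eqv V) (hV : SmF (V p L)) (hQ : KB Q h w) (hc : ContDiff ℝ ∞ Q)
    (q : ℝ × Tm p) (z : G) :
    dF (cv Q V p L) q (fun _ => 1) z = -cv (deriv Q) V p L q z := by
  rw [dF_cv hV hQ hc.continuous]
  have hz := hV.contDiff_apply z
  have hd : Differentiable ℝ fun q => V p L q z := hz.differentiable (by simp)
  have hD : ∀ v, HasDerivAt (fun v => V p L (q.1 - v, q.2) z)
      (dF (V p L) (q.1 - v, q.2) (fun _ => 1) z) v := by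
    intro v
    have h1 : HasDerivAt (fun t : ℝ => ((q.1 - v, fun l => q.2 l + (t - v)) : ℝ × Tm p))
        ((0, fun _ => 1) : ℝ × Tm p) v := by
      refine (hasDerivAt_const v _).prodMk ?_
      refine hasDerivAt_pi.2 fun l => ?_
      simpa using ((hasDerivAt_id v).sub_const v).const_add (q.2 l)
    have h2 : HasFDerivAt (fun q => V p L q z) (fderiv ℝ (fun q => V p L q z) (q.1 - v, q.2))
        ((fun t : ℝ => ((q.1 - v, fun l => q.2 l + (t - v)) : ℝ × Tm p)) v) := by
      simpa using (hd (q.1 - v, q.2)).hasFDerivAt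
    have h3 := h2.comp_hasDerivAt v h1
    rw [smint0_dF_eq hz]
    refine h3.congr_of_eventuallyEq (Filter.Eventually.of_forall fun t => ?_)
    have h4 := hE.shift p L (q.1 - t) q.2 (t - v) z
    have h5 : q.1 - t + (t - v) = q.1 - v := by ring
    rw [h5] at h4
    exact h4.symm
  have hQd : ∀ v, HasDerivAt Q (deriv Q v) v := fun v =>
    (hc.differentiable (by simp) v).hasDerivAt
  have hVc : Continuous fun v : ℝ => V p L (q.1 - v, q.2) z :=
    hz.continuous.comp (by fun_prop)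
  have hDc : Continuous fun v : ℝ => dF (V p L) (q.1 - v, q.2) (fun _ => 1) z :=
    ((hV.dF fun _ => 1).contDiff_apply z).continuous.comp (by fun_prop)
  have hQ' : Continuous (deriv Q) := hc.continuous_deriv (by simp)
  have hs := smint0_kb_hcs hQ
  have key := integral_mul_deriv_eq_deriv_mul_of_integrable (u := Q) (u' := deriv Q)
    (v := fun v => V p L (q.1 - v, q.2) z)
    (v' := fun v => dF (V p L) (q.1 - v, q.2) (fun _ => 1) z)
    (fun v _ => hQd v) (fun v _ => hD v)
    ((hc.continuous.mul hDc).integrable_of_hasCompactSupport hs.mul_right)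
    ((hQ'.mul hVc).integrable_of_hasCompactSupport hs.deriv.mul_right)
    ((hc.continuous.mul hVc).integrable_of_hasCompactSupport hs.mul_right)
  exact key

theorem cv_sub {Q' : ℝ → ℝ} {h' w' : ℝ} (hV : SmF (V p L)) (hQ : KB Q h w) (hc : Continuous Q)
    (hQ' : KB Q' h' w') (hc' : Continuous Q') (q : ℝ × Tm p) (z : G) :
    cv (fun u => Q u - Q' u) V p L q z = cv Q V p L q z - cv Q' V p L q z := by
  have hz := hV.contDiff_apply z
  have hVc : Continuous fun v : ℝ => V p L (q.1 - v, q.2) z :=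
    hz.continuous.comp (by fun_prop)
  have h1 : Integrable fun v : ℝ => Q v * V p L (q.1 - v, q.2) z :=
    (hc.mul hVc).integrable_of_hasCompactSupport (smint0_kb_hcs hQ).mul_right
  have h2 : Integrable fun v : ℝ => Q' v * V p L (q.1 - v, q.2) z :=
    (hc'.mul hVc).integrable_of_hasCompactSupport (smint0_kb_hcs hQ').mul_right
  simp only [cv, sub_mul]
  exact integral_sub h1 h2

end Crest.Agent.R192
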