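import Crest.Agent.R192.Tim
import Crest.Agent.R192.Forms

/-! Row 192: Stokes' formula on the ordered simplex. -/

set_option autoImplicit false
set_option linter.unusedSectionVars false
set_option linter.unusedVariables false

open scoped ContDiff Matrix Topology
open MeasureTheory

noncomputable section

namespace Crest.Agent.R192

variable {p : ℕ}

theorem measurableSet_So : MeasurableSet (So p) := by
  exact isOpen_So.measurableSet

theorem integrableOn_So {f : (Fin p → ℝ) → ℝ} (hf : Continuous f) : IntegrableOn f (So p) := by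
  exact (hf.continuousOn.integrableOn_compact isCompact_Icc).mono_set So_subset

theorem stokes0_mem_iff {u : Fin p → ℝ} : u ∈ So p ↔ StrictMono (extT (gz u)) := by
  rw [Fin.strictMono_iff_lt_succ]
  exact forall_congr' fun l => by rw [extT_castSucc]; rfl

theorem stokes0_gz (j : Fin (p + 1)) (t : ℝ) (u : Fin p → ℝ) :
    gz (Fin.insertNth (α := fun _ => ℝ) j t u) =
      Fin.insertNth (α := fun _ => ℝ) j.succ t (gz u) :=
  (Fin.insertNth_succ_cons j t 0 u).symm

theorem stokes0_snoc (q : Fin (p + 1)) (t a : ℝ) (u : Fin p → ℝ) :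
    Fin.insertNth (α := fun _ => ℝ) q.castSucc t (Fin.snoc (α := fun _ => ℝ) u a) =
      Fin.snoc (α := fun _ => ℝ) (Fin.insertNth (α := fun _ => ℝ) q t u) a := by
  refine Fin.insertNth_eq_iff.2 ⟨by simp, funext fun k => ?_⟩
  unfold Fin.removeNth
  induction k using Fin.lastCases with
  | last => rw [Fin.succAbove_ne_last_last (Fin.castSucc_ne_last q), Fin.snoc_last, Fin.snoc_last]
  | cast k =>
    rw [Fin.castSucc_succAbove_castSucc, Fin.snoc_castSucc, Fin.snoc_castSucc,
      Fin.insertNth_apply_succAbove]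

theorem stokes0_extT (j : Fin (p + 1)) (t : ℝ) (u : Fin p → ℝ) :
    extT (gz (Fin.insertNth (α := fun _ => ℝ) j t u)) =
      Fin.insertNth (α := fun _ => ℝ) j.succ.castSucc t (extT (gz u)) := by
  unfold extT
  rw [gz_zero, gz_zero, stokes0_gz, stokes0_snoc]

theorem stokes0_insertNth_mem (j : Fin (p + 1)) (t : ℝ) (u : Fin p → ℝ) :
    Fin.insertNth (α := fun _ => ℝ) j t u ∈ So (p + 1) ↔
      u ∈ So p ∧ t ∈ Set.Ioo (gz u j) (nxt (gz u) j) := by
  rw [stokes0_mem_iff, stokes0_mem_iff, stokes0_extT]
  constructor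
  · intro h
    obtain ⟨h1, h2, h3⟩ := (Fin.strictMono_insertNth_iff _ _ _).1 h
    refine ⟨h1, ?_, h3 j.succ le_rfl⟩
    rw [← extT_castSucc (gz u) j]
    exact h2 j.castSucc (Fin.castSucc_lt_castSucc_iff.2 Fin.castSucc_lt_succ)
  · rintro ⟨h1, h2, h3⟩
    exact Fin.strictMono_insertNth h1 j t (by rwa [extT_castSucc]) h3

theorem stokes0_dup (j : Fin (p + 1)) (ξ : Tm p) :
    Fin.insertNth (α := fun _ => ℝ) j.castSucc (ξ j) ξ =
      Fin.insertNth (α := fun _ => ℝ) j.succ (ξ j) ξ := by
  refine Fin.insertNth_eq_iff.2 ⟨?_, funext fun k => ?_⟩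
  · rw [← Fin.succAbove_succ_self, Fin.insertNth_apply_succAbove]
  · unfold Fin.removeNth
    rcases lt_trichotomy k j with h | rfl | h
    · rw [Fin.succAbove_castSucc_of_lt _ _ h, ← Fin.succAbove_succ_of_le _ _ h.le,
        Fin.insertNth_apply_succAbove]
    · rw [Fin.succAbove_castSucc_self, Fin.insertNth_apply_same]
    · rw [Fin.succAbove_castSucc_of_le _ _ h.le, ← Fin.succAbove_succ_of_lt _ _ h,
        Fin.insertNth_apply_succAbove]

/-- Fubini in the coordinate `j` (`MeasurableEquiv.piFinSuccAbove`,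
`volume_preserving_piFinSuccAbove`): `Fin.insertNth j t u ∈ So (p + 1)` iff `u ∈ So p` and
`gz u j < t < nxt (gz u) j`. -/
theorem integral_So_succ {f : (Fin (p + 1) → ℝ) → ℝ} (hf : Continuous f) (j : Fin (p + 1)) :
    ∫ x in So (p + 1), f x
      = ∫ u in So p, ∫ t in gz u j..nxt (gz u) j, f (Fin.insertNth (α := fun _ => ℝ) j t u) := by
  have hm := (volume_preserving_piFinSuccAbove (fun _ : Fin (p + 1) => ℝ) j).symm
  have hi : Integrable ((So (p + 1)).indicator f) :=
    (integrable_indicator_iff measurableSet_So).2 (integrableOn_So hf)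
  rw [← integral_indicator measurableSet_So, ← integral_indicator measurableSet_So,
    ← hm.integral_comp', Measure.volume_eq_prod]
  refine (integral_prod_symm _ (hm.integrable_comp_of_integrable hi)).trans ?_
  refine integral_congr_ae (Filter.Eventually.of_forall fun u => ?_)
  change ∫ t, (So (p + 1)).indicator f (Fin.insertNth (α := fun _ => ℝ) j t u) = _
  by_cases hu : u ∈ So p
  · rw [Set.indicator_of_mem hu, intervalIntegral.integral_of_le (hu j).le,
      integral_Ioc_eq_integral_Ioo, ← integral_indicator measurableSet_Ioo]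
    refine integral_congr_ae (Filter.Eventually.of_forall fun t => ?_)
    by_cases ht : t ∈ Set.Ioo (gz u j) (nxt (gz u) j)
    · simp only [Set.indicator_of_mem ht,
        Set.indicator_of_mem ((stokes0_insertNth_mem j t u).2 ⟨hu, ht⟩)]
    · simp only [Set.indicator_of_notMem ht,
        Set.indicator_of_notMem fun h => ht ((stokes0_insertNth_mem j t u).1 h).2]
  · rw [Set.indicator_of_notMem hu]
    simp only [Set.indicator_of_notMem fun h => hu ((stokes0_insertNth_mem j _ u).1 h).1,
      integral_zero]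

theorem δm_castSucc (j : Fin (p + 1)) (u : Fin p → ℝ) :
    δm j.castSucc u = Fin.insertNth (α := fun _ => ℝ) j (gz u j) u := by
  funext k
  rw [δm, faceT, extT_castSucc, stokes0_dup, ← stokes0_gz, gz_succ]

theorem δm_succ (j : Fin (p + 1)) (u : Fin p → ℝ) :
    δm j.succ u = Fin.insertNth (α := fun _ => ℝ) j (nxt (gz u) j) u := by
  funext k
  rw [δm, faceT, ← stokes0_gz, gz_succ]
  rfl

theorem stokes0_gap_pow (p m : ℕ) :
    ∫ u in So p, gap (Fin.last p) u ^ m = m.factorial / (p + m).factorial := by
  induction p generalizing m with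
  | zero =>
    have h1 : So 0 = Set.univ := Set.eq_univ_of_forall fun u l => by
      rw [Fin.eq_zero l, gz_zero]
      change 0 < nxt (gz u) (Fin.last 0)
      rw [nxt_last, gz_zero]
      norm_num
    have h2 : ∀ u : Fin 0 → ℝ, gap (Fin.last 0) u = 1 := fun u => by
      rw [gap, nxt_last]
      change gz u 0 + 1 - gz u 0 = 1
      ring
    have h3 : (m.factorial : ℝ) ≠ 0 := by exact_mod_cast m.factorial_ne_zero
    simp only [h2]
    simp [h1, h3, volume_pi, Measure.real]
  | succ p ih =>
    rw [integral_So_succ (f := fun u => gap (Fin.last (p + 1)) u ^ m)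
      ((contDiff_gap _).continuous.pow m) (Fin.last p)]
    have h1 : ∀ u : Fin p → ℝ, ∫ t in gz u (Fin.last p)..nxt (gz u) (Fin.last p),
        gap (Fin.last (p + 1)) (Fin.insertNth (α := fun _ => ℝ) (Fin.last p) t u) ^ m =
        gap (Fin.last p) u ^ (m + 1) / (m + 1) := fun u => by
      have h2 : ∀ t : ℝ, gap (Fin.last (p + 1))
          (Fin.insertNth (α := fun _ => ℝ) (Fin.last p) t u) = 1 - t := fun t => by
        rw [gap, nxt_last, gz_zero, ← Fin.succ_last, gz_succ, Fin.insertNth_apply_same, zero_add]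
      simp only [h2]
      rw [intervalIntegral.integral_comp_sub_left (fun x : ℝ => x ^ m), integral_pow, gap,
        nxt_last, gz_zero]
      simp
    simp only [h1]
    rw [integral_div, ih, show p + (m + 1) = p + 1 + m by ring, Nat.factorial_succ m]
    push_cast
    field_simp

theorem stokes0_lt_top : volume (So p) < ⊤ :=
  (measure_mono So_subset).trans_lt isCompact_Icc.measure_lt_top

theorem stokes0_cont {η : (Fin p → ℝ) → Fm (Fin p → ℝ) p} (h : Continuous η) :
    Continuous fun u => η u fun j => Pi.single j 1 :=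
  (continuous_eval_const _).comp h

/-- e.g. by induction `∫ u in So p, (gap (last) u) ^ m = m! / (p + m)!` using
`integral_So_succ` with `j = last` -/
theorem volume_So : (volume (So p)).toReal = 1 / p.factorial := by
  have := stokes0_gap_pow p 0
  simpa [Measure.real] using this

theorem abs_Ip_le {η : (Fin p → ℝ) → Fm (Fin p → ℝ) p} {C : ℝ}
    (h : ∀ u ∈ So p, |η u fun j => Pi.single j 1| ≤ C) : |Ip η| ≤ C / p.factorial := by
  have := norm_setIntegral_le_of_norm_le_const (μ := volume) stokes0_lt_top
    (f := fun u => η u fun j => Pi.single j 1) (C := C) h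
  rwa [Measure.real, volume_So, mul_one_div] at this

theorem Ip_congr {η η' : (Fin p → ℝ) → Fm (Fin p → ℝ) p} (h : ∀ u ∈ So p, η u = η' u) :
    Ip η = Ip η' := by
  exact setIntegral_congr_fun measurableSet_So fun u hu => by simp only [h u hu]

theorem Ip_sub {η η' : (Fin p → ℝ) → Fm (Fin p → ℝ) p} (h : Continuous η) (h' : Continuous η') :
    Ip (fun u => η u - η' u) = Ip η - Ip η' := by
  exact integral_sub (integrableOn_So (stokes0_cont h)) (integrableOn_So (stokes0_cont h'))

theorem Ip_sum {ι : Type} (s : Finset ι) {η : ι → (Fin p → ℝ) → Fm (Fin p → ℝ) p}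
    (h : ∀ i ∈ s, Continuous (η i)) : Ip (fun u => ∑ i ∈ s, η i u) = ∑ i ∈ s, Ip (η i) := by
  unfold Ip
  rw [← integral_finsetSum s fun i hi => integrableOn_So (stokes0_cont (h i hi))]
  simp only [ContinuousAlternatingMap.sum_apply]

end Crest.Agent.R192
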