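import Crest.Agent.R192.Lin

/-! Row 192: singular value decomposition and the frame lemma. -/

set_option autoImplicit false
set_option linter.unusedSectionVars false
set_option linter.unusedVariables false

open scoped ContDiff Matrix Topology
open MeasureTheory

noncomputable section

namespace Crest.Agent.R192

variable {ι : Type} [Fintype ι] [DecidableEq ι]

theorem svd_eig {A : Matrix ι ι ℝ} (hA : A.IsHermitian) :
    ∃ (v : ι → ι → ℝ) (lam : ι → ℝ), (∀ p q, v p ⬝ᵥ v q = if p = q then 1 else 0) ∧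
      (∑ q, Matrix.vecMulVec (v q) (v q) = 1) ∧ (∀ q, A *ᵥ v q = lam q • v q) ∧
      A.rank = (Finset.univ.filter fun q => lam q ≠ 0).card ∧ A.trace = ∑ q, lam q := by
  have h1 : (hA.eigenvectorUnitary : Matrix ι ι ℝ) * star (hA.eigenvectorUnitary : Matrix ι ι ℝ)
      = 1 := Unitary.coe_mul_star_self _
  have h2 : star (hA.eigenvectorUnitary : Matrix ι ι ℝ) * (hA.eigenvectorUnitary : Matrix ι ι ℝ)
      = 1 := Unitary.coe_star_mul_self _
  refine ⟨fun q => ⇑(hA.eigenvectorBasis q), hA.eigenvalues, ?_, ?_,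
    hA.mulVec_eigenvectorBasis, ?_, ?_⟩
  · intro p q
    have := congrFun (congrFun h2 p) q
    simpa [Matrix.mul_apply, Matrix.one_apply, dotProduct] using this
  · ext i j
    have := congrFun (congrFun h1 i) j
    simpa [Matrix.mul_apply, Matrix.sum_apply, Matrix.vecMulVec_apply] using this
  · rw [hA.rank_eq_card_non_zero_eigs, Fintype.card_subtype]
  · simpa using hA.trace_eq_sum_eigenvalues

theorem svd_expand {v : ι → ι → ℝ} (h : ∑ q, Matrix.vecMulVec (v q) (v q) = 1) (c : ι → ℝ) :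
    c = ∑ q, (v q ⬝ᵥ c) • v q := by
  have : (∑ q, Matrix.vecMulVec (v q) (v q)) *ᵥ c = c := by rw [h, Matrix.one_mulVec]
  rw [Matrix.sum_mulVec] at this
  conv_lhs => rw [← this]
  refine Finset.sum_congr rfl fun q _ => ?_
  ext i
  simp [Matrix.mulVec, dotProduct, Matrix.vecMulVec_apply, Finset.mul_sum, mul_comm, mul_left_comm]

theorem svd_parseval {v : ι → ι → ℝ} (h : ∑ q, Matrix.vecMulVec (v q) (v q) = 1) (c : ι → ℝ) :
    ∑ q, (v q ⬝ᵥ c) ^ 2 = c ⬝ᵥ c := by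
  conv_rhs => rw [svd_expand h c]
  conv_rhs => enter [2]; rw [← svd_expand h c]
  rw [sum_dotProduct]
  refine Finset.sum_congr rfl fun q _ => ?_
  rw [smul_dotProduct, smul_eq_mul, sq]

theorem svd_dot_self_nonneg (c : ι → ℝ) : 0 ≤ c ⬝ᵥ c :=
  Finset.sum_nonneg fun i _ => mul_self_nonneg _

theorem svd_bessel {κ : Type} [Fintype κ] [DecidableEq κ] {u : κ → ι → ℝ}
    (h0 : ∀ p q, p ≠ q → u p ⬝ᵥ u q = 0) (h1 : ∀ q, u q = 0 ∨ u q ⬝ᵥ u q = 1) : Bes u := by
  intro c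
  set w : ι → ℝ := ∑ q, (u q ⬝ᵥ c) • u q with hw
  have hcw : w ⬝ᵥ c = ∑ q, (u q ⬝ᵥ c) ^ 2 := by
    rw [hw, sum_dotProduct]
    refine Finset.sum_congr rfl fun q _ => ?_
    rw [smul_dotProduct, smul_eq_mul, sq]
  have huw : ∀ p, u p ⬝ᵥ w = u p ⬝ᵥ c := by
    intro p
    rw [hw, dotProduct_sum, Finset.sum_eq_single p]
    · rcases h1 p with h | h
      · simp [h]
      · rw [dotProduct_smul, h, smul_eq_mul, mul_one]
    · intro q _ hq
      rw [dotProduct_smul, h0 p q (Ne.symm hq), smul_zero]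
    · simp
  have hww : w ⬝ᵥ w = ∑ q, (u q ⬝ᵥ c) ^ 2 := by
    conv_lhs => enter [1]; rw [hw]
    rw [sum_dotProduct]
    refine Finset.sum_congr rfl fun q _ => ?_
    rw [smul_dotProduct, huw, smul_eq_mul, sq]
  have hn := svd_dot_self_nonneg (c - w)
  rw [sub_dotProduct, dotProduct_sub, dotProduct_sub, dotProduct_comm c w, hcw, hww] at hn
  linarith

theorem svd_nrm_eq_zero {v : ι → ℝ} (h : nrm v = 0) : v = 0 := by
  have := nrm_sq v
  rw [h] at this
  exact dotProduct_self_eq_zero.mp (by linarith)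

/-- Singular value decomposition.  Let `v q` be an orthonormal eigenbasis of `Mᵀ * M`
(`Matrix.IsHermitian.eigenvectorBasis`).  Then `M = ∑ q, vecMulVec (M *ᵥ v q) (v q)`, the vectors
`M *ᵥ v q` are pairwise orthogonal, so `u q = (nrm (M v q))⁻¹ • M v q` is a Bessel family with
`u q ⬝ᵥ M v q = nrm (M v q)`, and the nonzero `M v q` are linearly independent in the range. -/
theorem exists_svd {M : Matrix ι ι ℝ} {ν : ℝ} (h : NucLe M ν) :
    ∃ b a : ι → ι → ℝ, M = ∑ q, Matrix.vecMulVec (b q) (a q) ∧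
      ∑ q, nrm (b q) * nrm (a q) ≤ ν ∧
      (Finset.univ.filter fun q => nrm (b q) * nrm (a q) ≠ 0).card ≤ M.rank := by
  have hH : (Mᵀ * M).IsHermitian := by
    simpa using Matrix.isHermitian_conjTranspose_mul_self M
  obtain ⟨v, lam, hon, hres, heig, hrk, -⟩ := svd_eig hH
  have hdot : ∀ p q, (M *ᵥ v p) ⬝ᵥ (M *ᵥ v q) = lam q * (if p = q then 1 else 0) := by
    intro p q
    rw [← hon p q, ← smul_eq_mul, ← dotProduct_smul, ← heig q, ← Matrix.mulVec_mulVec,
      Matrix.dotProduct_mulVec (v p), Matrix.vecMul_transpose]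
  have hnv : ∀ q, nrm (v q) = 1 := by
    intro q
    have h1 := nrm_sq (v q)
    rw [hon q q, if_pos rfl] at h1
    have h2 := nrm_nonneg (v q)
    nlinarith
  refine ⟨fun q => M *ᵥ v q, v, ?_, ?_, ?_⟩
  · conv_lhs => rw [← Matrix.mul_one M, ← hres, Matrix.mul_sum]
    refine Finset.sum_congr rfl fun q _ => ?_
    rw [Matrix.mul_vecMulVec]
  · have hu : Bes (fun q => (nrm (M *ᵥ v q))⁻¹ • (M *ᵥ v q)) := by
      refine svd_bessel ?_ ?_
      · intro p q hpq
        simp only [smul_dotProduct, dotProduct_smul, hdot p q, if_neg hpq, mul_zero, smul_zero]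
      · intro q
        by_cases h0 : nrm (M *ᵥ v q) = 0
        · left
          simp [h0]
        · right
          simp only [smul_dotProduct, dotProduct_smul, smul_eq_mul, ← nrm_sq]
          field_simp
    have hv : Bes v := fun c => (svd_parseval hres c).le
    have := h ι _ _ hu hv
    refine le_trans (le_of_eq ?_) this
    refine Finset.sum_congr rfl fun q _ => ?_
    simp only [smul_dotProduct, smul_eq_mul, ← nrm_sq, hnv q, mul_one]
    by_cases h0 : nrm (M *ᵥ v q) = 0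
    · simp [h0]
    · field_simp
  · rw [← Matrix.rank_transpose_mul_self M, hrk]
    refine Finset.card_le_card fun q hq => ?_
    simp only [Finset.mem_filter, Finset.mem_univ, true_and] at hq ⊢
    intro h0
    apply hq
    have h1 := nrm_sq (M *ᵥ v q)
    rw [hdot q q, h0, zero_mul] at h1
    rw [pow_eq_zero_iff (two_ne_zero)] at h1
    rw [h1, zero_mul]

/-- `log (1 + x) ≤ x` -/
theorem NucLe.cost {M : Matrix ι ι ℝ} {ν ε : ℝ} (hε : 0 < ε) (h : NucLe M ν) :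
    CostLe ε M (ν / ε) := by
  obtain ⟨b, a, h1, h2, -⟩ := exists_svd h
  refine ⟨ι, inferInstance, b, a, h1, ?_⟩
  calc ∑ q, Real.log (1 + nrm (b q) * nrm (a q) / ε)
      ≤ ∑ q, nrm (b q) * nrm (a q) / ε := by
        refine Finset.sum_le_sum fun q _ => ?_
        have h0 : 0 ≤ nrm (b q) * nrm (a q) / ε :=
          div_nonneg (mul_nonneg (nrm_nonneg _) (nrm_nonneg _)) hε.le
        have := Real.log_le_sub_one_of_pos (x := 1 + nrm (b q) * nrm (a q) / ε) (by linarith)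
        linarith
    _ = (∑ q, nrm (b q) * nrm (a q)) / ε := by rw [Finset.sum_div]
    _ ≤ ν / ε := div_le_div_of_nonneg_right h2 hε.le

theorem svd_log_le {x lam : ℝ} (hx : 0 ≤ x) (hlam : 0 < lam) :
    Real.log (1 + x) ≤ lam + x / lam := by
  obtain ⟨s, hs, rfl⟩ : ∃ s : ℝ, 0 ≤ s ∧ x = s ^ 2 := ⟨√x, Real.sqrt_nonneg x, (Real.sq_sqrt hx).symm⟩
  have h1 : Real.log (1 + s ^ 2) ≤ Real.log ((1 + s) ^ 2) :=
    Real.log_le_log (by positivity) (by nlinarith)
  have h2 : Real.log ((1 + s) ^ 2) = 2 * Real.log (1 + s) := by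
    rw [Real.log_pow]; norm_num
  have h3 := Real.log_le_sub_one_of_pos (x := 1 + s) (by linarith)
  have h4 : 2 * s ≤ lam + s ^ 2 / lam := by
    have : lam + s ^ 2 / lam - 2 * s = (lam - s) ^ 2 / lam := by field_simp; ring
    have h5 : 0 ≤ (lam - s) ^ 2 / lam := by positivity
    linarith
  linarith

/-- `log (1 + x) ≤ 2 √x ≤ lam + x / lam` for the at most `rank M` nonzero terms -/
theorem NucLe.cost_rank {M : Matrix ι ι ℝ} {ν ε lam D : ℝ} (hε : 0 < ε) (hlam : 0 < lam)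
    (h : NucLe M ν) (hD : (M.rank : ℝ) ≤ D) : CostLe ε M (lam * D + ν / (ε * lam)) := by
  obtain ⟨b, a, h1, h2, h3⟩ := exists_svd h
  refine ⟨ι, inferInstance, b, a, h1, ?_⟩
  have h4 : ((Finset.univ.filter fun q => nrm (b q) * nrm (a q) ≠ 0).card : ℝ) ≤ D :=
    le_trans (by exact_mod_cast h3) hD
  calc ∑ q, Real.log (1 + nrm (b q) * nrm (a q) / ε)
      ≤ ∑ q, ((if nrm (b q) * nrm (a q) ≠ 0 then lam else 0)
          + nrm (b q) * nrm (a q) / (ε * lam)) := by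
        refine Finset.sum_le_sum fun q _ => ?_
        have h0 : 0 ≤ nrm (b q) * nrm (a q) / ε :=
          div_nonneg (mul_nonneg (nrm_nonneg _) (nrm_nonneg _)) hε.le
        split_ifs with hq
        · rw [← div_div]
          exact svd_log_le h0 hlam
        · rw [not_not] at hq
          simp [hq]
    _ = lam * (Finset.univ.filter fun q => nrm (b q) * nrm (a q) ≠ 0).card
          + (∑ q, nrm (b q) * nrm (a q)) / (ε * lam) := by
        rw [Finset.sum_add_distrib, Finset.sum_div, ← Finset.sum_filter, Finset.sum_const,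
          nsmul_eq_mul, mul_comm]
    _ ≤ lam * D + ν / (ε * lam) :=
        add_le_add (mul_le_mul_of_nonneg_left h4 hlam.le)
          (div_le_div_of_nonneg_right h2 (mul_pos hε hlam).le)

/-- Frame lemma.  Let `P` be the orthogonal projection onto the eigenvectors of `Γ` whose
eigenvalue exceeds `trace Γ / k`; there are fewer than `k + 1` of them. -/
theorem frame {Γ : Matrix ι ι ℝ} (hΓ : Γ.PosSemidef) {k : ℕ} (hk : 1 ≤ k) :
    ∃ P : Matrix ι ι ℝ, Pᵀ = P ∧ P * P = P ∧ P.rank ≤ k ∧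
      ∀ c : ι → ℝ, P *ᵥ c = 0 → c ⬝ᵥ Γ *ᵥ c ≤ Γ.trace / k * (c ⬝ᵥ c) := by
  obtain ⟨v, lam, hon, hres, heig, -, htr⟩ := svd_eig hΓ.isHermitian
  have hk0 : (0 : ℝ) < k := by exact_mod_cast hk
  have hlam : ∀ q, 0 ≤ lam q := by
    intro q
    have h1 := hΓ.dotProduct_mulVec_nonneg (v q)
    rw [heig q, star_trivial, dotProduct_smul, hon q q, if_pos rfl, smul_eq_mul, mul_one] at h1
    exact h1
  set t : ℝ := Γ.trace / k with ht
  have ht0 : 0 ≤ t := div_nonneg (htr ▸ Finset.sum_nonneg fun q _ => hlam q) hk0.le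
  set S : Finset ι := Finset.univ.filter fun q => t < lam q with hS
  have hScard : S.card ≤ k := by
    by_contra hcon
    rw [not_le] at hcon
    have hne : S.Nonempty := Finset.card_pos.mp (by omega)
    have h1 : ∑ q ∈ S, t < ∑ q ∈ S, lam q :=
      Finset.sum_lt_sum_of_nonempty hne fun q hq => (Finset.mem_filter.mp hq).2
    have h2 : ∑ q ∈ S, lam q ≤ ∑ q, lam q :=
      Finset.sum_le_sum_of_subset_of_nonneg (Finset.subset_univ _) fun q _ _ => hlam q
    rw [Finset.sum_const, nsmul_eq_mul] at h1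
    have h3 : (k : ℝ) * t = Γ.trace := by rw [ht]; field_simp
    have h4 : (k : ℝ) * t ≤ S.card * t :=
      mul_le_mul_of_nonneg_right (by exact_mod_cast hcon.le) ht0
    linarith
  let B : Matrix ι S ℝ := Matrix.of fun i q => v q i
  have hB : Bᵀ * B = 1 := by
    ext p q
    have h1 : (Bᵀ * B) p q = v p ⬝ᵥ v q := rfl
    rw [h1, hon, Matrix.one_apply]
    by_cases hpq : p = q
    · rw [if_pos hpq, if_pos (congrArg Subtype.val hpq)]
    · rw [if_neg hpq, if_neg (fun h => hpq (Subtype.ext h))]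
  refine ⟨B * Bᵀ, ?_, ?_, ?_, ?_⟩
  · rw [Matrix.transpose_mul, Matrix.transpose_transpose]
  · rw [Matrix.mul_assoc, ← Matrix.mul_assoc Bᵀ, hB, Matrix.one_mul]
  · refine le_trans (Matrix.rank_mul_le_left _ _) (le_trans (Matrix.rank_le_card_width _) ?_)
    simpa using hScard
  · intro c hc
    have h1 : Bᵀ *ᵥ c = 0 := by
      have : Bᵀ *ᵥ ((B * Bᵀ) *ᵥ c) = 0 := by rw [hc, Matrix.mulVec_zero]
      rwa [Matrix.mulVec_mulVec, ← Matrix.mul_assoc, hB, Matrix.one_mul] at this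
    have h2 : ∀ q ∈ S, v q ⬝ᵥ c = 0 := by
      intro q hq
      exact congrFun h1 ⟨q, hq⟩
    have h3 : c ⬝ᵥ Γ *ᵥ c = ∑ q, lam q * (v q ⬝ᵥ c) ^ 2 := by
      conv_lhs => enter [2]; rw [svd_expand hres c]
      rw [Matrix.mulVec_sum, dotProduct_sum]
      refine Finset.sum_congr rfl fun q _ => ?_
      rw [Matrix.mulVec_smul, heig q, dotProduct_smul, dotProduct_smul, dotProduct_comm c,
        smul_eq_mul, smul_eq_mul]
      ring
    rw [h3, ← svd_parseval hres c, Finset.mul_sum]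
    refine Finset.sum_le_sum fun q _ => ?_
    by_cases hq : q ∈ S
    · simp [h2 q hq]
    · have : lam q ≤ t := by simpa [hS] using hq
      exact mul_le_mul_of_nonneg_right this (sq_nonneg _)

theorem svd_proj_dot {P : Matrix ι ι ℝ} (h1 : Pᵀ = P) (h2 : P * P = P) (v : ι → ℝ) :
    (P *ᵥ v) ⬝ᵥ (P *ᵥ v) = (P *ᵥ v) ⬝ᵥ v := by
  rw [Matrix.dotProduct_mulVec (P *ᵥ v), ← Matrix.mulVec_transpose, h1, Matrix.mulVec_mulVec, h2]

theorem nrm_proj_le {P : Matrix ι ι ℝ} (h1 : Pᵀ = P) (h2 : P * P = P) (v : ι → ℝ) :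
    nrm (P *ᵥ v) ≤ nrm v := by
  have h3 := nrm_sq (P *ᵥ v)
  rw [svd_proj_dot h1 h2] at h3
  have h4 := abs_dotProduct_le (P *ᵥ v) v
  have h5 := le_abs_self ((P *ᵥ v) ⬝ᵥ v)
  have h6 := nrm_nonneg (P *ᵥ v)
  have h7 := nrm_nonneg v
  by_contra hcon
  rw [not_le] at hcon
  nlinarith

/-- with `c = v - P v` one has `c ⬝ᵥ v = c ⬝ᵥ c`, so `(c ⬝ᵥ c) ^ 2 ≤ κ β (c ⬝ᵥ c)` -/
theorem nrm_compl_le {P Γ : Matrix ι ι ℝ} (h1 : Pᵀ = P) (h2 : P * P = P) {β κ : ℝ} (hβ : 0 ≤ β)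
    (hκ : 0 ≤ κ) (hΓ : ∀ c : ι → ℝ, P *ᵥ c = 0 → c ⬝ᵥ Γ *ᵥ c ≤ β * (c ⬝ᵥ c)) {v : ι → ℝ}
    (hv : ∀ c, (c ⬝ᵥ v) ^ 2 ≤ κ * (c ⬝ᵥ Γ *ᵥ c)) : nrm ((1 - P) *ᵥ v) ≤ √β * √κ := by
  have hQ1 : (1 - P)ᵀ = 1 - P := by rw [Matrix.transpose_sub, Matrix.transpose_one, h1]
  have hQ2 : (1 - P) * (1 - P) = 1 - P := by
    rw [Matrix.sub_mul, Matrix.mul_sub, Matrix.mul_sub, h2]; simp
  have hPc : P *ᵥ ((1 - P) *ᵥ v) = 0 := by
    rw [Matrix.mulVec_mulVec, Matrix.mul_sub, h2, Matrix.mul_one, sub_self, Matrix.zero_mulVec]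
  set c := (1 - P) *ᵥ v with hc
  have h3 : c ⬝ᵥ c = c ⬝ᵥ v := svd_proj_dot hQ1 hQ2 v
  have h4 := hv c
  have h5 := mul_le_mul_of_nonneg_left (hΓ c hPc) hκ
  have h6 := svd_dot_self_nonneg c
  have h7 : c ⬝ᵥ c ≤ β * κ := by
    rw [← h3] at h4
    by_contra hcon
    rw [not_le] at hcon
    have h8 : 0 ≤ β * κ := mul_nonneg hβ hκ
    nlinarith
  rw [← Real.sqrt_mul hβ]
  refine Real.le_sqrt_of_sq_le ?_
  rw [nrm_sq]
  exact h7

end Crest.Agent.R192
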