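import Crest.Agent.R192.Defs

/-! Row 192: combinatorics of times and loops. -/

set_option autoImplicit false
set_option linter.unusedSectionVars false
set_option linter.unusedVariables false

open scoped ContDiff Matrix Topology
open MeasureTheory

noncomputable section

namespace Crest.Agent.R192

section Times
variable {p : ℕ}

@[simp] theorem extT_castSucc (ξ : Tm p) (l : Fin (p + 1)) : extT ξ l.castSucc = ξ l := by
  simp [extT]

@[simp] theorem extT_last (ξ : Tm p) : extT ξ (Fin.last (p + 1)) = ξ 0 + 1 := by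
  simp [extT]

@[simp] theorem extT_zero (ξ : Tm p) : extT ξ 0 = ξ 0 := by
  exact extT_castSucc ξ 0

@[simp] theorem nxt_castSucc (ξ : Tm p) (j : Fin p) : nxt ξ j.castSucc = ξ j.succ := by
  rw [nxt, Fin.succ_castSucc, extT_castSucc]

@[simp] theorem nxt_last (ξ : Tm p) : nxt ξ (Fin.last p) = ξ 0 + 1 := by
  rw [nxt, Fin.succ_last, extT_last]

@[simp] theorem faceT_self (i : Fin (p + 2)) (ξ : Tm p) : faceT i ξ i = extT ξ i := by
  simp [faceT]

@[simp] theorem faceT_succAbove (i : Fin (p + 2)) (ξ : Tm p) (l : Fin (p + 1)) :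
    faceT i ξ (i.succAbove l) = ξ l := by
  simp [faceT]

theorem tim0_faceT_of_le {i l : Fin (p + 2)} (ξ : Tm p) (h : l ≤ i) : faceT i ξ l = extT ξ l := by
  rcases h.eq_or_lt with rfl | h
  · exact faceT_self _ ξ
  · obtain ⟨j, rfl⟩ := Fin.exists_castSucc_eq.2 (Fin.ne_last_of_lt h)
    rw [extT_castSucc, ← Fin.succAbove_of_castSucc_lt _ _ h, faceT_succAbove]

theorem tim0_faceT_succ {i : Fin (p + 2)} {l : Fin (p + 1)} (ξ : Tm p) (h : i ≤ l.castSucc) :
    faceT i ξ l.succ = ξ l := by
  rw [← Fin.succAbove_of_le_castSucc _ _ h, faceT_succAbove]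

theorem tim0_extT_add (ξ : Tm p) (t : ℝ) (l : Fin (p + 2)) :
    extT (fun l => ξ l + t) l = extT ξ l + t := by
  induction l using Fin.lastCases with
  | last => rw [extT_last, extT_last]; ring
  | cast j => rw [extT_castSucc, extT_castSucc]

theorem tim0_contDiff_extT (l : Fin (p + 2)) : ContDiff ℝ ∞ fun ξ : Tm p => extT ξ l := by
  induction l using Fin.lastCases with
  | last => simpa only [extT_last] using (contDiff_apply ℝ ℝ (0 : Fin (p + 1))).add contDiff_const
  | cast j => simpa only [extT_castSucc] using contDiff_apply ℝ ℝ j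

theorem faceT_zero (i : Fin (p + 2)) (ξ : Tm p) : faceT i ξ 0 = ξ 0 := by
  rw [tim0_faceT_of_le ξ (Fin.zero_le i), extT_zero]

theorem nxt_faceT_self (i : Fin (p + 2)) (ξ : Tm p) : nxt (faceT i ξ) i = faceT i ξ i := by
  induction i using Fin.lastCases with
  | last => rw [nxt_last, faceT_zero, faceT_self, extT_last]
  | cast j => rw [nxt_castSucc, tim0_faceT_succ ξ le_rfl, faceT_self, extT_castSucc]

theorem nxt_faceT_succAbove (i : Fin (p + 2)) (ξ : Tm p) (l : Fin (p + 1)) :
    nxt (faceT i ξ) (i.succAbove l) = nxt ξ l := by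
  by_cases h : l.castSucc < i
  · rw [Fin.succAbove_of_castSucc_lt _ _ h, nxt_castSucc,
      tim0_faceT_of_le ξ (Fin.castSucc_lt_iff_succ_le.1 h), nxt]
  · rw [not_lt] at h
    rw [Fin.succAbove_of_le_castSucc _ _ h]
    induction l using Fin.lastCases with
    | last => rw [Fin.succ_last, nxt_last, nxt_last, faceT_zero]
    | cast j =>
      rw [Fin.succ_castSucc, nxt_castSucc, nxt_castSucc, tim0_faceT_succ]
      exact h.trans (Fin.castSucc_le_castSucc_iff.2 (Fin.castSucc_le_succ j))

theorem nxt_add_const (ξ : Tm p) (t : ℝ) : nxt (fun l => ξ l + t) = fun l => nxt ξ l + t := by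
  funext l
  exact tim0_extT_add ξ t _

theorem faceT_add_const (i : Fin (p + 2)) (ξ : Tm p) (t : ℝ) :
    faceT i (fun l => ξ l + t) = fun l => faceT i ξ l + t := by
  funext l
  induction l using Fin.succAboveCases i with
  | x => rw [faceT_self, faceT_self, tim0_extT_add]
  | p j => rw [faceT_succAbove, faceT_succAbove]

theorem contDiff_nxt : ContDiff ℝ ∞ (nxt : Tm p → Tm p) := by
  exact contDiff_pi.2 fun l => tim0_contDiff_extT _

theorem contDiff_faceT (i : Fin (p + 2)) : ContDiff ℝ ∞ (faceT i : Tm p → Tm (p + 1)) := by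
  refine contDiff_pi.2 fun l => ?_
  induction l using Fin.succAboveCases i with
  | x => simpa only [faceT_self] using tim0_contDiff_extT i
  | p j => simpa only [faceT_succAbove] using contDiff_apply ℝ ℝ j

theorem sum_nxt_sub (ξ : Tm p) : ∑ l, (nxt ξ l - ξ l) = 1 := by
  rw [Finset.sum_sub_distrib, Fin.sum_univ_castSucc, Fin.sum_univ_succ (f := ξ)]
  simp only [nxt_castSucc, nxt_last]
  ring

theorem Sx.monotone_extT {ξ : Tm p} (h : Sx ξ) : Monotone (extT ξ) := by
  refine Fin.monotone_iff_le_succ.2 fun l => ?_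
  rw [extT_castSucc]
  exact h l

theorem Sx.le {ξ : Tm p} (h : Sx ξ) (l : Fin (p + 1)) : ξ 0 ≤ ξ l ∧ nxt ξ l ≤ ξ 0 + 1 := by
  refine ⟨?_, ?_⟩
  · simpa using h.monotone_extT (Fin.zero_le l.castSucc)
  · simpa [nxt] using h.monotone_extT (Fin.le_last l.succ)

/-! the gauge `ξ₀ = 0` -/

@[simp] theorem gz_zero (u : Fin p → ℝ) : gz u 0 = 0 := by
  rfl

@[simp] theorem gz_succ (u : Fin p → ℝ) (j : Fin p) : gz u j.succ = u j := by
  simp [gz]

theorem contDiff_gz : ContDiff ℝ ∞ (gz : (Fin p → ℝ) → Tm p) := by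
  refine contDiff_pi.2 fun l => ?_
  induction l using Fin.cases with
  | zero => exact contDiff_const
  | succ j => simpa only [gz_succ] using contDiff_apply ℝ ℝ j

/-- `gz` is linear -/
theorem fderiv_gz (u v : Fin p → ℝ) : fderiv ℝ (gz : (Fin p → ℝ) → Tm p) u v = gz v := by
  let L : (Fin p → ℝ) →ₗ[ℝ] Tm p :=
    { toFun := gz
      map_add' := fun x y => by
        funext l
        induction l using Fin.cases <;> simp
      map_smul' := fun c x => by
        funext l
        induction l using Fin.cases <;> simp }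
  exact DFunLike.congr_fun (LinearMap.toContinuousLinearMap L).fderiv v

theorem gz_single (j : Fin p) : gz (Pi.single j (1 : ℝ)) = Pi.single j.succ 1 := by
  funext l
  induction l using Fin.cases with
  | zero => simp
  | succ l => simp [Pi.single_apply]

theorem gz_δm (i : Fin (p + 2)) (u : Fin p → ℝ) : gz (δm i u) = faceT i (gz u) := by
  funext l
  induction l using Fin.cases with
  | zero => rw [faceT_zero]; rfl
  | succ l => rw [gz_succ, δm]

theorem gz_ρm (u : Fin p → ℝ) : gz (ρm u) = fun l => nxt (gz u) l - nxt (gz u) 0 := by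
  funext l
  induction l using Fin.cases with
  | zero => simp
  | succ l => rw [gz_succ, ρm]

theorem contDiff_δm (i : Fin (p + 2)) :
    ContDiff ℝ ∞ (δm i : (Fin p → ℝ) → Fin (p + 1) → ℝ) := by
  exact contDiff_pi.2 fun j =>
    (contDiff_apply ℝ ℝ j.succ).comp ((contDiff_faceT i).comp contDiff_gz)

theorem contDiff_ρm : ContDiff ℝ ∞ (ρm : (Fin p → ℝ) → Fin p → ℝ) := by
  exact contDiff_pi.2 fun j =>
    ((contDiff_apply ℝ ℝ j.succ).comp (contDiff_nxt.comp contDiff_gz)).sub
      ((contDiff_apply ℝ ℝ 0).comp (contDiff_nxt.comp contDiff_gz))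

theorem contDiff_gap (i : Fin (p + 1)) : ContDiff ℝ ∞ (gap i : (Fin p → ℝ) → ℝ) := by
  exact ((contDiff_apply ℝ ℝ i).comp (contDiff_nxt.comp contDiff_gz)).sub
    ((contDiff_apply ℝ ℝ i).comp contDiff_gz)

theorem δm_zero_zero (u : Fin p → ℝ) : δm 0 u 0 = 0 := by
  rw [δm, tim0_faceT_succ _ (Fin.zero_le _), gz_zero]

theorem δm_succ_zero (i : Fin (p + 1)) (u : Fin p → ℝ) : δm i.succ u 0 = gap 0 u := by
  rw [δm, tim0_faceT_of_le _ (Fin.succ_le_succ_iff.2 (Fin.zero_le i)), gap, gz_zero, sub_zero, nxt]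

theorem gap_zero_succ (u : Fin (p + 1) → ℝ) : gap 0 u = u 0 := by
  rw [gap, gz_zero, sub_zero]
  exact (nxt_castSucc (gz u) 0).trans (gz_succ u 0)

theorem gap_ρm (i : Fin (p + 1)) (u : Fin p → ℝ) : gap i (ρm u) = gap (i + 1) u := by
  rw [gap, gap, gz_ρm]
  have h := congrFun (nxt_add_const (nxt (gz u)) (-nxt (gz u) 0)) i
  simp only [← sub_eq_add_neg] at h
  rw [h]
  dsimp only
  induction i using Fin.lastCases with
  | last => rw [Fin.last_add_one, nxt_last, nxt_last]; ring
  | cast j => rw [Fin.coeSucc_eq_succ, nxt_castSucc, nxt_castSucc]; ring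

theorem sum_gap (u : Fin p → ℝ) : ∑ i, gap i u = 1 := by
  exact sum_nxt_sub (gz u)

theorem isOpen_So : IsOpen (So p) := by
  have : So p = ⋂ l, {u | 0 < gap l u} := by
    ext u; simp [So, gap]
  rw [this]
  exact isOpen_iInter_of_finite fun l => isOpen_lt continuous_const (contDiff_gap l).continuous

theorem sx_gz {u : Fin p → ℝ} (hu : u ∈ So p) : Sx (gz u) := by
  exact fun l => (hu l).le

theorem gap_mem {u : Fin p → ℝ} (hu : u ∈ So p) (i : Fin (p + 1)) :
    0 ≤ gap i u ∧ gap i u ≤ 1 := by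
  have h := (sx_gz hu).le i
  have h2 := sx_gz hu i
  rw [gap]
  constructor <;> linarith [h.1, h.2]

theorem So_subset : So p ⊆ Set.Icc (0 : Fin p → ℝ) 1 := by
  intro u hu
  refine ⟨fun j => ?_, fun j => ?_⟩
  · simpa using ((sx_gz hu).le j.succ).1
  · have h := ((sx_gz hu).le j.succ).2
    have h2 := sx_gz hu j.succ
    simpa using h2.trans h

end Times

end Crest.Agent.R192
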