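import Crest.Agent.R192.Two0

/-! Row 192: the two-level forms (second regime). -/

set_option autoImplicit false
set_option linter.unusedSectionVars false
set_option linter.unusedVariables false

open scoped ContDiff Matrix Topology
open MeasureTheory

noncomputable section

namespace Crest.Agent.R192

variable {G : Type} [Group G] {p : ℕ} {ℓ : G → ℝ} {γ T a b η : ℝ}

theorem two_cs {f : ℝ → ℝ} (hf : Continuous f) {x y : ℝ} (h : x ≤ y) :
    (∫ u in x..y, f u) ^ 2 ≤ (y - x) * ∫ u in x..y, f u ^ 2 := by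
  rcases h.eq_or_lt with rfl | h
  · simp
  set I := ∫ u in x..y, f u with hI
  have h0 : 0 ≤ ∫ u in x..y, ((y - x) * f u - I) ^ 2 :=
    intervalIntegral.integral_nonneg h.le fun u _ => sq_nonneg _
  have e : ∫ u in x..y, ((y - x) * f u - I) ^ 2 =
      (y - x) ^ 2 * (∫ u in x..y, f u ^ 2) - 2 * (y - x) * I * I + (y - x) * I ^ 2 := by
    have e1 : ∀ u, ((y - x) * f u - I) ^ 2 =
        (y - x) ^ 2 * f u ^ 2 - 2 * (y - x) * I * f u + I ^ 2 := fun u => by ring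
    simp only [e1]
    rw [intervalIntegral.integral_add (by apply Continuous.intervalIntegrable; fun_prop)
      (by apply Continuous.intervalIntegrable; fun_prop),
      intervalIntegral.integral_sub (by apply Continuous.intervalIntegrable; fun_prop)
      (by apply Continuous.intervalIntegrable; fun_prop),
      intervalIntegral.integral_const_mul, intervalIntegral.integral_const_mul,
      intervalIntegral.integral_const, smul_eq_mul]
  rw [e] at h0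
  have h1 : (y - x) * I ^ 2 ≤ (y - x) * ((y - x) * ∫ u in x..y, f u ^ 2) := by nlinarith
  exact le_of_mul_le_mul_left h1 (by linarith)

theorem two_ctm {V : ℝ × Tm p → G → ℝ} (hV : SmP V) (r ξ : Tm p) :
    CtM (fun u => gibbs (V (u, ξ))) (dv V r ξ) (dv V r ξ) := fun i l =>
  ((hV.comp (T := fun u : ℝ => (u, ξ)) (contDiff_id.prodMk contDiff_const)).contDiff_Ef
    ((hV.dv r ξ i).mul (hV.dv r ξ l))).continuous

theorem two_sqrt_le {x y : ℝ} (hy : 0 ≤ y) (h : x ≤ y ^ 2) : √x ≤ y :=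
  Real.sqrt_le_iff.2 ⟨hy, h⟩

/-- With `Y = dv (cv K DD)`, `X = dv (fld R_a)`: `c ⬝ᵥ Y s z = -∫ K v * Cv (V (s-v)) (c ⬝ᵥ X (s-v))
(k · z)` (`dotProduct_dv`, `dF_cv`, `dF_gav`), so by Cauchy-Schwarz and `Cv_sq_le`
`(c ⬝ᵥ Y)² ≤ 3η (γT)² ∫_{|u - s| ≤ 3η/2} E (c ⬝ᵥ X u)²`; conclude with `mom_quad`. -/
theorem dom_two (hℓ : IsLen ℓ) (hs : Summable fun x => Real.exp (-ℓ x / 2)) (hγ : 0 ≤ γ)
    (hT : 0 ≤ T) (ha : 0 < a) (hη : 0 < η) (L : Loop G p) (r ξ : Tm p) {μ : G → ℝ}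
    (hμ : Prob μ) {x y s : ℝ} (hs' : s ∈ Set.Icc x y) :
    Dom μ (dv (cv (Kη η) (DD ℓ γ T a) p L) r ξ s)
      (mom (x - 3 * η / 2) (y + 3 * η / 2) (fun u => gibbs (fld (Rη a) ℓ p L (u, ξ)))
        (dv (fld (Rη a) ℓ p L) r ξ) (dv (fld (Rη a) ℓ p L) r ξ)) (3 * η * (γ * T) ^ 2) := by
  have hV : SmP (fld (Rη a) ℓ p L) := smP_fld (rk_Rη ha) (contDiff_Rη a) hℓ hs L
  have hD := smF_DD hℓ hs hγ hT ha L
  have hk0 : ∀ x, 0 ≤ trc ℓ γ T x := fun x => mul_nonneg hγ (le_min (hℓ.nonneg x) hT)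
  have hk1 : ∀ x, trc ℓ γ T x ≤ γ * T := fun x => mul_le_mul_of_nonneg_left (min_le_right _ _) hγ
  have hkb : Bdd (trc ℓ γ T) := ⟨γ * T, fun x => by rw [abs_of_nonneg (hk0 x)]; exact hk1 x⟩
  refine ⟨fun _ => 3 * η * (γ * T) ^ 2, fun _ => by positivity, hμ.summable_mul (Bdd.const _),
    (hμ.ex_const _).le, fun z c => ?_⟩
  obtain ⟨hg, hq⟩ := mom_quad (ν := fun u => gibbs (fld (Rη a) ℓ p L (u, ξ)))
    (fun u => prob_gibbs (hV.summable _)) (W := dv (fld (Rη a) ℓ p L) r ξ)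
    (fun u i => (hV.dv r ξ i).bdd u) (two_ctm hV r ξ) (x - 3 * η / 2) (y + 3 * η / 2) c
  rw [hq]
  set g : ℝ → ℝ := fun u => Ex (gibbs (fld (Rη a) ℓ p L (u, ξ)))
    fun z => (c ⬝ᵥ dv (fld (Rη a) ℓ p L) r ξ u z) ^ 2 with hgdef
  have hg0 : ∀ u, 0 ≤ g u := fun u => (prob_gibbs (hV.summable _)).ex_nonneg fun _ => sq_nonneg _
  set f : ℝ → ℝ := fun u => dF (DD ℓ γ T a p L) (u, ξ) (fun l => c l / r l) z with hfdef
  have hf : Continuous f :=
    ((hD.dF _).contDiff_apply z).continuous.comp (continuous_id.prodMk continuous_const)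
  have hfg : ∀ u, f u ^ 2 ≤ (γ * T) ^ 2 * g u := by
    intro u
    have e : f u = -Cv (fld (Rη a) ℓ p L (u, ξ)) (dF (fld (Rη a) ℓ p L) (u, ξ) fun l => c l / r l)
        fun y => trc ℓ γ T (y⁻¹ * z) := dF_gav hV hkb _ _ _
    rw [e, neg_sq]
    refine (Cv_sq_le (hV.summable _) ((hV.dF _).bdd _) (fun _ => hk0 _) fun _ => hk1 _).trans
      (le_of_eq ?_)
    simp only [hgdef, dotProduct_dv, Ef]
  have hK := kb_Kη hη
  have hKc := (contDiff_Kη η).continuous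
  rw [dotProduct_dv, dF_cv hD hK hKc]
  have e1 : ∫ v, Kη η v * f (s - v) = ∫ v in (-(3 * η / 2))..(3 * η / 2), Kη η v * f (s - v) := by
    rw [intervalIntegral.integral_of_le (by linarith), ← integral_Icc_eq_integral_Ioc,
      setIntegral_eq_integral_of_forall_compl_eq_zero]
    intro v hv
    rw [hK.2 v, zero_mul]
    by_contra h
    exact hv (abs_le.1 (not_lt.1 h))
  change (∫ v, Kη η v * f (s - v)) ^ 2 ≤ _
  rw [e1]
  refine (two_cs (by fun_prop) (by linarith)).trans ?_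
  have h2 : ∫ v in (-(3 * η / 2))..(3 * η / 2), (Kη η v * f (s - v)) ^ 2 ≤
      ∫ v in (-(3 * η / 2))..(3 * η / 2), (γ * T) ^ 2 * g (s - v) := by
    refine intervalIntegral.integral_mono_on (by linarith)
      (by apply Continuous.intervalIntegrable; fun_prop)
      (by apply Continuous.intervalIntegrable; fun_prop) fun v _ => ?_
    have h3 : Kη η v ^ 2 ≤ 1 := by
      rw [← sq_abs]; exact pow_le_one₀ (abs_nonneg _) (hK.1 v)
    rw [mul_pow]
    exact (mul_le_of_le_one_left (sq_nonneg _) h3).trans (hfg _)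
  rw [intervalIntegral.integral_const_mul, intervalIntegral.integral_comp_sub_left g] at h2
  have h4 : ∫ u in (s - 3 * η / 2)..(s - -(3 * η / 2)), g u ≤
      ∫ u in (x - 3 * η / 2)..(y + 3 * η / 2), g u :=
    intervalIntegral.integral_mono_interval (by linarith [hs'.1]) (by linarith) (by linarith [hs'.2])
      (Filter.Eventually.of_forall hg0) (hg.intervalIntegrable _ _)
  have h5 := h2.trans (mul_le_mul_of_nonneg_left h4 (sq_nonneg _))
  calc _ ≤ (3 * η / 2 - -(3 * η / 2)) * ((γ * T) ^ 2 * ∫ u in (x - 3 * η / 2)..(y + 3 * η / 2), g u) :=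
        mul_le_mul_of_nonneg_left h5 (by linarith)
    _ = _ := by ring

/-- `nuc_gen`, `covv_gen_le`; for the cost apply `cell` to `mix_gen_one` with the matrices of
`dom_two`: `τ = 6 * 28 N / a` (`sum_trace_mom_le`, `vb_dv_R`), `κ = 3η (γT)²`, and the
second factor has `VB (4 * 4104 Γ² N / η)` (`VB.tl` with `c = 0`). -/
theorem good_two (hℓ : IsLen ℓ) (hs : Summable fun x => Real.exp (-ℓ x / 2)) (hγ : 0 ≤ γ)
    (hT : 0 ≤ T) (ha : 0 < a) (haη : a ≤ η) (hηb : η ≤ b) (hb : b ≤ 1) {nc k : ℕ}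
    (hnc : nc * η = 1) (hk : 1 ≤ k) {ε lam : ℝ} (hε : 0 < ε) (hlam : 0 < lam) (L : Loop G p)
    (ξ : Tm p) :
    Good ε (lam * (nc * k) + 10 ^ 4 * (1 + γ * T) ^ 2 * (p + 1) / (ε * lam)
        + 10 ^ 4 * (1 + γ * T) ^ 2 * (p + 1) * √(η / (a * k)) / ε)
      (10 ^ 4 * (1 + γ * T) ^ 2 * (p + 1)) (two ℓ γ T a b η p L) (rr ℓ L) ξ := by
  have hη : 0 < η := ha.trans_le haη
  have hb0 : 0 < b := hη.trans_le hηb
  have hη1 : η ≤ 1 := hηb.trans hb
  have hV := smP_V2 hℓ hs hγ hT ha hb0 hη L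
  have hU := (smF_DD hℓ hs hγ hT ha L).cv (kb_Kη hη) (contDiff_Kη η).continuous
  have hA := vb_dv_V2 hℓ hs hγ hT ha haη hηb hb L ξ
  have hB := vb_dv_U2 hℓ hs hγ hT ha haη hη1 L ξ
  have hφ : ContDiff ℝ ∞ fun _ : ℝ => (1 : ℝ) := contDiff_const
  have h1 : ∀ x : ℝ, |(fun _ : ℝ => (1 : ℝ)) x| ≤ 1 := fun _ => by simp
  have h2 : ∀ x : ℝ, |deriv (fun _ : ℝ => (1 : ℝ)) x| ≤ 0 := fun _ => by simp
  set N : ℝ := p + 1 with hN
  have hN1 : 1 ≤ N := by have : (0 : ℝ) ≤ p := p.cast_nonneg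
                         linarith
  set g := γ * T with hg
  have hg0 : 0 ≤ g := mul_nonneg hγ hT
  have hgg : g ^ 2 ≤ (1 + g) ^ 2 := by nlinarith
  have hG1 : 1 ≤ (1 + g) ^ 2 := by nlinarith
  have hAB : √(4104 * (1 + g) ^ 2 * N / η * (3600 * g ^ 2 * N * η)) ≤ 5000 * (1 + g) ^ 2 * N := by
    refine two_sqrt_le (by positivity) ?_
    calc _ = 4104 * 3600 * ((1 + g) ^ 2 * N ^ 2) * g ^ 2 := by field_simp
      _ ≤ 5000 ^ 2 * ((1 + g) ^ 2 * N ^ 2) * (1 + g) ^ 2 := by gcongr; norm_num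
      _ = _ := by ring
  refine ⟨⟨?_, ?_⟩, ?_⟩
  · have hnc1 : 1 ≤ nc := by
      rcases Nat.eq_zero_or_pos nc with rfl | h
      · simp at hnc
      · exact h
    have hnc0 : (0 : ℝ) < nc := by exact_mod_cast hnc1
    have hk0 : (0 : ℝ) < k := by exact_mod_cast hk
    have hR : SmP (fld (Rη a) ℓ p L) := smP_fld (rk_Rη ha) (contDiff_Rη a) hℓ hs L
    have hW := vb_dv_R ha zero_le_one hℓ L (rr_pos hℓ L)
      (fun l => by rw [one_mul, rr]; linarith) ξ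
    have hτ := sum_trace_mom_le (ν := fun _ u => gibbs (fld (Rη a) ℓ p L (u, ξ)))
      (fun _ u => prob_gibbs (hR.summable _)) hW (fun _ => two_ctm hR _ ξ) hnc1
      (w := 3 * η / 2) (by positivity)
    have hτ' : (2 * (3 * η / 2) * nc + 3) * (14 * 1 ^ 2 * N * (1 + a) / a) ≤ 168 * N / a := by
      rw [show 2 * (3 * η / 2) * nc + 3 = 3 * (nc * η) + 3 by ring, hnc, ← mul_div_assoc]
      refine div_le_div_of_nonneg_right ?_ ha.le
      have := mul_le_mul_of_nonneg_left (haη.trans hη1) (by linarith : 0 ≤ N)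
      linarith
    have hc := cell (μ := fun s => gibbs (V2 ℓ γ T a b η p L (s, ξ)))
      (fun s => prob_gibbs (hV.summable _)) hB
      (hA.tl (V := fun s => V2 ℓ γ T a b η p L (s, ξ)) (fun s => prob_gibbs (hV.summable _)) h1 h2)
      (ctM_gen_one hV hU _ ξ) hnc1 hk
      (Γ := fun I => mom ((I : ℝ) / nc - 3 * η / 2) (((I : ℝ) + 1) / nc + 3 * η / 2)
        (fun u => gibbs (fld (Rη a) ℓ p L (u, ξ))) (dv (fld (Rη a) ℓ p L) (rr ℓ L) ξ)
        (dv (fld (Rη a) ℓ p L) (rr ℓ L) ξ))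
      (fun I _ => mom_posSemidef (fun u => prob_gibbs (hR.summable _))
        (fun u i => (hR.dv _ ξ i).bdd u) (two_ctm hR _ ξ) (by
          have : (I : ℝ) / nc ≤ ((I : ℝ) + 1) / nc := by gcongr; linarith
          linarith))
      (hτ.trans hτ') (κ := 3 * η * g ^ 2) (by positivity) hε hlam
      (fun I _ s hs' => Or.inr (dom_two hℓ hs hγ hT ha hη L _ ξ (prob_gibbs (hV.summable _)) hs'))
    rw [← mix_gen_one hV hU] at hc
    refine hc.transpose.mono (add_le_add (add_le_add le_rfl ?_) ?_)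
    · refine div_le_div_of_nonneg_right (two_sqrt_le (by positivity) ?_) (by positivity)
      calc _ = 4 * 4104 * 3600 * ((1 + g) ^ 2 * N ^ 2) * g ^ 2 := by field_simp; ring
        _ ≤ (10 ^ 4) ^ 2 * ((1 + g) ^ 2 * N ^ 2) * (1 + g) ^ 2 := by gcongr; norm_num
        _ = _ := by ring
    · refine div_le_div_of_nonneg_right (two_sqrt_le (by positivity) ?_) hε.le
      have hnη : (nc : ℝ) = 1 / η := by rw [eq_div_iff hη.ne', hnc]
      rw [mul_pow _ (√_), Real.sq_sqrt (by positivity), hnη]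
      calc _ = 3 * 168 * 4 * 4104 * ((1 + g) ^ 2 * N ^ 2 * (η / (a * k))) * g ^ 2 := by
            field_simp; ring
        _ ≤ (10 ^ 4) ^ 2 * ((1 + g) ^ 2 * N ^ 2 * (η / (a * k))) * (1 + g) ^ 2 := by
            gcongr; norm_num
        _ = _ := by ring
  · refine (covv_gen_le hφ hV hU h1 hB).trans (two_sqrt_le (by positivity) ?_)
    calc 3600 * g ^ 2 * N * η ≤ 3600 * (1 + g) ^ 2 * N * 1 := by gcongr
      _ = 3600 * ((1 + g) ^ 2 * N) * 1 := by ring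
      _ ≤ (10 ^ 4) ^ 2 * ((1 + g) ^ 2 * N) * ((1 + g) ^ 2 * N) := by
          gcongr
          · norm_num
          · nlinarith
      _ = _ := by ring
  · refine (nuc_gen hφ hV hU h1 h2 hA hB).mono ?_
    linarith

theorem natG_ΛB (hℓ : IsLen ℓ) (hs : Summable fun x => Real.exp (-ℓ x / 2)) (hγ : 0 ≤ γ)
    (hT : 0 ≤ T) {n : ℕ} (hn : 1 ≤ n) (j J : ℕ) : NatG (ΛB ℓ γ T n j J) := by
  exact NatG.sum _ fun i _ => natG_two hℓ hs hγ hT (sc_pos hn _) (sc_pos hn _) (sc_pos hn _)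

/-- `good_two` at scale `j` with `nc = 2 ^ (4ν - j)`, `k = 2 ^ (j - 4t) * 4 ^ t`, `lam = 2 ^ t`:
`lam nc k = n / 2 ^ t`, `√(η / (a k)) = 1 / 2 ^ t`, `N ≤ 3 n`; then `Good.sum` -/
theorem good_ΛB (hℓ : IsLen ℓ) (hs : Summable fun x => Real.exp (-ℓ x / 2)) (hγ : 0 ≤ γ)
    (hT : 0 ≤ T) {ν t J : ℕ} (hJ : J ≤ 4 * ν) {ε : ℝ} (hε : 0 < ε) (hp : p ≤ 2 * 16 ^ ν)
    (L : Loop G p) (ξ : Tm p) :
    Good ε (J * (16 ^ ν * ((1 + 6 * 10 ^ 4 * (1 + γ * T) ^ 2 / ε) / 2 ^ t)))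
      (J * (3 * 10 ^ 4 * (1 + γ * T) ^ 2 * 16 ^ ν)) (ΛB ℓ γ T (16 ^ ν) (4 * t) J p L)
      (rr ℓ L) ξ := by
  have hn : 1 ≤ 16 ^ ν := Nat.one_le_pow _ _ (by norm_num)
  have e16 : ((16 ^ ν : ℕ) : ℝ) = 2 ^ (4 * ν) := by push_cast; rw [pow_mul]; norm_num
  have e16' : (16 : ℝ) ^ ν = 2 ^ (4 * ν) := by rw [pow_mul]; norm_num
  have hN : (p : ℝ) + 1 ≤ 3 * 16 ^ ν := by exact_mod_cast (by omega : p + 1 ≤ 3 * 16 ^ ν)
  have hg0 : 0 ≤ γ * T := mul_nonneg hγ hT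
  have hgood := Good.sum (Finset.Ico (4 * t) J)
    (Λ := fun j => two ℓ γ T (sc (16 ^ ν) (4 * t)) (sc (16 ^ ν) J) (sc (16 ^ ν) j))
    (fun i _ => natG_two hℓ hs hγ hT (sc_pos hn _) (sc_pos hn _) (sc_pos hn _))
    (L := L) (r := rr ℓ L) (ξ := ξ) (ε := ε)
    (c := fun _ => 16 ^ ν * ((1 + 6 * 10 ^ 4 * (1 + γ * T) ^ 2 / ε) / 2 ^ t))
    (B := fun _ => 3 * 10 ^ 4 * (1 + γ * T) ^ 2 * 16 ^ ν) fun j hj => by
      obtain ⟨hj1, hj2⟩ := Finset.mem_Ico.1 hj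
      obtain ⟨d, rfl⟩ := Nat.exists_eq_add_of_le hj1
      obtain ⟨m, hm⟩ := Nat.exists_eq_add_of_le (show 4 * t + d ≤ 4 * ν by omega)
      have h := good_two hℓ hs hγ hT (sc_pos hn (4 * t)) (sc_mono _ hj1) (sc_mono _ hj2.le)
        (b := sc (16 ^ ν) J) (by
          rw [sc, e16, div_le_one (by positivity)]
          exact pow_le_pow_right₀ (by norm_num) hJ)
        (nc := 2 ^ m) (k := 2 ^ d * 4 ^ t) (by
          rw [sc, e16, hm]; push_cast; field_simp; ring)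
        (Nat.mul_pos (by positivity) (by positivity)) hε (lam := 2 ^ t) (by positivity) L ξ
      have e4 : (4 : ℝ) ^ t = 2 ^ t * 2 ^ t := by rw [← mul_pow]; norm_num
      have e1 : (2 : ℝ) ^ t * (((2 ^ m : ℕ) : ℝ) * ((2 ^ d * 4 ^ t : ℕ) : ℝ)) = 16 ^ ν / 2 ^ t := by
        rw [e16', hm]; push_cast; rw [e4]; field_simp; ring
      have e2 : √(sc (16 ^ ν) (4 * t + d) / (sc (16 ^ ν) (4 * t) * ((2 ^ d * 4 ^ t : ℕ) : ℝ))) =
          1 / 2 ^ t := by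
        rw [Real.sqrt_eq_iff_mul_self_eq (by have := sc_pos hn (4 * t); have := sc_pos hn (4 * t + d)
                                             positivity) (by positivity)]
        unfold sc
        push_cast
        rw [e4]; field_simp; ring
      rw [e1, e2] at h
      refine h.mono ?_ ?_
      · calc _ ≤ 16 ^ ν / 2 ^ t + 10 ^ 4 * (1 + γ * T) ^ 2 * (3 * 16 ^ ν) / (ε * 2 ^ t) +
              10 ^ 4 * (1 + γ * T) ^ 2 * (3 * 16 ^ ν) * (1 / 2 ^ t) / ε := by gcongr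
          _ = _ := by field_simp; ring
      · calc _ ≤ 10 ^ 4 * (1 + γ * T) ^ 2 * (3 * 16 ^ ν) := by gcongr
          _ = _ := by ring
  have hcard : ((Finset.Ico (4 * t) J).card : ℝ) ≤ J := by
    rw [Nat.card_Ico]; exact_mod_cast Nat.sub_le _ _
  refine hgood.mono ?_ ?_ <;> rw [Finset.sum_const, nsmul_eq_mul] <;> gcongr

theorem en_ΛB_ge (hℓ : IsLen ℓ) (hs : Summable fun x => Real.exp (-ℓ x / 2)) (hγ : 0 ≤ γ)
    (hT : 0 ≤ T) {n j J : ℕ} (hn : 1 ≤ n) (hj : j ≤ J) (L : Loop G p) (ξ : Tm p) :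
    IF (V2 ℓ γ T (sc n j) (sc n J) (sc n J) p L) ξ - IF (V2 ℓ γ T (sc n j) (sc n J) (sc n j) p L) ξ
      ≤ en (ΛB ℓ γ T n j J p L) ξ := by
  rw [ΛB, en_sum _ (fun i _ => natG_two hℓ hs hγ hT (sc_pos hn _) (sc_pos hn _) (sc_pos hn _)),
    ← Finset.sum_Ico_sub (fun i => IF (V2 ℓ γ T (sc n j) (sc n J) (sc n i) p L) ξ) hj]
  refine Finset.sum_le_sum fun i _ => ?_
  rw [sc_succ]
  exact en_two_ge hℓ hs hγ hT (sc_pos hn _) (sc_pos hn _) (sc_pos hn _) L ξ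

end Crest.Agent.R192
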