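import Crest.Agent.R192.Lev

/-! Row 192: the two-level forms (second regime). -/

set_option autoImplicit false
set_option linter.unusedSectionVars false
set_option linter.unusedVariables false

open scoped ContDiff Matrix Topology
open MeasureTheory

noncomputable section

namespace Crest.Agent.R192

variable {G : Type} [Group G] {p : ℕ} {ℓ : G → ℝ} {γ T a b η : ℝ}

theorem two0_le (hγ : 0 ≤ γ) (x : G) : trc ℓ γ T x ≤ γ * T :=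
  mul_le_mul_of_nonneg_left (min_le_right _ _) hγ

theorem two0_bdd (hℓ : IsLen ℓ) (hγ : 0 ≤ γ) (hT : 0 ≤ T) : Bdd (trc ℓ γ T) :=
  ⟨γ * T, fun x => by
    rw [abs_of_nonneg ((hℓ.trc hγ hT).nonneg x)]
    exact two0_le hγ x⟩

theorem eqv_DD : Eqv (DD ℓ γ T a) := (eqv_fld _ _).gav _

theorem smF_DD (hℓ : IsLen ℓ) (hs : Summable fun x => Real.exp (-ℓ x / 2)) (hγ : 0 ≤ γ)
    (hT : 0 ≤ T) (ha : 0 < a) (L : Loop G p) : SmF (DD ℓ γ T a p L) :=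
  (smP_fld (rk_Rη ha) (contDiff_Rη a) hℓ hs L).gav (two0_bdd hℓ hγ hT)

theorem DD_mem (hℓ : IsLen ℓ) (hs : Summable fun x => Real.exp (-ℓ x / 2)) (hγ : 0 ≤ γ)
    (hT : 0 ≤ T) (ha : 0 < a) (L : Loop G p) (q : ℝ × Tm p) (z : G) :
    0 ≤ DD ℓ γ T a p L q z ∧ DD ℓ γ T a p L q z ≤ γ * T := by
  have hp := prob_gibbs ((smP_fld (rk_Rη ha) (contDiff_Rη a) hℓ hs L).summable q)
  refine ⟨hp.ex_nonneg fun y => (hℓ.trc hγ hT).nonneg _,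
    (le_abs_self _).trans (hp.abs_ex_le fun y => ?_)⟩
  rw [abs_of_nonneg ((hℓ.trc hγ hT).nonneg _)]
  exact two0_le hγ _

theorem eqv_V2 : Eqv (V2 ℓ γ T a b η) := (eqv_fld _ _).add (eqv_DD.cv _)

theorem smP_V2 (hℓ : IsLen ℓ) (hs : Summable fun x => Real.exp (-ℓ x / 2)) (hγ : 0 ≤ γ)
    (hT : 0 ≤ T) (ha : 0 < a) (hb : 0 < b) (hη : 0 < η) (L : Loop G p) :
    SmP (V2 ℓ γ T a b η p L) :=
  (smP_fld (rk_Rη hb) (contDiff_Rη b) hℓ hs L).add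
    ((smF_DD hℓ hs hγ hT ha L).cv (kb_ρη hη) (contDiff_ρη η).continuous)

theorem adm_V2 (hℓ : IsLen ℓ) {Z : ℝ} (hs : Summable fun x => Real.exp (-ℓ x / 2))
    (hZ : ∑' x, Real.exp (-ℓ x / 2) ≤ Z) (hγ : 0 ≤ γ) (hT : 0 ≤ T) (ha : 0 < a) (hb : 0 < b)
    (hη : 0 < η) (L : Loop G p) (s : ℝ) {ξ : Tm p} (hξ : Sx ξ) :
    Adm Z (V2 ℓ γ T a b η p L (s, ξ)) :=
  (adm_fld (L := L) (s := s) (rk_Rη hb) hℓ hs hZ hξ).mono fun z => le_add_of_nonneg_right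
    (integral_nonneg fun v => mul_nonneg (ρη_nonneg hη v) (DD_mem hℓ hs hγ hT ha L _ z).1)

theorem natG_two (hℓ : IsLen ℓ) (hs : Summable fun x => Real.exp (-ℓ x / 2)) (hγ : 0 ≤ γ)
    (hT : 0 ≤ T) (ha : 0 < a) (hb : 0 < b) (hη : 0 < η) : NatG (two ℓ γ T a b η) :=
  natG_gen contDiff_const eqv_V2 (eqv_DD.cv _) (fun _ L => smP_V2 hℓ hs hγ hT ha hb hη L)
    fun _ L => (smF_DD hℓ hs hγ hT ha L).cv (kb_Kη hη) (contDiff_Kη η).continuous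

/-- `en_gen_ge`, `dF_cv_one`, `deriv_Kη`, `cv_sub` -/
theorem en_two_ge (hℓ : IsLen ℓ) (hs : Summable fun x => Real.exp (-ℓ x / 2)) (hγ : 0 ≤ γ)
    (hT : 0 ≤ T) (ha : 0 < a) (hb : 0 < b) (hη : 0 < η) (L : Loop G p) (ξ : Tm p) :
    IF (V2 ℓ γ T a b (2 * η) p L) ξ - IF (V2 ℓ γ T a b η p L) ξ
      ≤ en (two ℓ γ T a b η p L) ξ := by
  have hD := smF_DD hℓ hs hγ hT ha L
  have hη2 : 0 < 2 * η := by positivity
  have hV := smP_V2 hℓ hs hγ hT ha hb hη L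
  have hW := smP_V2 hℓ hs hγ hT ha hb hη2 L
  refine le_trans (le_of_eq ?_) (en_gen_ge (φ := fun _ => 1) contDiff_const (fun _ => zero_le_one)
    hV (hD.cv (kb_Kη hη) (contDiff_Kη η).continuous) hW ξ fun s z => ?_)
  · simp only [one_mul]
    exact (intervalIntegral.integral_sub ((hW.continuous_Ff ξ).intervalIntegrable _ _)
      ((hV.continuous_Ff ξ).intervalIntegrable _ _)).symm
  · rw [dF_cv_one eqv_DD hD (kb_Kη hη) (contDiff_Kη η), deriv_Kη, cv_sub hD (kb_ρη hη2)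
      (contDiff_ρη _).continuous (kb_ρη hη) (contDiff_ρη _).continuous]
    simp only [V2, Pi.add_apply]
    ring

theorem two0_jump (L : Loop G p) (l : Fin (p + 1)) : ℓ (L.jump l) ≤ 1 * rr ℓ L l := by
  simp [rr]

theorem two0_locB (hℓ : IsLen ℓ) (hs : Summable fun x => Real.exp (-ℓ x / 2)) (hγ : 0 ≤ γ)
    (hT : 0 ≤ T) (ha : 0 < a) (L : Loop G p) (ξ : Tm p) {Q : ℝ → ℝ} {h w : ℝ} (hQ : KB Q h w)
    (hc : Continuous Q) (hw : 0 ≤ w) :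
    VB ((3 * (γ * T) * h) ^ 2 * ((p + 1) * ((6 * (w + 9 * a / 4) + 1) * (4 * (w + 9 * a / 4)))))
      (dv (cv Q (DD ℓ γ T a) p L) (rr ℓ L) ξ) := by
  have hh := hQ.nonneg
  have h1 := locB_cv (smF_DD hℓ hs hγ hT ha L) hQ hc hw (by positivity) (by positivity)
    (locB_gav (smP_fld (rk_Rη ha) (contDiff_Rη a) hℓ hs L) (hℓ.trc hγ hT).nonneg (two0_le hγ)
      (locB_dv_R ha hℓ L (rr_pos hℓ L) (two0_jump L) ξ))
  refine (h1.vb (by positivity) (by positivity)).mono (le_of_eq ?_)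
  field_simp
  ring

/-- `dv V2 = dv (fld R_b) + dv (cv ρ_η DD)`.  First part: `vb_dv_R`, `≤ 28 N / η`.  Second:
`locB_dv_R`, `locB_gav`, `locB_cv` give `h = 3 γ T / η`, `w = 3η/4 + 9a/4 ≤ 3η`, so `LocB.vb`
gives `≤ 9 (γT)² η⁻² N * 19 * 12 η = 2052 (γT)² N / η`. -/
theorem vb_dv_V2 (hℓ : IsLen ℓ) (hs : Summable fun x => Real.exp (-ℓ x / 2)) (hγ : 0 ≤ γ)
    (hT : 0 ≤ T) (ha : 0 < a) (haη : a ≤ η) (hηb : η ≤ b) (hb : b ≤ 1) (L : Loop G p)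
    (ξ : Tm p) :
    VB (4104 * (1 + γ * T) ^ 2 * (p + 1) / η) (dv (V2 ℓ γ T a b η p L) (rr ℓ L) ξ) := by
  have hη : 0 < η := ha.trans_le haη
  have hb0 : 0 < b := hη.trans_le hηb
  have h1 := vb_dv_R hb0 zero_le_one hℓ L (rr_pos hℓ L) (two0_jump L) ξ
  have h2 := two0_locB hℓ hs hγ hT ha L ξ (kb_ρη hη) (contDiff_ρη η).continuous (by positivity)
  have e : dv (V2 ℓ γ T a b η p L) (rr ℓ L) ξ = fun s z => dv (fld (Rη b) ℓ p L) (rr ℓ L) ξ s z +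
      dv (cv (ρη η) (DD ℓ γ T a) p L) (rr ℓ L) ξ s z := by
    funext s z l
    simp only [dv, Pi.add_apply]
    rw [← add_div, ← dF_add ((smP_fld (rk_Rη hb0) (contDiff_Rη b) hℓ hs L).contDiff_apply z)
      (((smF_DD hℓ hs hγ hT ha L).cv (kb_ρη hη) (contDiff_ρη η).continuous).contDiff_apply z)]
    rfl
  rw [e]
  refine (h1.add h2).mono ?_
  have hΓ : 0 ≤ γ * T := mul_nonneg hγ hT
  generalize γ * T = Γ at hΓ ⊢
  calc _ ≤ 2 * (14 * 1 ^ 2 * (p + 1) * (1 + 1) / η) + 2 * ((3 * Γ * (1 / η)) ^ 2 *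
        ((p + 1) * ((6 * (3 * 1 / 4 + 9 * 1 / 4) + 1) * (4 * (3 * η / 4 + 9 * η / 4))))) := by
        have := hηb.trans hb
        have := haη.trans this
        gcongr
    _ = (56 + 4104 * Γ ^ 2) * (p + 1) / η := by
        field_simp
        ring
    _ ≤ _ := by
        gcongr
        nlinarith

/-- `h = 3 γ T`, `w = 3η/2 + 9a/4 ≤ 4η`: `9 (γT)² N * 25 * 16 η` -/
theorem vb_dv_U2 (hℓ : IsLen ℓ) (hs : Summable fun x => Real.exp (-ℓ x / 2)) (hγ : 0 ≤ γ)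
    (hT : 0 ≤ T) (ha : 0 < a) (haη : a ≤ η) (hη1 : η ≤ 1) (L : Loop G p) (ξ : Tm p) :
    VB (3600 * (γ * T) ^ 2 * (p + 1) * η) (dv (cv (Kη η) (DD ℓ γ T a) p L) (rr ℓ L) ξ) := by
  have hη : 0 < η := ha.trans_le haη
  refine (two0_locB hℓ hs hγ hT ha L ξ (kb_Kη hη) (contDiff_Kη η).continuous
    (by positivity)).mono ?_
  calc _ ≤ (3 * (γ * T) * 1) ^ 2 * ((p + 1) * (25 * (16 * η))) := by
        gcongr _ * (_ * (?_ * ?_)) <;> linarith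
    _ = _ := by ring

end Crest.Agent.R192
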